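import Vale.Agent.P159.H145.Spc0

/-!
P159 (helper764), S, module CUT: **the bridge** (row 8805 of helper145): the decorations of the cut are
functions of the window data.

* `sum_muK`, `sum_wB`, `mn_muK` : sums against the weights of helper145 on the torus;
* `tnZ_eq` : the tent average of the window data;
* `half_eq` : one core;
* `bridge` : **`BridgeP (T0 κ n k q D) (T1 κ n k q D) i n k q R (muK (sd i R) (lC n k) κ) g`** for every
  kernel `κ` of mass one on the box of radius `lC n k`; `bridge_flow`.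
-/

set_option linter.unusedSectionVars false

open Finset

namespace Vale.Agent.P159.H764.Tk

open Vale.Agent.P159.TM.Spec (V)
open Vale.Agent.P159.H817 (sz U U_zero sz_add_le dec edec vma_XX)
open Vale.Agent.P159.H733.Torg (ip ip_sub)
open Vale.Agent.P159.H191 (mn chi dcs)
open Vale.Agent.P159.H708 (Bx wd wd_inl wd_inr)
open Vale.Agent.P159.H686 (wdS)
open Vale.Agent.P159.H773 (sd ax0 wdF)
open Vale.Agent.P159.H276 (bxT)
open Vale.Agent.P159.H447 (tent)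
open Vale.Agent.P159.H145.Sp (bZ zL zR bxZ tnZ chZ mnZ dcZ T0 T1 wB muK lC l0C DC HF dcR BridgeP chZ_zero)

noncomputable section

variable {N : ℕ} [NeZero N]

/-! ### integer points -/

lemma mem_bZ {s : ℕ} {ζ : ℤ × ℤ} : ζ ∈ bZ s ↔ ζ.1.natAbs ≤ s ∧ ζ.2.natAbs ≤ s := by
  unfold bZ
  rw [Finset.mem_product, Finset.mem_Icc, Finset.mem_Icc]
  omega

/-- the representative of a vertex -/
def li (x : V N) : ℤ × ℤ := (x.1.valMinAbs, x.2.valMinAbs)

lemma ip_li (x : V N) : ip N (li x) = x := by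
  unfold ip li
  simp only [ZMod.coe_valMinAbs]

lemma ip_add (ζ ζ' : ℤ × ℤ) : ip N (ζ + ζ') = ip N ζ + ip N ζ' := by
  unfold ip
  simp

lemma li_ip {ζ : ℤ × ℤ} {s : ℕ} (h : ζ ∈ bZ s) (hN : 2 * s < N) : li (ip N ζ) = ζ := by
  rw [mem_bZ] at h
  unfold li ip
  simp only
  rw [vma_XX (by omega), vma_XX (by omega)]

lemma sz_li (x : V N) : sz x = max (li x).1.natAbs (li x).2.natAbs := rfl

lemma sz_ip {ζ : ℤ × ℤ} {s : ℕ} (h : ζ ∈ bZ s) (hN : 2 * s < N) :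
    sz (ip N ζ) = max ζ.1.natAbs ζ.2.natAbs := by
  rw [sz_li, li_ip h hN]

lemma sz_ip_le {ζ : ℤ × ℤ} {s : ℕ} (h : ζ ∈ bZ s) : sz (ip N ζ) ≤ s := by
  rw [mem_bZ] at h
  unfold sz ip
  exact max_le ((H733.Torg.av_le_of_cast rfl).trans h.1) ((H733.Torg.av_le_of_cast rfl).trans h.2)

/-! ### weights -/

/-- **sums against the kernel weights** -/
theorem sum_muK (ρ : ℕ) (κ : ℤ × ℤ → ℝ) (f : V N → ℝ) :
    ∑ v, muK N ρ κ v * f v = ∑ u ∈ bZ ρ, κ u * f (ip N u) := by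
  unfold muK
  simp only [Finset.sum_mul]
  rw [Finset.sum_comm]
  refine Finset.sum_congr rfl fun u _ => ?_
  rw [Finset.sum_eq_single (ip N u)]
  · have h : ip N u = (((u.1 : ℤ) : ZMod N), ((u.2 : ℤ) : ZMod N)) := rfl
    rw [if_pos h]
  · intro v _ hv
    have h : ¬ v = (((u.1 : ℤ) : ZMod N), ((u.2 : ℤ) : ZMod N)) := hv
    rw [if_neg h, zero_mul]
  · intro h
    exact absurd (Finset.mem_univ _) h

lemma mn_muK (ρ : ℕ) (κ : ℤ × ℤ → ℝ) (c : V N) (H : V N → ℝ) :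
    mn (muK N ρ κ) c H = ∑ u ∈ bZ ρ, κ u * H (c + ip N u) := by
  unfold mn
  rw [← sum_muK ρ κ fun y => H (c + y), ← Equiv.sum_comp (Equiv.subRight c) fun y =>
    muK N ρ κ y * H (c + y)]
  refine Finset.sum_congr rfl fun y _ => ?_
  simp only [Equiv.subRight_apply]
  rw [add_sub_cancel]

/-- **sums against the uniform weights** -/
theorem sum_wB {ρ : ℕ} (hN : 2 * ρ < N) (f : V N → ℝ) :
    ∑ v, wB N ρ v * f v = (((2 * ρ + 1 : ℕ) : ℝ) ^ 2)⁻¹ * ∑ v ∈ bZ ρ, f (ip N v) := by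
  have hinj : Set.InjOn (ip N) (bZ ρ : Set (ℤ × ℤ)) := by
    intro a ha b hb h
    rw [← li_ip (N := N) (Finset.mem_coe.1 ha) hN, h, li_ip (N := N) (Finset.mem_coe.1 hb) hN]
  have h1 : ∑ v ∈ (bZ ρ).image (ip N), wB N ρ v * f v =
      (((2 * ρ + 1 : ℕ) : ℝ) ^ 2)⁻¹ * ∑ v ∈ bZ ρ, f (ip N v) := by
    rw [Finset.sum_image hinj, Finset.mul_sum]
    refine Finset.sum_congr rfl fun v hv => ?_
    unfold wB
    rw [if_pos (sz_ip_le hv)]
  rw [← h1]
  symm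
  refine Finset.sum_subset (Finset.subset_univ _) fun v _ hv => ?_
  by_contra h
  refine hv (Finset.mem_image.2 ⟨li v, ?_, ip_li v⟩)
  have h2 : sz v ≤ ρ := by
    by_contra h3
    apply h
    unfold wB
    rw [if_neg h3, zero_mul]
  rw [sz_li] at h2
  rw [mem_bZ]
  omega

/-! ### the cut-off -/

lemma chi_ip {l s : ℕ} (hN : 40 * l + 4 * s < N) {ζ v : ℤ × ℤ} (hv : v ∈ bZ s)
    (hζ : 2 * ζ.1.natAbs ≤ N ∧ 2 * ζ.2.natAbs ≤ N) (hl : li (ip N ζ) = ζ) :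
    chi l (ip N ζ - ip N v) = chZ l (ζ.1 - v.1) (ζ.2 - v.2) := by
  have hv' := mem_bZ.1 hv
  by_cases h : 2 * max (ζ.1 - v.1).natAbs (ζ.2 - v.2).natAbs < N
  · have hm : ζ - v ∈ bZ (max (ζ.1 - v.1).natAbs (ζ.2 - v.2).natAbs) :=
      mem_bZ.2 ⟨le_max_left _ _, le_max_right _ _⟩
    have e : sz (ip N (ζ - v)) = max (ζ.1 - v.1).natAbs (ζ.2 - v.2).natAbs :=
      sz_ip (N := N) hm h
    unfold chi U chZ
    rw [← ip_sub, e]
  · rw [chZ_zero (by omega)]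
    have h1 := sz_add_le (ip N ζ - ip N v) (ip N v)
    rw [sub_add_cancel, sz_li (ip N ζ), hl] at h1
    have h2 := sz_ip_le (N := N) hv
    unfold chi
    refine U_zero ?_
    have h3 : max (ζ.1 - v.1).natAbs (ζ.2 - v.2).natAbs ≤ max ζ.1.natAbs ζ.2.natAbs + s := by
      omega
    omega

/-! ### the tent average -/

lemma avg_sub {q : ℕ} (hq : 0 < q) (f : ℕ → ℕ → ℝ) (k : ℝ) :
    ((q : ℝ) ^ 2)⁻¹ * ∑ a ∈ range q, ∑ c ∈ range q, (f a c - k) =
      ((q : ℝ) ^ 2)⁻¹ * (∑ a ∈ range q, ∑ c ∈ range q, f a c) - k := by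
  have hq' : (q : ℝ) ≠ 0 := by exact_mod_cast hq.ne'
  simp only [Finset.sum_sub_distrib, Finset.sum_const, Finset.card_range, nsmul_eq_mul]
  field_simp

lemma tnZ_eq {q D r : ℕ} (hq : 0 < q) {G : V N → ℝ} {p : V N} {z : ℤ → ℤ → ℝ}
    (hz : ∀ i j : ℤ, i.natAbs ≤ D → j.natAbs ≤ D → z i j = G (p + ip N (i, j)) - G p)
    (hr : r + q ≤ D) {i j : ℤ} (hi : i.natAbs ≤ r) (hj : j.natAbs ≤ r) :
    tnZ q z i j = tent N q G (p + ip N (i, j)) - G p := by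
  unfold tnZ tent
  rw [← avg_sub hq]
  refine congrArg _ (Finset.sum_congr rfl fun a ha => Finset.sum_congr rfl fun c hc => ?_)
  unfold bxZ bxT
  rw [← avg_sub hq]
  refine congrArg _ (Finset.sum_congr rfl fun a' ha' => Finset.sum_congr rfl fun c' hc' => ?_)
  rw [Finset.mem_range] at ha hc ha' hc'
  rw [hz _ _ (by omega) (by omega)]
  congr 2
  unfold ip
  refine Prod.ext ?_ ?_
  · show p.1 + ((i - (a : ℤ) + (a' : ℤ) : ℤ) : ZMod N) =
      p.1 + ((i : ℤ) : ZMod N) - (a : ZMod N) + (a' : ZMod N)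
    push_cast
    ring
  · show p.2 + ((j - (c : ℤ) + (c' : ℤ) : ℤ) : ZMod N) =
      p.2 + ((j : ℤ) : ZMod N) - (c : ZMod N) + (c' : ZMod N)
    push_cast
    ring

/-- **one core** -/
theorem half_eq {l s ρ q D : ℕ} {κ : ℤ × ℤ → ℝ} (hκ : ∑ u ∈ bZ ρ, κ u = 1) (hq : 0 < q)
    (hD : 20 * l + s + ρ + q ≤ D) (hN : 40 * l + 4 * s < N) {G : V N → ℝ} {p : V N}
    {z : ℤ → ℤ → ℝ}
    (hz : ∀ i j : ℤ, i.natAbs ≤ D → j.natAbs ≤ D → z i j = G (p + ip N (i, j)) - G p) (x : V N) :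
    ∑ v, wB N s v * (chi l (x - v - p) *
      (tent N q G x - mn (muK N ρ κ) (p + v) (tent N q G))) =
      dec (dcZ l s ρ κ (tnZ q z)) p x := by
  have hx : p + ip N (li (x - p)) = x := by rw [ip_li, add_sub_cancel]
  set ζ : ℤ × ℤ := li (x - p) with hζd
  have hli : li (ip N ζ) = ζ := by rw [hζd, ip_li]
  have hζN : 2 * ζ.1.natAbs ≤ N ∧ 2 * ζ.2.natAbs ≤ N := by
    have a1 := ZMod.natAbs_valMinAbs_le (x - p).1
    have a2 := ZMod.natAbs_valMinAbs_le (x - p).2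
    have b1 : ζ.1 = (x - p).1.valMinAbs := rfl
    have b2 : ζ.2 = (x - p).2.valMinAbs := rfl
    rw [b1, b2]
    omega
  rw [sum_wB (by omega) fun v => chi l (x - v - p) *
      (tent N q G x - mn (muK N ρ κ) (p + v) (tent N q G))]
  have e0 : dec (dcZ l s ρ κ (tnZ q z)) p x = dcZ l s ρ κ (tnZ q z) ζ.1 ζ.2 := rfl
  rw [e0]
  unfold dcZ
  refine congrArg _ (Finset.sum_congr rfl fun v hv => ?_)
  have hv' := mem_bZ.1 hv
  have e1 : x - ip N v - p = ip N ζ - ip N v := by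
    rw [← hx]
    abel
  rw [e1, chi_ip hN hv hζN hli]
  by_cases h0 : chZ l (ζ.1 - v.1) (ζ.2 - v.2) = 0
  · rw [h0, zero_mul, zero_mul]
  · have h3 : max (ζ.1 - v.1).natAbs (ζ.2 - v.2).natAbs < 20 * l := by
      by_contra h4
      exact h0 (chZ_zero (by omega))
    congr 1
    rw [tnZ_eq hq hz (r := 20 * l + s) (by omega) (by omega) (by omega)]
    have e3 : p + ip N (ζ.1, ζ.2) = x := hx
    rw [e3, mn_muK]
    unfold mnZ
    have e2 : ∀ u ∈ bZ ρ, κ u * tnZ q z (v.1 + u.1) (v.2 + u.2) =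
        κ u * tent N q G (p + ip N v + ip N u) - κ u * G p := by
      intro u hu
      have a1 := mem_bZ.1 hu
      rw [tnZ_eq hq hz (r := s + ρ) (by omega) (by omega) (by omega)]
      have e4 : p + ip N (v.1 + u.1, v.2 + u.2) = p + ip N v + ip N u := by
        have e5 : ((v.1 + u.1, v.2 + u.2) : ℤ × ℤ) = v + u := rfl
        rw [e5, ip_add, add_assoc]
      rw [e4]
      ring
    rw [Finset.sum_congr rfl e2, Finset.sum_sub_distrib, ← Finset.sum_mul, hκ]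
    ring

/-- **the bridge** -/
theorem bridge {i n k q D R : ℕ} {κ : ℤ × ℤ → ℝ} (hκ : ∑ u ∈ bZ (lC n k), κ u = 1) (hq : 0 < q)
    (hD : 21 * lC n k + 2 ^ n + q ≤ D) (hN : 40 * lC n k + 4 * 2 ^ n < sd i R)
    (g : V (sd i R) → ℝ) :
    BridgeP (D := D) (T0 κ n k q D) (T1 κ n k q D) i n k q R (muK (sd i R) (lC n k) κ) g := by
  intro F x
  have e1 : ax0 (sd i R) R = R • (H817.e1 : V (sd i R)) := by
    rw [H817.nsmul_e1]
    rfl
  have z0 : ∀ a c : ℤ, a.natAbs ≤ D → c.natAbs ≤ D → zL (wdS (sd i) D R g F) a c =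
      (F + g) (0 + ip (sd i R) (a, c)) - (F + g) 0 := by
    intro a c ha hc
    have hm : ((a, c) : ℤ × ℤ) ∈ (Finset.Icc (-(D : ℤ)) D) ×ˢ (Finset.Icc (-(D : ℤ)) D) :=
      mem_bZ.2 ⟨ha, hc⟩
    unfold zL
    rw [dif_pos hm]
    unfold wdS wdF
    rw [wd_inl]
  have z1 : ∀ a c : ℤ, a.natAbs ≤ D → c.natAbs ≤ D → zR (wdS (sd i) D R g F) a c =
      (F + g) (R • H817.e1 + ip (sd i R) (a, c)) - (F + g) (R • H817.e1) := by
    intro a c ha hc
    have hm : ((a, c) : ℤ × ℤ) ∈ (Finset.Icc (-(D : ℤ)) D) ×ˢ (Finset.Icc (-(D : ℤ)) D) :=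
      mem_bZ.2 ⟨ha, hc⟩
    unfold zR
    rw [dif_pos hm]
    unfold wdS wdF
    rw [wd_inr, e1]
  unfold edec T0 T1 dcR dcs HF
  rw [← half_eq hκ hq (by omega) hN z0, ← half_eq hκ hq (by omega) hN z1,
    ← Finset.sum_add_distrib]
  refine Finset.sum_congr rfl fun v _ => ?_
  ring

/-- **the bridge along the flow** -/
theorem bridge_flow {i n k q R : ℕ} {κ : ℤ × ℤ → ℝ} (hκ : ∑ u ∈ bZ (lC n k), κ u = 1)
    (hq : 0 < q) (hqn : q ≤ 2 ^ n) (hk : 7 ≤ k) (hR : 2 ^ (n + k) ≤ R) (g : V (sd i R) → ℝ) :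
    BridgeP (D := DC n k) (T0 κ n k q (DC n k)) (T1 κ n k q (DC n k)) i n k q R
      (muK (sd i R) (lC n k) κ) g := by
  have h1 : 2 ^ n ≤ lC n k := Nat.pow_le_pow_right (by norm_num) (Nat.le_add_right _ _)
  have h2 : 64 * lC n k ≤ 2 ^ (n + k) := by
    unfold lC
    have e : (64 : ℕ) = 2 ^ 6 := by norm_num
    rw [e, ← pow_add]
    exact Nat.pow_le_pow_right (by norm_num) (by omega)
  have h3 : R ≤ sd i R :=
    (Nat.le_mul_of_pos_left R (by positivity)).trans (H773.sd_ge i R)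
  have h4 : 0 < lC n k := by
    unfold lC
    positivity
  refine bridge hκ hq ?_ ?_ g
  · unfold DC
    omega
  · omega

end

end Vale.Agent.P159.H764.Tk
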