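import Vale.Agent.P159.H764.Sw1
import Vale.Agent.P159.H474.Cb4

/-!
P159, helper764, module SWAP (3): the swap of `Sw0` / `Sw1` with arms from BLOCKS (helper474's local
functional `qa σ B Λ`, the conditional probability that a cluster of a point of `B` with `d ≠ 0`
leaves `Λ`), so that the number of terms is the number of blocks on the separating ring.
-/

set_option linter.unusedSectionVars false
set_option linter.unusedDecidableInType false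

namespace Vale.Agent.P159.H764

open scoped ENNReal
open Finset Vale.Agent.P159.TM.H60 Vale.Agent.P159.TM.H576
open Vale.Agent.P159.H145.Dz (I0 I0_eq touch Arm)
open Vale.Agent.P159.H474.Cb (qa joins_arm Ex_arm_mul)
open Vale.Agent.P159.H770 (eWF)
open Vale.Agent.P159.T1.H897 (LogC)

section gen

variable {V E S : Type*} [Fintype V] [DecidableEq V] [Fintype E] [DecidableEq E]
variable (σ : Sys V E S)

/-- **swap, blocks**: `∑ GA ≤ ∑ GB + ∑_i ∑ GA * qa_i` -/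
theorem swapB_le {GA GB : (V → S) → ℝ≥0∞} {VW VP : Finset V}
    (hG : ∀ A : Finset V, VW ⊆ A → Disjoint A VP → ∀ x, GB (σ.flip A x) = GA x)
    (hfl : ∀ e x y, 0 < σ.fl e x y) {ι : Type*} (I : Finset ι) (B Λ : ι → Finset V) {δ : V → ℕ}
    (hδ : ∀ e, δ (σ.s e) ≤ δ (σ.t e) + 1 ∧ δ (σ.t e) ≤ δ (σ.s e) + 1) {k : ℕ}
    (hP : ∀ v ∈ VP, δ v < k) (hW : ∀ v ∈ VW, k ≤ δ v)
    (hB : ∀ z, δ z = k → ∃ i ∈ I, z ∈ B i) (hΛ : ∀ i ∈ I, ∀ v ∈ VP, v ∉ Λ i) :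
    I0 σ GA ≤ I0 σ GB + ∑ i ∈ I, I0 σ fun x => GA x * qa σ (B i) (Λ i) x := by
  classical
  have e1 : ∑ i ∈ I, I0 σ (fun x => GA x * qa σ (B i) (Λ i) x) =
      ∑ om : Finset E, ∑' x : V → S, ENNReal.ofReal (σ.wt om x) *
        (GA x * ∑ i ∈ I, ind (Arm σ (B i) (Λ i) x om)) := by
    rw [Finset.sum_congr rfl fun i _ => (Ex_arm_mul σ hfl (B i) (Λ i) GA).symm, ← Ex_sum]
    unfold Ex
    rw [Summable.tsum_finsetSum fun _ _ => ENNReal.summable]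
    refine Finset.sum_congr rfl fun om _ => tsum_congr fun x => ?_
    simp only [Finset.mul_sum]
  rw [e1, I0_eq, I0_eq, ← Finset.sum_add_distrib]
  refine Finset.sum_le_sum fun om _ => ?_
  by_cases hb : ∃ u ∈ VP, ∃ v ∈ VW, Conn σ.s σ.t om u v
  · refine le_add_left (ENNReal.tsum_le_tsum fun x => ?_)
    by_cases hw : σ.wt om x = 0
    · rw [hw]; simp
    refine mul_le_mul' le_rfl ?_
    have hj : Joins σ.s σ.t om VP VW := by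
      obtain ⟨u, hu, v, hv, hc⟩ := hb
      exact ⟨u, hu, v, hv, mem_clus.2 hc⟩
    have h1 := joins_arm σ I B Λ hδ hP hW hB hΛ (om := om) (x := x) hw
    rw [ind_true hj] at h1
    calc GA x = GA x * 1 := (mul_one _).symm
      _ ≤ _ := mul_le_mul' le_rfl h1
  · push Not at hb
    refine le_add_right ?_
    have hd : Disjoint (clW σ VW om) VP := by
      rw [Finset.disjoint_left]
      intro v h1 h2
      obtain ⟨u, hu, hc⟩ := (mem_clW σ).1 h1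
      exact hb v h2 u hu hc.symm
    rw [← (σ.flipE (clW σ VW om)).tsum_eq (fun x => ENNReal.ofReal (σ.wt om x) * GB x)]
    refine (tsum_congr fun x => ?_).le
    show _ = ENNReal.ofReal (σ.wt om (σ.flip (clW σ VW om) x)) * GB (σ.flip (clW σ VW om) x)
    rw [σ.wt_flip (disj_bd σ), hG _ (sub_clW σ) hd]

/-- **swap, blocks, the other side** -/
theorem swapB_ge {GA GB : (V → S) → ℝ≥0∞} {VW VP : Finset V}
    (hG : ∀ A : Finset V, VW ⊆ A → Disjoint A VP → ∀ x, GB (σ.flip A x) = GA x)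
    (hfl : ∀ e x y, 0 < σ.fl e x y) {ι : Type*} (I : Finset ι) (B Λ : ι → Finset V) {δ : V → ℕ}
    (hδ : ∀ e, δ (σ.s e) ≤ δ (σ.t e) + 1 ∧ δ (σ.t e) ≤ δ (σ.s e) + 1) {k : ℕ}
    (hP : ∀ v ∈ VP, δ v < k) (hW : ∀ v ∈ VW, k ≤ δ v)
    (hB : ∀ z, δ z = k → ∃ i ∈ I, z ∈ B i) (hΛ : ∀ i ∈ I, ∀ v ∈ VP, v ∉ Λ i) :
    I0 σ GB ≤ I0 σ GA + ∑ i ∈ I, I0 σ fun x => GB x * qa σ (B i) (Λ i) x := by
  refine swapB_le σ (GA := GB) (GB := GA) (VW := VW) (VP := VP) (fun A h1 h2 x => ?_) hfl I B Λ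
    hδ hP hW hB hΛ
  rw [← hG A h1 h2 (σ.flip A x), σ.flip_flip]

end gen

section graph

variable {V E : Type} [Fintype V] [DecidableEq V] [Fintype E] [DecidableEq E]
variable {s t : E → V} {I : E → ℤ → ℝ} (hI : ∀ e n, 0 < I e n) (hL : ∀ e, LogC (I e))

/-- the block arm integral of the pair of data `(X1, X2)` -/
noncomputable def AB (s t : E → V) {I : E → ℤ → ℝ} (hI : ∀ e n, 0 < I e n)
    (hL : ∀ e, LogC (I e)) (E0 : Finset E) (η0 : E → ℤ) (τ : ℝ) (X1 X2 : (E → ℤ) × (V → ℝ))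
    (B Λ : Finset V) : ℝ≥0∞ :=
  ∑' h : V → ℤ, ∑' h' : V → ℤ, ENNReal.ofReal (eWF s t I (τ • (1 : Matrix V V ℝ)) X1 h) *
    (ENNReal.ofReal (eWF s t I (τ • (1 : Matrix V V ℝ)) X2 h') *
      qa (sgF s t hI hL E0 η0) B Λ fun v => (h v, h' v))

variable {E0 : Finset E} {VP VW : Finset V} {A1 A2 B1 B2 : (E → ℤ) × (V → ℝ)}

/-- **(SW1 with blocks), first direction** -/
theorem sw2_le (D : SwD s t E0 VP VW A1 A2 B1 B2) (τ : ℝ) {ι : Type*} (J : Finset ι)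
    (B Λ : ι → Finset V) {δ : V → ℕ} (hδ : ∀ e, δ (s e) ≤ δ (t e) + 1 ∧ δ (t e) ≤ δ (s e) + 1)
    {k : ℕ} (hP : ∀ v ∈ VP, δ v < k) (hW : ∀ v ∈ VW, k ≤ δ v)
    (hB : ∀ z, δ z = k → ∃ i ∈ J, z ∈ B i) (hΛ : ∀ i ∈ J, ∀ v ∈ VP, v ∉ Λ i) :
    ZE s t I τ A1 * ZE s t I τ A2 ≤ ZE s t I τ B1 * ZE s t I τ B2 +
      ∑ i ∈ J, AB s t hI hL E0 A1.1 τ A1 A2 (B i) (Λ i) := by
  have h1 : ∀ e ∈ E0, A1.1 e = A1.1 e := fun _ _ => rfl
  have h2 : ∀ e ∈ E0, A2.1 e = A1.1 e := fun e he => (D.free e he).1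
  have h3 : ∀ e ∈ E0, B1.1 e = A1.1 e := fun e he => (D.free e he).2.1
  have h4 : ∀ e ∈ E0, B2.1 e = A1.1 e := fun e he => (D.free e he).2.2
  rw [← I0_wG_one hI hL E0 A1.1 τ h1 h2, ← I0_wG_one hI hL E0 A1.1 τ h3 h4]
  refine (swapB_le (sgF s t hI hL E0 A1.1) (GA := wG s t I E0 τ A1 A2)
    (GB := wG s t I E0 τ B1 B2) (VW := VW) (VP := VP)
    (fun A hA hP' x => D.flip_eq hI hL A1.1 τ hA hP' x) (sgF_fl_pos hI hL E0 A1.1)
    J B Λ hδ hP hW hB hΛ).trans (le_of_eq ?_)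
  congr 1
  refine Finset.sum_congr rfl fun z _ => ?_
  rw [I0_wG hI hL E0 A1.1 τ h1 h2]
  rfl

/-- **(SW1 with blocks), second direction** -/
theorem sw2_ge (D : SwD s t E0 VP VW A1 A2 B1 B2) (τ : ℝ) {ι : Type*} (J : Finset ι)
    (B Λ : ι → Finset V) {δ : V → ℕ} (hδ : ∀ e, δ (s e) ≤ δ (t e) + 1 ∧ δ (t e) ≤ δ (s e) + 1)
    {k : ℕ} (hP : ∀ v ∈ VP, δ v < k) (hW : ∀ v ∈ VW, k ≤ δ v)
    (hB : ∀ z, δ z = k → ∃ i ∈ J, z ∈ B i) (hΛ : ∀ i ∈ J, ∀ v ∈ VP, v ∉ Λ i) :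
    ZE s t I τ B1 * ZE s t I τ B2 ≤ ZE s t I τ A1 * ZE s t I τ A2 +
      ∑ i ∈ J, AB s t hI hL E0 A1.1 τ B1 B2 (B i) (Λ i) := by
  have h1 : ∀ e ∈ E0, A1.1 e = A1.1 e := fun _ _ => rfl
  have h2 : ∀ e ∈ E0, A2.1 e = A1.1 e := fun e he => (D.free e he).1
  have h3 : ∀ e ∈ E0, B1.1 e = A1.1 e := fun e he => (D.free e he).2.1
  have h4 : ∀ e ∈ E0, B2.1 e = A1.1 e := fun e he => (D.free e he).2.2
  rw [← I0_wG_one hI hL E0 A1.1 τ h1 h2, ← I0_wG_one hI hL E0 A1.1 τ h3 h4]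
  refine (swapB_ge (sgF s t hI hL E0 A1.1) (GA := wG s t I E0 τ A1 A2)
    (GB := wG s t I E0 τ B1 B2) (VW := VW) (VP := VP)
    (fun A hA hP' x => D.flip_eq hI hL A1.1 τ hA hP' x) (sgF_fl_pos hI hL E0 A1.1)
    J B Λ hδ hP hW hB hΛ).trans (le_of_eq ?_)
  congr 1
  refine Finset.sum_congr rfl fun z _ => ?_
  rw [I0_wG hI hL E0 A1.1 τ h3 h4]
  rfl

end graph

end Vale.Agent.P159.H764
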