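import Vale.Agent.P159.H764.Qt2
import Vale.Agent.P159.H145.Dz4
import Vale.Agent.P159.H474.Cb7

/-!
P159, helper764, module QT (3): the block functional and the event block of helper474's `arm_num`.

`cs s` : chart of the closed block with the corner `s` (any point of the torus; helper474's `pt`),
`bal p r` : the ball in the closed block, `cs_bal` : its image is the ball of the torus,
`Gb p r ρ x y` : the arm functional of two configurations of the closed block,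
`qa_sgF`, `qa_σ2`, `AB_eq` : the arm functional / the block arm integral of helper764's swap through
`Gb`, `ev_arm` : the event block is bounded by the arm probability of `Spec.σ2` on the small torus
in a real background `f` common to both copies, `ev_arm_T` : `f = 0`, with helper145's `arm_T`.
-/

set_option linter.unusedSectionVars false
set_option linter.unusedDecidableInType false

namespace Vale.Agent.P159.H764

open scoped ENNReal
open Finset Vale.Agent.P159.TM.H60 Vale.Agent.P159.TM.H576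
open Vale.Agent.P159.H145.Dz (touch mem_touch Arm I0)
open Vale.Agent.P159.H474.Cb (qa qa_le_one Ex_arm_mul pt wDC foE foF trD trF Z0 ZM_wTD_le)
open Vale.Agent.P159.T1.H897 (LogC logC_wI)
open Vale.Agent.P159.TM.H459 (ball mem_ball sd sn tS tT)
open Vale.Agent.P159.H770 (Ed eS eT wTD wTD_eq wI_pos eWF)
open Vale.Agent.P159.H353 (wI)
open Vale.Agent.P159.TM.SpecC (Tor wT)
open Vale.Agent.P159.H37 (ZM qf re)
open Vale.Agent.P159.TM

/-! ### charts with an arbitrary corner -/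

/-- the chart of the closed block with the corner `s` -/
def cs {a c : ℕ} (m m' : ℕ) (s : ZMod a × ZMod c) (v : VB m m') : ZMod a × ZMod c :=
  (((v.1 : ℕ) : ZMod a), ((v.2 : ℕ) : ZMod c)) + s

/-- the chart on edges -/
def csE {a c : ℕ} (o : Bool) (m m' : ℕ) (s : ZMod a × ZMod c) (e : EB m m') :
    (ZMod a × ZMod c) × Bool :=
  (cs m m' s e.1, if o then e.2 else !e.2)

lemma cs_inj {a c : ℕ} [NeZero a] [NeZero c] {m m' : ℕ} (ha : m + 2 ≤ a) (hc : m' + 2 ≤ c)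
    (s : ZMod a × ZMod c) : Function.Injective (cs m m' s) := by
  intro v w h
  have h0 : (((v.1 : ℕ) : ZMod a), ((v.2 : ℕ) : ZMod c)) =
      (((w.1 : ℕ) : ZMod a), ((w.2 : ℕ) : ZMod c)) := add_right_cancel h
  have h1 := congrArg Prod.fst h0
  have h2 := congrArg Prod.snd h0
  simp only at h1 h2
  have h3 : ((0 + (v.1 : ℕ) : ℕ) : ZMod a) = ((0 + (w.1 : ℕ) : ℕ) : ZMod a) := by
    rw [zero_add, zero_add, h1]
  have h4 : ((0 + (v.2 : ℕ) : ℕ) : ZMod c) = ((0 + (w.2 : ℕ) : ℕ) : ZMod c) := by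
    rw [zero_add, zero_add, h2]
  have h5 := cast_inj (by have := v.1.2; omega) (by have := w.1.2; omega) h3
  have h6 := cast_inj (by have := v.2.2; omega) (by have := w.2.2; omega) h4
  exact Prod.ext (Fin.ext h5) (Fin.ext h6)

lemma csE_inj {a c : ℕ} [NeZero a] [NeZero c] {m m' : ℕ} (ha : m + 2 ≤ a) (hc : m' + 2 ≤ c)
    (o : Bool) (s : ZMod a × ZMod c) : Function.Injective (csE o m m' s) := by
  intro e f h
  have h1 := cs_inj ha hc s (congrArg Prod.fst h)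
  have h2 := congrArg Prod.snd h
  simp only [csE] at h2
  refine Prod.ext h1 ?_
  cases o
  · simpa using h2
  · simpa using h2

lemma cs_bT {a c : ℕ} {m m' : ℕ} (o : Bool) (s : ZMod a × ZMod c) {e : EB m m'}
    (h : if e.2 then (e.1.1 : ℕ) ≤ m else (e.1.2 : ℕ) ≤ m') :
    cs m m' s (bT e) = (csE o m m' s e).1 + dr o (csE o m m' s e).2 := by
  obtain ⟨⟨u, v⟩, b⟩ := e
  cases b
  · simp only [Bool.false_eq_true, if_false] at h
    have h1 := nx_val (a := v) (by omega)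
    cases o <;> simp only [csE, cs, bT, dr, Bool.false_eq_true, if_false, if_true, Bool.not_false,
      Bool.true_eq_false, h1, Nat.cast_add, Nat.cast_one] <;>
    · refine Prod.ext ?_ ?_
      · simp only [Prod.fst_add]
        ring
      · simp only [Prod.snd_add]
        ring
  · simp only [if_true] at h
    have h1 := nx_val (a := u) (by omega)
    cases o <;> simp only [csE, cs, bT, dr, Bool.false_eq_true, if_false, if_true, Bool.not_true,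
      h1, Nat.cast_add, Nat.cast_one] <;>
    · refine Prod.ext ?_ ?_
      · simp only [Prod.fst_add]
        ring
      · simp only [Prod.snd_add]
        ring

/-- **the chart with an arbitrary corner is a transport** -/
theorem tr_cs {a c : ℕ} [NeZero a] [NeZero c] {m m' : ℕ} (ha : m + 2 ≤ a) (hc : m' + 2 ≤ c)
    {w : ℤ → ℝ} (hw : ∀ n, 0 < w n) (hL : LogC w) (o : Bool) (s : ZMod a × ZMod c)
    {σ' : Sys (ZMod a × ZMod c) ((ZMod a × ZMod c) × Bool) (ℤ × ℤ)}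
    (hs : ∀ e, σ'.s e = e.1) (ht : ∀ e, σ'.t e = e.1 + dr o e.2)
    (hsw : σ'.sw = Prod.swap) (hd : σ'.d = fun x => x.1 - x.2)
    {Λ : Finset (VB m m')} (hΛ : Inn Λ)
    (hfl : ∀ e ∈ touch σ' (Λ.image (cs m m' s)), σ'.fl e =
      fun x y => w (y.1 - x.1) * w (y.2 - x.2)) :
    Tr (sB m m' hw hL) σ' (cs m m' s) (csE o m m' s) Λ := by
  have hs1 : ∀ e, σ'.s (csE o m m' s e) = cs m m' s ((sB m m' hw hL).s e) := by
    intro e
    rw [hs]
    rfl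
  have ht1 : ∀ e ∈ touch (sB m m' hw hL) Λ,
      σ'.t (csE o m m' s e) = cs m m' s ((sB m m' hw hL).t e) := by
    intro e he
    rw [ht]
    exact (cs_bT o s (touch_ok hw hL hΛ he)).symm
  have himg : ∀ e ∈ touch (sB m m' hw hL) Λ,
      csE o m m' s e ∈ touch σ' (Λ.image (cs m m' s)) := by
    intro e he
    rw [mem_touch, hs1 e, ht1 e he]
    rcases (mem_touch _).1 he with h | h
    · exact Or.inl (Finset.mem_image_of_mem _ h)
    · exact Or.inr (Finset.mem_image_of_mem _ h)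
  refine ⟨cs_inj ha hc s, csE_inj ha hc o s, fun e _ => hs1 e, ht1, hsw, hd, ?_, ?_⟩
  · intro e he
    rw [hfl _ (himg e he)]
    rfl
  · rintro ⟨x, b⟩ he
    rcases (mem_touch _).1 he with h | h
    · rw [hs] at h
      obtain ⟨v, hv, hvx⟩ := Finset.mem_image.1 h
      refine ⟨(v, if o then b else !b), ?_, ?_⟩
      · rw [mem_touch]
        exact Or.inl hv
      · simp only [csE]
        rw [hvx]
        refine Prod.ext rfl ?_
        cases o <;> simp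
    · rw [ht] at h
      obtain ⟨v, hv, hvx⟩ := Finset.mem_image.1 h
      have hi := hΛ v hv
      simp only at hvx
      by_cases hb : b = o
      · have hb' : (if o then b else !b) = true := by
          cases o <;> simp_all
        set e : EB m m' := ((pv v.1, v.2), true) with he0
        have h1 : bT e = v := by
          simp only [he0, bT, if_true]
          rw [nx_pv hi.1]
        have h2 : e ∈ touch (sB m m' hw hL) Λ := by
          rw [mem_touch]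
          right
          show bT e ∈ Λ
          rw [h1]
          exact hv
        refine ⟨e, h2, ?_⟩
        have h3 := ht1 e h2
        have h4 : (sB m m' hw hL).t e = v := h1
        rw [h4, ht, hvx] at h3
        have h5 : (csE (a := a) (c := c) o m m' s e).2 = b := by
          simp only [csE, he0]
          cases o <;> simp_all
        rw [h5] at h3
        have h6 : (csE (a := a) (c := c) o m m' s e).1 = x := add_right_cancel h3
        exact Prod.ext h6 h5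
      · set e : EB m m' := ((v.1, pv v.2), false) with he0
        have h1 : bT e = v := by
          simp only [he0, bT, Bool.false_eq_true, if_false]
          rw [nx_pv hi.2.2.1]
        have h2 : e ∈ touch (sB m m' hw hL) Λ := by
          rw [mem_touch]
          right
          show bT e ∈ Λ
          rw [h1]
          exact hv
        refine ⟨e, h2, ?_⟩
        have h3 := ht1 e h2
        have h4 : (sB m m' hw hL).t e = v := h1
        rw [h4, ht, hvx] at h3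
        have h5 : (csE (a := a) (c := c) o m m' s e).2 = b := by
          simp only [csE, he0]
          cases o <;> cases b <;> simp_all
        rw [h5] at h3
        have h6 : (csE (a := a) (c := c) o m m' s e).1 = x := add_right_cancel h3
        exact Prod.ext h6 h5

/-! ### balls -/

/-- the ball in the closed block -/
def bal {m m' : ℕ} (p : VB m m') (r : ℕ) : Finset (VB m m') :=
  univ.filter fun v => ((v.1 : ℕ) ≤ (p.1 : ℕ) + r ∧ (p.1 : ℕ) ≤ (v.1 : ℕ) + r) ∧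
    ((v.2 : ℕ) ≤ (p.2 : ℕ) + r ∧ (p.2 : ℕ) ≤ (v.2 : ℕ) + r)

lemma mem_bal {m m' : ℕ} {p v : VB m m'} {r : ℕ} : v ∈ bal p r ↔
    ((v.1 : ℕ) ≤ (p.1 : ℕ) + r ∧ (p.1 : ℕ) ≤ (v.1 : ℕ) + r) ∧
    ((v.2 : ℕ) ≤ (p.2 : ℕ) + r ∧ (p.2 : ℕ) ≤ (v.2 : ℕ) + r) := by
  unfold bal
  simp

/-- the point `p` is at distance more than `ρ` from the boundary of the block -/
structure Dp {m m' : ℕ} (p : VB m m') (ρ : ℕ) : Prop where
  a1 : ρ + 1 ≤ (p.1 : ℕ)
  a2 : (p.1 : ℕ) + ρ ≤ m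
  b1 : ρ + 1 ≤ (p.2 : ℕ)
  b2 : (p.2 : ℕ) + ρ ≤ m'

lemma Dp.inn {m m' : ℕ} {p : VB m m'} {ρ : ℕ} (h : Dp p ρ) : Inn (bal p ρ) := by
  intro v hv
  obtain ⟨h1, h2, h3, h4⟩ := h
  obtain ⟨⟨k1, k2⟩, k3, k4⟩ := mem_bal.1 hv
  omega

lemma Dp.mono {m m' : ℕ} {p : VB m m'} {ρ r : ℕ} (h : Dp p ρ) (hr : r ≤ ρ) : Dp p r := by
  obtain ⟨h1, h2, h3, h4⟩ := h
  exact ⟨by omega, by omega, by omega, by omega⟩

lemma vma_le {N : ℕ} [NeZero N] (k : ℤ) : ((k : ZMod N)).valMinAbs.natAbs ≤ k.natAbs :=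
  ZMod.natAbs_min_of_le_div_two N _ _ (by rw [ZMod.coe_valMinAbs]) (ZMod.natAbs_valMinAbs_le _)

/-- one coordinate -/
lemma co_ball {N : ℕ} [NeZero N] {m : ℕ} {p : Fin (m + 2)} {ρ : ℕ} (h1 : ρ + 1 ≤ (p : ℕ))
    (h2 : (p : ℕ) + ρ ≤ m) (s z : ZMod N) :
    (z - (((p : ℕ) : ZMod N) + s)).valMinAbs.natAbs ≤ ρ ↔
      ∃ v : Fin (m + 2), ((v : ℕ) ≤ (p : ℕ) + ρ ∧ (p : ℕ) ≤ (v : ℕ) + ρ) ∧
        ((v : ℕ) : ZMod N) + s = z := by
  constructor
  · intro h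
    set k : ℤ := (z - (((p : ℕ) : ZMod N) + s)).valMinAbs with hk
    have h3 : ((k : ℤ) : ZMod N) = z - (((p : ℕ) : ZMod N) + s) := by rw [hk, ZMod.coe_valMinAbs]
    have h4 : 0 ≤ ((p : ℕ) : ℤ) + k := by omega
    refine ⟨⟨(((p : ℕ) : ℤ) + k).toNat, by omega⟩, ⟨?_, ?_⟩, ?_⟩
    · show (((p : ℕ) : ℤ) + k).toNat ≤ _
      omega
    · show (p : ℕ) ≤ (((p : ℕ) : ℤ) + k).toNat + ρ
      omega
    · show (((((p : ℕ) : ℤ) + k).toNat : ℕ) : ZMod N) + s = z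
      have h5 : (((((p : ℕ) : ℤ) + k).toNat : ℕ) : ZMod N) = ((((p : ℕ) : ℤ) + k : ℤ) : ZMod N) := by
        conv_rhs => rw [← Int.toNat_of_nonneg h4]
        rw [Int.cast_natCast]
      rw [h5, Int.cast_add, h3, Int.cast_natCast]
      ring
  · rintro ⟨v, ⟨h3, h4⟩, rfl⟩
    have h5 : ((v : ℕ) : ZMod N) + s - (((p : ℕ) : ZMod N) + s) =
        ((((v : ℕ) : ℤ) - ((p : ℕ) : ℤ) : ℤ) : ZMod N) := by
      push_cast
      ring
    rw [h5]
    refine (vma_le _).trans ?_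
    omega

/-- **the ball of the block is the ball of the torus** -/
theorem cs_bal {N : ℕ} [NeZero N] {m m' : ℕ} {p : VB m m'} {ρ : ℕ} (h : Dp p ρ)
    (s : ZMod N × ZMod N) : (bal p ρ).image (cs m m' s) = ball (cs m m' s p) ρ := by
  ext z
  rw [Finset.mem_image, mem_ball]
  have e1 := co_ball h.a1 h.a2 s.1 z.1
  have e2 := co_ball h.b1 h.b2 s.2 z.2
  have e3 : sd (cs m m' s p) z ≤ ρ ↔ (z.1 - (((p.1 : ℕ) : ZMod N) + s.1)).valMinAbs.natAbs ≤ ρ ∧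
      (z.2 - (((p.2 : ℕ) : ZMod N) + s.2)).valMinAbs.natAbs ≤ ρ := by
    unfold sd sn cs
    simp only [Prod.fst_sub, Prod.snd_sub, Prod.fst_add, Prod.snd_add, max_le_iff]
  rw [e3, e1, e2]
  constructor
  · rintro ⟨v, hv, rfl⟩
    obtain ⟨k1, k2⟩ := mem_bal.1 hv
    exact ⟨⟨v.1, k1, rfl⟩, v.2, k2, rfl⟩
  · rintro ⟨⟨v1, k1, q1⟩, v2, k2, q2⟩
    exact ⟨(v1, v2), mem_bal.2 ⟨k1, k2⟩, Prod.ext q1 q2⟩

/-! ### the block functional -/

/-- **the arm functional of two configurations of the closed block** -/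
noncomputable def Gb (m m' : ℕ) {w : ℤ → ℝ} (hw : ∀ n, 0 < w n) (hL : LogC w) (p : VB m m')
    (r ρ : ℕ) (x y : Fin (m + 2) → Fin (m' + 2) → ℤ) : ℝ≥0∞ :=
  qa (sB m m' hw hL) (bal p r) (bal p ρ) fun v => (x v.1 v.2, y v.1 v.2)

lemma Gb_le_one (m m' : ℕ) {w : ℤ → ℝ} (hw : ∀ n, 0 < w n) (hL : LogC w) (p : VB m m')
    (r ρ : ℕ) (x y : Fin (m + 2) → Fin (m' + 2) → ℤ) : Gb m m' hw hL p r ρ x y ≤ 1 :=
  qa_le_one _ (fun _ _ _ => mul_pos (hw _) (hw _)) _ _ _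

/-- the general form -/
theorem qa_gen {N : ℕ} [NeZero N] {m m' : ℕ} (ha : m + 2 ≤ N) (hc : m' + 2 ≤ N)
    {w : ℤ → ℝ} (hw : ∀ n, 0 < w n) (hL : LogC w) (o : Bool) (s : ZMod N × ZMod N)
    {σ' : Sys (ZMod N × ZMod N) ((ZMod N × ZMod N) × Bool) (ℤ × ℤ)}
    (hs : ∀ e, σ'.s e = e.1) (ht : ∀ e, σ'.t e = e.1 + dr o e.2)
    (hsw : σ'.sw = Prod.swap) (hd : σ'.d = fun x => x.1 - x.2)
    {p : VB m m'} {r ρ : ℕ} (hr : r ≤ ρ) (hp : Dp p ρ)
    (hfl : ∀ e ∈ touch σ' (ball (cs m m' s p) ρ), σ'.fl e =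
      fun x y => w (y.1 - x.1) * w (y.2 - x.2)) (x : ZMod N × ZMod N → ℤ × ℤ) :
    qa σ' (ball (cs m m' s p) r) (ball (cs m m' s p) ρ) x =
      Gb m m' hw hL p r ρ (fun a c => (x (cs m m' s (a, c))).1)
        fun a c => (x (cs m m' s (a, c))).2 := by
  rw [← cs_bal hp s, ← cs_bal (hp.mono hr) s]
  have h := tr_cs ha hc hw hL o s hs ht hsw hd hp.inn (fun e he => hfl e (by rwa [cs_bal hp s] at he))
  rw [qa_transport h]
  rfl

variable {N : ℕ} [NeZero N] {b t : ℝ}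

/-- the arm functional of the swap (`sgF` of the torus) is the block functional -/
theorem qa_sgF {m m' : ℕ} (ha : m + 2 ≤ N) (hc : m' + 2 ≤ N) (hb : 0 < b)
    (s : ZMod N × ZMod N) {E0 : Finset (Ed N)} {η0 : Ed N → ℤ} {p : VB m m'} {r ρ : ℕ}
    (hr : r ≤ ρ) (hp : Dp p ρ)
    (hE : ∀ e : Ed N, (eS N e ∈ ball (cs m m' s p) ρ ∨ eT N e ∈ ball (cs m m' s p) ρ) →
      e ∈ E0 ∧ η0 e = 0) (x : ZMod N × ZMod N → ℤ × ℤ) :
    qa (sgF (eS N) (eT N) (I := fun _ => wI b) (fun _ => wI_pos hb) (fun _ => logC_wI hb.le) E0 η0)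
        (ball (cs m m' s p) r) (ball (cs m m' s p) ρ) x =
      Gb m m' (wI_pos hb) (logC_wI hb.le) p r ρ (fun a c => (x (cs m m' s (a, c))).1)
        fun a c => (x (cs m m' s (a, c))).2 := by
  refine qa_gen ha hc (wI_pos hb) (logC_wI hb.le) false s (fun _ => rfl) (fun e => ?_) rfl rfl hr hp
    (fun e he => ?_) x
  · show eT N e = e.1 + dr false e.2
    unfold eT dr
    cases e.2 <;> simp
  · have h1 := hE e ((mem_touch _).1 he)
    funext x y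
    show wF (fun _ => wI b) E0 η0 e (y.1 - x.1) * wF (fun _ => wI b) E0 η0 e (y.2 - x.2) = _
    unfold wF
    rw [if_pos h1.1, if_pos h1.1, h1.2, add_zero, add_zero]

/-- the arm functional of `Spec.σ2` is the block functional -/
theorem qa_σ2 {m m' : ℕ} (ha : m + 2 ≤ N) (hc : m' + 2 ≤ N) (hb : 0 < b) (ξ : ℕ)
    (f : Spec.V N → ℝ) (s : ZMod N × ZMod N) {p : VB m m'} {r ρ : ℕ} (hr : r ≤ ρ) (hp : Dp p ρ)
    (x : ZMod N × ZMod N → ℤ × ℤ) :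
    qa (Spec.σ2 N b ξ hb.le f) (ball (cs m m' s p) r) (ball (cs m m' s p) ρ) x =
      Gb m m' (wI_pos hb) (logC_wI hb.le) p r ρ (fun a c => (x (cs m m' s (a, c))).1)
        fun a c => (x (cs m m' s (a, c))).2 := by
  refine qa_gen ha hc (wI_pos hb) (logC_wI hb.le) true s (fun _ => rfl) (fun e => ?_) rfl rfl hr hp
    (fun e _ => rfl) x
  show tT e = e.1 + dr true e.2
  unfold tT dr H459.dir
  rfl

/-- **the block arm integral of the swap in the letters of `arm_num`** -/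
theorem AB_eq {m : ℕ} (ha : m + 2 ≤ N) (hb : 0 < b) (t : ℝ)
    (s : Tor N) {E0 : Finset (Ed N)} {η0 : Ed N → ℤ} {p : VB m m} {r ρ : ℕ}
    (hr : r ≤ ρ) (hp : Dp p ρ)
    (hE : ∀ e : Ed N, (eS N e ∈ ball (pt s p.1 p.2) ρ ∨ eT N e ∈ ball (pt s p.1 p.2) ρ) →
      e ∈ E0 ∧ η0 e = 0) (X1 X2 : (Ed N → ℤ) × (Tor N → ℝ)) :
    AB (eS N) (eT N) (I := fun _ => wI b) (fun _ => wI_pos hb) (fun _ => logC_wI hb.le) E0 η0 t
        X1 X2 (ball (pt s p.1 p.2) r) (ball (pt s p.1 p.2) ρ) =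
      ∑' h1 : Tor N → ℤ, ∑' h2 : Tor N → ℤ,
        ENNReal.ofReal (wDC N b t X1.1 X1.2 h1) * ENNReal.ofReal (wDC N b t X2.1 X2.2 h2) *
          Gb m m (wI_pos hb) (logC_wI hb.le) p r ρ (fun a c => h1 (pt s a c))
            fun a c => h2 (pt s a c) := by
  unfold AB
  refine tsum_congr fun h1 => tsum_congr fun h2 => ?_
  have h3 := qa_sgF ha ha hb s hr hp hE fun v => (h1 v, h2 v)
  rw [show ball (pt s p.1 p.2) r = ball (cs m m s p) r from rfl,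
    show ball (pt s p.1 p.2) ρ = ball (cs m m s p) ρ from rfl, h3, ← mul_assoc]
  rfl

/-! ### the event block -/

/-- the weight of two copies -/
theorem tot_σ2 (hb : 0 ≤ b) (ξ : ℕ) (f : Spec.V N → ℝ) (x : Spec.V N → ℤ × ℤ) :
    (Spec.σ2 N b ξ hb f).tot x = wDC N b (1 / (ξ : ℝ) ^ 2) 0 f (fun v => (x v).1) *
      wDC N b (1 / (ξ : ℝ) ^ 2) 0 f fun v => (x v).2 := by
  have h1 : (Spec.σ2 N b ξ hb f).tot x =
      (∏ e : Spec.E N, wI b ((x (tT e)).1 - (x (tS e)).1) *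
        wI b ((x (tT e)).2 - (x (tS e)).2)) *
      ∏ v, Spec.aT (ξ : ℝ) f v (x v).1 * Spec.aT (ξ : ℝ) f v (x v).2 := rfl
  have h2 : ∀ h : Tor N → ℤ, wDC N b (1 / (ξ : ℝ) ^ 2) 0 f h =
      (∏ e : Spec.E N, wI b (h (tT e) - h (tS e))) * ∏ v, Spec.aT (ξ : ℝ) f v (h v) := by
    intro h
    unfold wDC
    congr 1
    · rw [wTD_eq, Fintype.prod_prod_type (f := fun e : Spec.E N => wI b (h (tT e) - h (tS e)))]
      refine Finset.prod_congr rfl fun v _ => ?_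
      rw [Fintype.prod_bool]
      unfold tT tS H459.dir
      simp
    · rw [H37.qf_smul_one, ← Finset.prod_congr rfl fun v _ => rfl]
      unfold Spec.aT SpecC.ms
      rw [← Real.exp_sum]
      congr 1
      rw [Finset.sum_neg_distrib, neg_inj, Finset.mul_sum, Finset.sum_div]
      refine Finset.sum_congr rfl fun v _ => ?_
      simp only [Pi.sub_apply, re]
      ring
  rw [h1, h2, h2, Finset.prod_mul_distrib, Finset.prod_mul_distrib]
  ring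

/-- the arm probability of two copies in the background `f` is at most `ε` -/
def ArmLe (N : ℕ) [NeZero N] (b : ℝ) (hb : 0 ≤ b) (ξ : ℕ) (f : Spec.V N → ℝ) (x0 : Spec.V N)
    (r ρ : ℕ) (ε : ℝ) : Prop :=
  Ex (Spec.σ2 N b ξ hb f) (fun x om => ind (Arm (Spec.σ2 N b ξ hb f) (ball x0 r) (ball x0 ρ) x om)) ≤
    ENNReal.ofReal ε * Ex (Spec.σ2 N b ξ hb f) fun _ _ => 1

/-- sums over two copies -/
theorem I0_σ2 (hb : 0 < b) (ξ : ℕ) (f : Spec.V N → ℝ) (F : (Spec.V N → ℤ × ℤ) → ℝ≥0∞) :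
    I0 (Spec.σ2 N b ξ hb.le f) F = ∑' h1 : Tor N → ℤ, ∑' h2 : Tor N → ℤ,
      ENNReal.ofReal (wDC N b (1 / (ξ : ℝ) ^ 2) 0 f h1) *
        ENNReal.ofReal (wDC N b (1 / (ξ : ℝ) ^ 2) 0 f h2) * F fun v => (h1 v, h2 v) := by
  unfold I0
  rw [← (H145.Dz.prE (Spec.V N)).symm.tsum_eq, ENNReal.tsum_prod']
  refine tsum_congr fun h1 => tsum_congr fun h2 => ?_
  rw [tot_σ2, ← ENNReal.ofReal_mul (H474.Cb.wDC_nonneg hb _ _ _)]
  rfl

/-- the arm probability through the block functional -/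
theorem ex_arm_σ2 {M m : ℕ} [NeZero M] (hm : m + 2 ≤ M) (hb : 0 < b) (ξ : ℕ) (f : Tor M → ℝ)
    (s : Tor M) {p : VB m m} {r ρ : ℕ} (hr : r ≤ ρ) (hp : Dp p ρ) :
    Ex (Spec.σ2 M b ξ hb.le f) (fun x om =>
      ind (Arm (Spec.σ2 M b ξ hb.le f) (ball (pt s p.1 p.2) r) (ball (pt s p.1 p.2) ρ) x om)) =
    ∑' τ : Tor M → ℤ, ∑' τ' : Tor M → ℤ,
      ENNReal.ofReal (wDC _ b (1 / (ξ : ℝ) ^ 2) 0 f τ) *
        ENNReal.ofReal (wDC _ b (1 / (ξ : ℝ) ^ 2) 0 f τ') *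
        Gb m m (wI_pos hb) (logC_wI hb.le) p r ρ (fun a c => τ (pt s a c))
          (fun a c => τ' (pt s a c)) := by
  have hfl : ∀ e x y, 0 < (Spec.σ2 M b ξ hb.le f).fl e x y := fun e x y =>
    mul_pos (wI_pos hb _) (wI_pos hb _)
  have h1 := Ex_arm_mul (Spec.σ2 M b ξ hb.le f) hfl (ball (pt s p.1 p.2) r)
    (ball (pt s p.1 p.2) ρ) fun _ => 1
  simp only [one_mul] at h1
  rw [h1, I0_σ2 hb]
  refine tsum_congr fun h1 => tsum_congr fun h2 => ?_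
  congr 1
  exact qa_σ2 hm hm hb ξ f s hr hp fun v => (h1 v, h2 v)

/-- the normalisation of the two copies -/
theorem ex_one_σ2 {M : ℕ} [NeZero M] (hb : 0 < b) {ξ : ℕ} (hξ : 0 < ξ) (f : Tor M → ℝ) :
    Ex (Spec.σ2 M b ξ hb.le f) (fun _ _ => 1) =
      ENNReal.ofReal (ZM (wTD M b 0)
        ((1 / (ξ : ℝ) ^ 2) • (1 : Matrix (Tor M) (Tor M) ℝ)) f ^ 2) := by
  have ht : 0 < 1 / (ξ : ℝ) ^ 2 := by positivity
  have h1 : Ex (Spec.σ2 M b ξ hb.le f) (fun _ _ => 1) = I0 (Spec.σ2 M b ξ hb.le f) fun _ => 1 := by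
    rw [H145.Dz.I0_eq, Ex_om]
  have h0 : 0 ≤ ZM (wTD M b 0) ((1 / (ξ : ℝ) ^ 2) • (1 : Matrix (Tor M) (Tor M) ℝ)) f :=
    tsum_nonneg fun h => H474.Cb.wDC_nonneg hb _ _ h
  have h2 : ENNReal.ofReal (ZM (wTD M b 0)
      ((1 / (ξ : ℝ) ^ 2) • (1 : Matrix (Tor M) (Tor M) ℝ)) f) =
      ∑' h : Tor M → ℤ, ENNReal.ofReal (wDC M b (1 / (ξ : ℝ) ^ 2) 0 f h) :=
    ENNReal.ofReal_tsum_of_nonneg (H474.Cb.wDC_nonneg hb _ _)
      (H474.Cb.summable_ZM hb ht (H789.coer_smul _) _ _)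
  rw [h1, I0_σ2 hb, pow_two (ZM _ _ _), ENNReal.ofReal_mul h0, h2, ← ENNReal.tsum_mul_right]
  refine tsum_congr fun h1 => ?_
  rw [← ENNReal.tsum_mul_left]
  exact tsum_congr fun h2 => by rw [mul_one]

/-- **the event block**: real background `f` common to both copies -/
theorem ev_arm {M m : ℕ} [NeZero M] (hm : m + 2 ≤ M) (hb : 0 < b) {ξ : ℕ} (hξ : 0 < ξ)
    (f : Tor M → ℝ) (s : Tor M) {p : VB m m} {r ρ : ℕ} (hr : r ≤ ρ)
    (hp : Dp p ρ) {ε : ℝ} (hε : 0 ≤ ε) (h : ArmLe M b hb.le ξ f (pt s p.1 p.2) r ρ ε) :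
    ∑' τ : Tor M → ℤ, ∑' τ' : Tor M → ℤ,
      ENNReal.ofReal (wDC _ b (1 / (ξ : ℝ) ^ 2) 0 f τ) *
        ENNReal.ofReal (wDC _ b (1 / (ξ : ℝ) ^ 2) 0 f τ') *
        Gb m m (wI_pos hb) (logC_wI hb.le) p r ρ (fun a c => τ (pt s a c))
          (fun a c => τ' (pt s a c)) ≤
      ENNReal.ofReal (ε * Z0 M b (1 / (ξ : ℝ) ^ 2) ^ 2) := by
  have ht : 0 < 1 / (ξ : ℝ) ^ 2 := by positivity
  rw [← ex_arm_σ2 hm hb ξ f s hr hp]
  refine (le_trans h ?_)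
  rw [ex_one_σ2 hb hξ, ← ENNReal.ofReal_mul hε]
  refine ENNReal.ofReal_le_ofReal (mul_le_mul_of_nonneg_left ?_ hε)
  have h3 := ZM_wTD_le (N := M) hb (M := (1 / (ξ : ℝ) ^ 2) • (1 : Matrix (Tor M) (Tor M) ℝ))
    (by rw [Matrix.transpose_smul, Matrix.transpose_one]) ht (H789.coer_smul _) 0 f
  exact pow_le_pow_left₀ (tsum_nonneg fun h => H474.Cb.wDC_nonneg hb _ _ h) h3 2

/-- **the event block in the letters of `arm_num`** : the two tori may be different, the data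
vanish (dislocation) or agree (background) on the closed block -/
theorem ev_num {m n1 n2 : ℕ} [NeZero ((m + 1) * (n1 + 2))] [NeZero ((m + 1) * (n2 + 2))]
    [NeZero ((m + 1) * 2)] (hb : 0 < b) {ξ : ℕ} (hξ : 0 < ξ)
    {η1 : Ed ((m + 1) * (n1 + 2)) → ℤ} {F1 : Tor ((m + 1) * (n1 + 2)) → ℝ}
    {η2 : Ed ((m + 1) * (n2 + 2)) → ℤ} {F2 : Tor ((m + 1) * (n2 + 2)) → ℝ}
    {s1 : Tor ((m + 1) * (n1 + 2))} {s2 : Tor ((m + 1) * (n2 + 2))}
    (h1 : foE m (trD s1 η1) 0 0 = 0) (h2 : foE m (trD s2 η2) 0 0 = 0)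
    {f : Tor ((m + 1) * 2) → ℝ} (hf1 : foF m (trF s1 F1) 0 0 = f)
    (hf2 : foF m (trF s2 F2) 0 0 = f) {p : VB m m} {r ρ : ℕ} (hr : r ≤ ρ)
    (hp : Dp p ρ) {ε : ℝ} (hε : 0 ≤ ε)
    (h : ArmLe ((m + 1) * 2) b hb.le ξ f (pt 0 p.1 p.2) r ρ ε) :
    ∑' τ : Tor ((m + 1) * 2) → ℤ, ∑' τ' : Tor ((m + 1) * 2) → ℤ,
      ENNReal.ofReal (wDC _ b (1 / (ξ : ℝ) ^ 2) (foE m (trD s1 η1) 0 0)
          (foF m (trF s1 F1) 0 0) τ) *
        ENNReal.ofReal (wDC _ b (1 / (ξ : ℝ) ^ 2) (foE m (trD s2 η2) 0 0)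
          (foF m (trF s2 F2) 0 0) τ') *
        Gb m m (wI_pos hb) (logC_wI hb.le) p r ρ (fun a c => τ (pt 0 a c))
          (fun a c => τ' (pt 0 a c)) ≤
      ENNReal.ofReal (ε * Z0 ((m + 1) * 2) b (1 / (ξ : ℝ) ^ 2) ^ 2) := by
  rw [h1, h2, hf1, hf2]
  exact ev_arm (by omega) hb hξ f 0 hr hp hε h

/-- the arm probability at background `0` (helper145) in this form -/
theorem armLe_T {b1 b2 a : ℝ} (hb1 : 0 < b1) (hA6 : Spec.ThmA6 b1 b2 a) : ∃ W₀ : ℝ, ∀ W : ℝ,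
    W₀ ≤ W → ∃ c C η ys : ℝ, ∃ A X : ℕ, 0 < c ∧ 0 < C ∧ 0 < η ∧ 0 < ys ∧ 8 ≤ A ∧ A ≤ X ∧
    ∀ (N : ℕ) [NeZero N] (b : ℝ) (hb : 0 ≤ b) (ξ : ℕ) (y : ℝ),
      Spec.Rng b1 b2 a W ys X N b ξ y → (N : ℝ) ^ 2 * y ≤ η * (ξ : ℝ) ^ 2 →
      ∀ (x0 : Spec.V N) (m : ℕ),
        ArmLe N b hb ξ 0 x0 (ξ / A) m (C * Real.exp (-(c * m / ξ))) :=
  H145.Dz.arm_T hb1 hA6

/-- **the block arm integral of the swap, with numbers** (one torus of side `(m+1)(n+2)`) -/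
theorem AB_num {m n : ℕ} [NeZero ((m + 1) * (n + 2))] [NeZero ((m + 1) * 2)] (hb : 0 < b) {ξ : ℕ}
    (hξ : 0 < ξ) (s : Tor ((m + 1) * (n + 2))) {E0 : Finset (Ed ((m + 1) * (n + 2)))}
    {η0 : Ed ((m + 1) * (n + 2)) → ℤ} {p : VB m m} {r ρ : ℕ} (hr : r ≤ ρ) (hp : Dp p ρ)
    (hE : ∀ e : Ed ((m + 1) * (n + 2)), (eS _ e ∈ ball (pt s p.1 p.2) ρ ∨
      eT _ e ∈ ball (pt s p.1 p.2) ρ) → e ∈ E0 ∧ η0 e = 0)
    (X1 X2 : (Ed ((m + 1) * (n + 2)) → ℤ) × (Tor ((m + 1) * (n + 2)) → ℝ))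
    (h1 : foE m (trD s X1.1) 0 0 = 0) (h2 : foE m (trD s X2.1) 0 0 = 0)
    {f : Tor ((m + 1) * 2) → ℝ} (hf1 : foF m (trF s X1.2) 0 0 = f)
    (hf2 : foF m (trF s X2.2) 0 0 = f) {ε : ℝ} (hε : 0 ≤ ε)
    (h : ArmLe ((m + 1) * 2) b hb.le ξ f (pt 0 p.1 p.2) r ρ ε)
    {q1 q2 : Fin (n + 2) × Fin (n + 2) → ℝ} (hq1 : ∀ p, 0 ≤ q1 p) (hq2 : ∀ p, 0 ≤ q2 p)
    (hZ1 : ∀ p : Fin (n + 2) × Fin (n + 2), p ≠ (0, 0) →
      ZM (wTD ((m + 1) * 2) b (foE m (trD s X1.1) p.1 p.2))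
      ((1 / (ξ : ℝ) ^ 2) • (1 : Matrix _ _ ℝ)) (foF m (trF s X1.2) p.1 p.2) ≤
        q1 p * Z0 ((m + 1) * 2) b (1 / (ξ : ℝ) ^ 2))
    (hZ2 : ∀ p : Fin (n + 2) × Fin (n + 2), p ≠ (0, 0) →
      ZM (wTD ((m + 1) * 2) b (foE m (trD s X2.1) p.1 p.2))
      ((1 / (ξ : ℝ) ^ 2) • (1 : Matrix _ _ ℝ)) (foF m (trF s X2.2) p.1 p.2) ≤
        q2 p * Z0 ((m + 1) * 2) b (1 / (ξ : ℝ) ^ 2))
    {δ : ℝ} (hδ : ((n : ℝ) + 2) ^ 2 / 4 * Real.log (Z0 ((m + 1) * 2) b (1 / (ξ : ℝ) ^ 2)) -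
      Real.log (Z0 ((m + 1) * (n + 2)) b (1 / (ξ : ℝ) ^ 2)) ≤ δ) :
    AB (eS _) (eT _) (I := fun _ => wI b) (fun _ => wI_pos hb) (fun _ => logC_wI hb.le) E0 η0
        (1 / (ξ : ℝ) ^ 2) X1 X2 (ball (pt s p.1 p.2) r) (ball (pt s p.1 p.2) ρ) ≤
      ENNReal.ofReal (ε ^ (1 / 4 : ℝ) * (∏ p ∈ univ.erase (0, 0), q1 p ^ (1 / 4 : ℝ)) *
        (∏ p ∈ univ.erase (0, 0), q2 p ^ (1 / 4 : ℝ)) * Real.exp (δ + δ) *
        (Z0 ((m + 1) * (n + 2)) b (1 / (ξ : ℝ) ^ 2) *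
          Z0 ((m + 1) * (n + 2)) b (1 / (ξ : ℝ) ^ 2))) := by
  have ht : 0 < 1 / (ξ : ℝ) ^ 2 := by positivity
  have hm : m + 2 ≤ (m + 1) * (n + 2) := by nlinarith [Nat.zero_le (m * n)]
  rw [AB_eq hm hb _ s hr hp hE X1 X2]
  exact H474.Cb.arm_vol hb ht X1.1 X1.2 X2.1 X2.2 s s _
    (fun x y => Gb_le_one m m (wI_pos hb) (logC_wI hb.le) p r ρ x y) q1 q2 hq1 hq2 hZ1 hZ2 hε
    (ev_num hb hξ h1 h2 hf1 hf2 hr hp hε h) hδ hδ

end Vale.Agent.P159.H764
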