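import Vale.Agent.P159.H764.Swr
import Vale.Agent.P159.H474.Cb10
import Vale.Agent.P159.H612.NeuG

/-!
P159, helper764, module QT (5): the torus instance of `nx_le`.

`nx_two` : a real source `f` in the ball of radius `R0` around `w`, a group element `W` outside the
ball of radius `R0 + l` : the excess second moment `NX(W; t f)` is at most
`9 (t ∑ f²) (Z₀ / Z(W)) (N/ρ0 + 1)² (ε^(1/4) QW e^(2 dl))^(1/2)`;
`rd_two` : with helper612's `EdM.neu_rd` the mixed difference of the type (real, dislocated).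
-/

set_option linter.unusedSectionVars false
set_option linter.unusedDecidableInType false

namespace Vale.Agent.P159.H764

open scoped ENNReal
open Finset Vale.Agent.P159.TM.H60 Vale.Agent.P159.TM.H576
open Vale.Agent.P159.H474.Cb
open Vale.Agent.P159.T1.H897 (LogC logC_wI)
open Vale.Agent.P159.TM.H459 (ball mem_ball sd sd_symm sd_tri)
open Vale.Agent.P159.H770 (Ed eS eT eW wTD wTD_zero wI_pos eWF edW_wI EdW)
open Vale.Agent.P159.H353 (wI)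
open Vale.Agent.P159.TM.SpecC (Tor wT)
open Vale.Agent.P159.H37 (ZM qf bf re wM)
open Vale.Agent.P159.H612 (NX)
open Vale.Agent.P159.TM

section main

variable {m n : ℕ} [NeZero ((m + 1) * (n + 2))] [NeZero ((m + 1) * 2)] {b : ℝ}

/-- the arm integral of the pair `(W, 0)` at a point of the gap -/
lemma AB_W (hb : 0 < b) {ξ : ℕ} (hξ : 0 < ξ) (w : Tor ((m + 1) * (n + 2)))
    {R0 l ρ0 ρ κ : ℕ} (h1 : ρ0 ≤ ρ) (h2 : ρ + 1 ≤ κ)
    {W : GE ((m + 1) * (n + 2))} (hW : Sup W (Far w (R0 + l)))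
    (Pc : Finset (Tor ((m + 1) * (n + 2)))) (hPc : (Pc.card + 1) * (2 * κ) < m + 1)
    (hPg : ∀ p ∈ Pc, sd w p ≤ R0 ∨ R0 + l ≤ sd w p)
    {ε : ℝ} (hε : 0 ≤ ε)
    (harm : ∀ p : VB m m, Dp p ρ → ArmLe ((m + 1) * 2) b hb.le ξ 0 (pt 0 p.1 p.2) ρ0 ρ ε)
    {QW dl : ℝ} (qW : ∀ s, GOK m n κ Pc s → QB m n b (1 / (ξ : ℝ) ^ 2) W s QW)
    (hV : Vol m n b (1 / (ξ : ℝ) ^ 2) dl) (c : Tor ((m + 1) * (n + 2)))
    (hreg : ∀ v, sd c v ≤ m + 1 → R0 < sd w v ∧ sd w v < R0 + l) :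
    AB (eS _) (eT _) (I := fun _ => wI b) (fun _ => wI_pos hb)
      (fun _ => logC_wI hb.le) (Efr (ball w R0) (Far w (R0 + l))) W.1 (1 / (ξ : ℝ) ^ 2) W 0
      (ball c ρ0) (ball c ρ) ≤
      ENNReal.ofReal (ε ^ (1 / 4 : ℝ) * QW * Real.exp (2 * dl) *
        Z0 ((m + 1) * (n + 2)) b (1 / (ξ : ℝ) ^ 2) ^ 2) := by
  have ht : 0 < 1 / (ξ : ℝ) ^ 2 := by positivity
  have hP0 : Sup (0 : GE ((m + 1) * (n + 2))) (ball w R0) := ⟨fun _ _ => rfl, fun _ _ => rfl⟩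
  have hX0 : ∀ e : Ed ((m + 1) * (n + 2)), R0 < sd w (eS _ e) → sd w (eS _ e) < R0 + l →
      (0 : GE ((m + 1) * (n + 2))).1 e = 0 := fun _ _ _ => rfl
  have e00 : (0 : GE ((m + 1) * (n + 2))) + 0 + W = W := by rw [add_zero, zero_add]
  have hfo : ∀ s : Tor ((m + 1) * (n + 2)),
      foF m (trF s (0 : GE ((m + 1) * (n + 2))).2) 0 0 = 0 := fun s => rfl
  obtain ⟨s, G, g1, g2, g3, g4, _⟩ := arm_at (m := m) (n := n) hb hξ h1 h2 hP0 hW hX0 Pc hPc hPg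
    hε (fun s p hp _ => by rw [hfo]; exact harm p hp) c hreg
  rw [e00] at g3 g4
  have h := AB_le hb ht _ _ g1 g3 (qW s g2) (QB_one hb ht 0 s) hε g4 hV
  rwa [mul_one] at h

/-- **the number of `NX` on the torus** -/
theorem nx_two (hb : 0 < b) {ξ : ℕ} (hξ : 0 < ξ) (w : Tor ((m + 1) * (n + 2)))
    {R0 l ρ0 ρ κ : ℕ} (h0 : 1 ≤ ρ0) (h1 : ρ0 ≤ ρ) (h2 : ρ + 1 ≤ κ) (h3 : 2 * (ρ0 + m + 3) ≤ l)
    {W : GE ((m + 1) * (n + 2))} (hW : Sup W (Far w (R0 + l)))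
    {f : Tor ((m + 1) * (n + 2)) → ℝ} (hf : ∀ v, R0 < sd w v → f v = 0)
    (Pc : Finset (Tor ((m + 1) * (n + 2)))) (hPc : (Pc.card + 1) * (2 * κ) < m + 1)
    (hPg : ∀ p ∈ Pc, sd w p ≤ R0 ∨ R0 + l ≤ sd w p)
    {ε : ℝ} (hε : 0 ≤ ε)
    (harm : ∀ p : VB m m, Dp p ρ → ArmLe ((m + 1) * 2) b hb.le ξ 0 (pt 0 p.1 p.2) ρ0 ρ ε)
    {QW dl : ℝ} (qW : ∀ s, GOK m n κ Pc s → QB m n b (1 / (ξ : ℝ) ^ 2) W s QW) (hQW : 0 ≤ QW)
    (hV : Vol m n b (1 / (ξ : ℝ) ^ 2) dl) :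
    NX (fun η : Ed ((m + 1) * (n + 2)) → ℤ => wM (eW (eS _) (eT _) (fun _ => wI b) η)
        ((1 / (ξ : ℝ) ^ 2) • (1 : Matrix _ _ ℝ))) W.1
        (((1 / (ξ : ℝ) ^ 2) • (1 : Matrix _ _ ℝ)).mulVec W.2)
        (((1 / (ξ : ℝ) ^ 2) • (1 : Matrix _ _ ℝ)).mulVec f) ≤
      9 * (1 / (ξ : ℝ) ^ 2 * ∑ x, f x ^ 2) *
        (Z0 ((m + 1) * (n + 2)) b (1 / (ξ : ℝ) ^ 2) / ZG _ b (1 / (ξ : ℝ) ^ 2) W) *
        ((((m + 1) * (n + 2) / ρ0 + 1 : ℕ) : ℝ) ^ 2 *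
          √(ε ^ (1 / 4 : ℝ) * QW * Real.exp (2 * dl))) := by
  classical
  have ht : 0 < 1 / (ξ : ℝ) ^ 2 := by positivity
  have h4 : κ ≤ m := by nlinarith [Nat.zero_le (Pc.card * (2 * κ))]
  obtain ⟨C, hC, hCn⟩ := net (N := (m + 1) * (n + 2)) ρ0 h0
  set k : ℕ := R0 + l / 2 with hk
  set J : Finset (Tor ((m + 1) * (n + 2))) :=
    C.filter fun c => ∃ z, sd w z = k ∧ z ∈ ball c ρ0 with hJ
  have hJc : (J.card : ℝ) ≤ (((m + 1) * (n + 2) / ρ0 + 1 : ℕ) : ℝ) ^ 2 := by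
    have : J.card ≤ ((m + 1) * (n + 2) / ρ0 + 1) ^ 2 := (Finset.card_filter_le _ _).trans hC
    exact_mod_cast this
  have hreg : ∀ c ∈ J, ∀ v, sd c v ≤ m + 1 → R0 < sd w v ∧ sd w v < R0 + l := by
    intro c hc v hv
    rw [hJ, Finset.mem_filter] at hc
    obtain ⟨_, z, hz, hzc⟩ := hc
    rw [mem_ball] at hzc
    have t1 := sd_tri w z c
    have t2 := sd_tri w c z
    rw [sd_symm z c] at t1
    have t3 := sd_tri w c v
    have t4 := sd_tri w v c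
    rw [sd_symm v c] at t4
    omega
  have hdis : ∀ v, v ∈ ball w R0 → v ∉ Far w (R0 + l) := by
    intro v a1 a2
    rw [mem_ball] at a1
    rw [mem_Far] at a2
    omega
  have g0 : ∀ e ∈ Efr (ball w R0) (Far w (R0 + l)), W.1 e = 0 := by
    intro e he
    unfold Efr at he
    rw [Finset.mem_filter] at he
    exact hW.e e (by tauto)
  have g1 : ∀ e, e ∉ Efr (ball w R0) (Far w (R0 + l)) →
      (eS _ e ∈ ball w R0 ∧ eT _ e ∈ ball w R0 ∧ W.1 e = 0) ∨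
        (eS _ e ∈ Far w (R0 + l) ∧ eT _ e ∈ Far w (R0 + l)) := by
    intro e he
    unfold Efr at he
    rw [Finset.mem_filter] at he
    have he' : (eS _ e ∈ ball w R0 ∧ eT _ e ∈ ball w R0) ∨
        (eS _ e ∈ Far w (R0 + l) ∧ eT _ e ∈ Far w (R0 + l)) := by
      by_contra hcon
      push Not at hcon
      exact he ⟨Finset.mem_univ _, fun h => hcon.1 h.1 h.2, fun h => hcon.2 h.1 h.2⟩
    rcases he' with ⟨k1, k2⟩ | ⟨k1, k2⟩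
    · exact Or.inl ⟨k1, k2, hW.e e (Or.inl (hdis _ k1))⟩
    · exact Or.inr ⟨k1, k2⟩
  have g2 : ∀ v, v ∉ ball w R0 → f v = 0 := by
    intro v hv
    rw [mem_ball] at hv
    exact hf v (by omega)
  have g3 : ∀ e : Ed ((m + 1) * (n + 2)), sd w (eS _ e) ≤ sd w (eT _ e) + 1 ∧
      sd w (eT _ e) ≤ sd w (eS _ e) + 1 := by
    intro e
    have t0 := sd_eS_eT e
    have t1 := sd_tri w (eT _ e) (eS _ e)
    have t2 := sd_tri w (eS _ e) (eT _ e)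
    rw [sd_symm (eT _ e) (eS _ e)] at t1
    omega
  have g4 : ∀ v ∈ ball w R0, sd w v < k := by
    intro v hv
    rw [mem_ball] at hv
    omega
  have g5 : ∀ v ∈ Far w (R0 + l), k ≤ sd w v := by
    intro v hv
    rw [mem_Far] at hv
    omega
  have g6 : ∀ z, sd w z = k → ∃ c ∈ J, z ∈ ball c ρ0 := by
    intro z hz
    obtain ⟨c, hc, hzc⟩ := hCn z
    exact ⟨c, Finset.mem_filter.2 ⟨hc, z, hz, hzc⟩, hzc⟩
  have g7 : ∀ c ∈ J, ∀ v ∈ ball w R0, v ∉ ball c ρ := by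
    intro c hc v hv hv'
    rw [mem_ball] at hv hv'
    have := hreg c hc v (by omega)
    omega
  have hZ0' : Z0 ((m + 1) * (n + 2)) b (1 / (ξ : ℝ) ^ 2) =
      ZM (eW (eS _) (eT _) (fun _ => wI b) 0) ((1 / (ξ : ℝ) ^ 2) • (1 : Matrix _ _ ℝ)) 0 :=
    (ZG_zero _ _ _).symm
  have key := nx_le (s := eS ((m + 1) * (n + 2))) (t := eT ((m + 1) * (n + 2)))
    (I := fun _ => wI b) (edW_wI hb) ht
    (fun _ => logC_wI hb.le) (E0 := Efr (ball w R0) (Far w (R0 + l))) (VP := ball w R0)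
    (VW := Far w (R0 + l)) (W := W) g0 g1 hW.f g2 J (fun c => ball c ρ0) (fun c => ball c ρ)
    g3 g4 g5 g6 g7 (a := fun _ => ε ^ (1 / 4 : ℝ) * QW * Real.exp (2 * dl))
    (fun _ _ => by positivity) (Z0 := Z0 ((m + 1) * (n + 2)) b (1 / (ξ : ℝ) ^ 2))
    (fun F' => ZG_le hb ht (W.1, F')) hZ0'.symm
    (fun c hc => AB_W hb hξ w h1 h2 hW Pc hPc hPg hε harm qW hV c (hreg c hc))
  refine key.trans ?_
  rw [Finset.sum_const, nsmul_eq_mul]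
  have hZW : 0 < ZG ((m + 1) * (n + 2)) b (1 / (ξ : ℝ) ^ 2) W := ZG_pos hb ht W
  have hZ0 : 0 < Z0 ((m + 1) * (n + 2)) b (1 / (ξ : ℝ) ^ 2) := Z0_pos hb ht
  have hS : 0 ≤ ∑ x, f x ^ 2 := Finset.sum_nonneg fun _ _ => sq_nonneg _
  refine mul_le_mul_of_nonneg_left (mul_le_mul_of_nonneg_right hJc (Real.sqrt_nonneg _)) ?_
  have e1 : ZM (eW (eS _) (eT _) (fun _ => wI b) W.1) ((1 / (ξ : ℝ) ^ 2) • (1 : Matrix _ _ ℝ)) W.2 =
      ZG ((m + 1) * (n + 2)) b (1 / (ξ : ℝ) ^ 2) W := rfl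
  rw [e1]
  positivity

/-- **(rd)**: the mixed difference of a real and a dislocated change at distance `l`, in helper612's
letters, base `X` arbitrary -/
theorem rd_two (hb : 0 < b) {ξ : ℕ} (hξ : 0 < ξ) (w : Tor ((m + 1) * (n + 2)))
    {R0 l ρ0 ρ κ : ℕ} (h0 : 1 ≤ ρ0) (h1 : ρ0 ≤ ρ) (h2 : ρ + 1 ≤ κ) (h3 : 2 * (ρ0 + m + 3) ≤ l)
    {W : GE ((m + 1) * (n + 2))} (hW : Sup W (Far w (R0 + l)))
    {f : Tor ((m + 1) * (n + 2)) → ℝ} (hf : ∀ v, R0 < sd w v → f v = 0)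
    (Pc : Finset (Tor ((m + 1) * (n + 2)))) (hPc : (Pc.card + 1) * (2 * κ) < m + 1)
    (hPg : ∀ p ∈ Pc, sd w p ≤ R0 ∨ R0 + l ≤ sd w p)
    {ε : ℝ} (hε : 0 ≤ ε)
    (harm : ∀ p : VB m m, Dp p ρ → ArmLe ((m + 1) * 2) b hb.le ξ 0 (pt 0 p.1 p.2) ρ0 ρ ε)
    {QW dl : ℝ} (qW : ∀ s, GOK m n κ Pc s → QB m n b (1 / (ξ : ℝ) ^ 2) W s QW) (hQW : 0 ≤ QW)
    (hV : Vol m n b (1 / (ξ : ℝ) ^ 2) dl)
    {E : ℝ} (hE : Z0 ((m + 1) * (n + 2)) b (1 / (ξ : ℝ) ^ 2) ≤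
      Real.exp E * ZG _ b (1 / (ξ : ℝ) ^ 2) W)
    (hω : H612.omE (eS _) (eT _) (fun _ : Ed ((m + 1) * (n + 2)) => wI b)
      ((1 / (ξ : ℝ) ^ 2) • (1 : Matrix _ _ ℝ)) ≤ 1 / 2) (X : GE ((m + 1) * (n + 2))) {τ : ℝ}
    (hτ : ∀ p ∈ Set.Icc (0 : ℝ) 1, H612.Tp0 (eS _) (eT _) (fun _ : Ed ((m + 1) * (n + 2)) => wI b)
      ((1 / (ξ : ℝ) ^ 2) • (1 : Matrix _ _ ℝ)) (X + W + (0, p • f)) (X + (0, p • f)) ≤ τ) :
    |Real.log (H612.zn (eS _) (eT _) (fun _ : Ed ((m + 1) * (n + 2)) => wI b)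
        ((1 / (ξ : ℝ) ^ 2) • (1 : Matrix _ _ ℝ)) (X + (0, f) + W)) -
      Real.log (H612.zn (eS _) (eT _) (fun _ : Ed ((m + 1) * (n + 2)) => wI b)
        ((1 / (ξ : ℝ) ^ 2) • (1 : Matrix _ _ ℝ)) (X + (0, f))) -
      Real.log (H612.zn (eS _) (eT _) (fun _ : Ed ((m + 1) * (n + 2)) => wI b)
        ((1 / (ξ : ℝ) ^ 2) • (1 : Matrix _ _ ℝ)) (X + W)) +
      Real.log (H612.zn (eS _) (eT _) (fun _ : Ed ((m + 1) * (n + 2)) => wI b)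
        ((1 / (ξ : ℝ) ^ 2) • (1 : Matrix _ _ ℝ)) X)| ≤
      Real.exp ((τ + 16 * H612.omE (eS _) (eT _) (fun _ : Ed ((m + 1) * (n + 2)) => wI b)
        ((1 / (ξ : ℝ) ^ 2) • (1 : Matrix _ _ ℝ))) / 2) *
        √(9 * (1 / (ξ : ℝ) ^ 2 * ∑ x, f x ^ 2) * Real.exp E *
          ((((m + 1) * (n + 2) / ρ0 + 1 : ℕ) : ℝ) ^ 2 *
            √(ε ^ (1 / 4 : ℝ) * QW * Real.exp (2 * dl)))) +
      8 * H612.omE (eS _) (eT _) (fun _ : Ed ((m + 1) * (n + 2)) => wI b)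
        ((1 / (ξ : ℝ) ^ 2) • (1 : Matrix _ _ ℝ)) ^ 2 := by
  classical
  have ht : 0 < 1 / (ξ : ℝ) ^ 2 := by positivity
  have hMt : ((1 / (ξ : ℝ) ^ 2) • (1 : Matrix (Tor ((m + 1) * (n + 2)))
      (Tor ((m + 1) * (n + 2))) ℝ)).transpose = (1 / (ξ : ℝ) ^ 2) • 1 := by
    rw [Matrix.transpose_smul, Matrix.transpose_one]
  have hd := H612.edM_torus (N := (m + 1) * (n + 2)) hb hMt ht (H789.coer_smul _)
  have hbf : bf ((1 / (ξ : ℝ) ^ 2) • (1 : Matrix (Tor ((m + 1) * (n + 2)))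
      (Tor ((m + 1) * (n + 2))) ℝ)) f W.2 = 0 := by
    unfold bf
    refine Finset.sum_eq_zero fun x _ => Finset.sum_eq_zero fun y _ => ?_
    by_cases hxy : x = y
    · subst hxy
      by_cases hx : R0 < sd w x
      · rw [hf x hx]
        ring
      · rw [hW.f x (by
          rw [mem_Far]
          omega)]
        ring
    · rw [Matrix.smul_apply, Matrix.one_apply_ne hxy]
      simp
  have h5 := hd.neu_rd hω X W f hbf hτ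
  refine h5.trans (add_le_add (mul_le_mul_of_nonneg_left (Real.sqrt_le_sqrt ?_)
    (Real.exp_pos _).le) le_rfl)
  refine (nx_two hb hξ w h0 h1 h2 h3 hW hf Pc hPc hPg hε harm qW hQW hV).trans ?_
  refine mul_le_mul_of_nonneg_right (mul_le_mul_of_nonneg_left ?_ ?_) (by positivity)
  · rw [div_le_iff₀ (ZG_pos hb ht W)]
    exact hE
  · have hS : 0 ≤ ∑ x, f x ^ 2 := Finset.sum_nonneg fun _ _ => sq_nonneg _
    positivity

end main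

end Vale.Agent.P159.H764
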