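import Vale.Agent.P159.H817.St12
import Vale.Agent.P159.H280.Hs4
import Vale.Agent.P159.H612.NeuG
import Vale.Agent.P159.H474.Cb10

/-!
P159 / module CUT (helper764 for helper191): the local geometry of a far pair.

`fract_box` : in a box the fractional part of a field with integer gradient is constant.
`cut_geo` : a group element `(η, fx)` whose edge field is the canonical field `bD p q` of a pair
far from `w` is, up to an integer gauge and a constant, `W + (0, v)`: `W` vanishes on the box of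
radius `3 l` around `w`, and `v` is a smooth bump supported in the box of radius `4 l`.
-/

set_option linter.unusedSectionVars false
set_option linter.unusedDecidableInType false

namespace Vale.Agent.P159.H764.Ctg

open Finset
open Vale.Agent.P159.TM.Spec (V)
open Vale.Agent.P159.H817 (sz eb e1 e2 gr gr_eq gr_add gr_sub GB U U_one U_zero abs_U U_shift_GB
  box_pot bD bD_le dv_bD cu_bD dv cu sz_step sz_add_le sz_neg sz_zero gi gi_cast eF CG CG_pos)
open Vale.Agent.P159.H37 (ZM Zn re)
open Vale.Agent.P159.H770 (eS eT wTD Ed grd)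
open Vale.Agent.P159.TM.SpecC (Tor)
open Vale.Agent.P159.H353 (wI)
open Vale.Agent.P159.H474.Cb (GE Sup)
open Vale.Agent.P159.H612 (zn)
open Vale.Agent.P159.TM.H459 (sd)

noncomputable section

variable {N : ℕ} [NeZero N]

/-- the point with the displacement `(i, j)` from `w` -/
def pt (w : V N) (i j : ℤ) : V N := w + H280.Hs.zc N i j

lemma pt_e1 (w : V N) (i j : ℤ) : pt w i j + eb false = pt w (i + 1) j := by
  unfold pt H280.Hs.zc
  rw [add_assoc]
  congr 1
  show ((i : ZMod N) + 1, (j : ZMod N) + 0) = _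
  push_cast
  rw [add_zero]

lemma pt_e2 (w : V N) (i j : ℤ) : pt w i j + eb true = pt w i (j + 1) := by
  unfold pt H280.Hs.zc
  rw [add_assoc]
  congr 1
  show ((i : ZMod N) + 0, (j : ZMod N) + 1) = _
  push_cast
  rw [add_zero]

lemma sz_pt {w : V N} {i j : ℤ} {m : ℕ} (hi : i.natAbs ≤ m) (hj : j.natAbs ≤ m) :
    sz (pt w i j - w) ≤ m := by
  unfold pt
  rw [add_sub_cancel_left]
  exact (H280.Hs.zc_small).trans (max_le hi hj)

lemma pt_zero (w : V N) : pt w 0 0 = w := by
  unfold pt H280.Hs.zc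
  simp

/-- in a box the fractional part of a field with integer gradient is constant -/
lemma fract_box {w : V N} {m : ℕ} {G : V N → ℝ}
    (h : ∀ x b, sz (x - w) ≤ m → sz (x + eb b - w) ≤ m →
      Int.fract (G (x + eb b)) = Int.fract (G x)) (x : V N) (hx : sz (x - w) ≤ m) :
    Int.fract (G x) = Int.fract (G w) := by
  have row : ∀ n : ℕ, n ≤ m → ∀ j : ℤ, j.natAbs ≤ m →
      Int.fract (G (pt w n j)) = Int.fract (G (pt w 0 j)) ∧
        Int.fract (G (pt w (-n) j)) = Int.fract (G (pt w 0 j)) := by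
    intro n
    induction n with
    | zero => intro _ j _; simp
    | succ n ih =>
      intro hn j hj
      obtain ⟨i1, i2⟩ := ih (by omega) j hj
      constructor
      · have h1 := h (pt w n j) false (sz_pt (by omega) hj) (by
          rw [pt_e1]
          exact sz_pt (by omega) hj)
        rw [pt_e1] at h1
        rw [← i1, ← h1]
        push_cast
        rfl
      · have e : -((n + 1 : ℕ) : ℤ) + 1 = -(n : ℤ) := by push_cast; ring
        have h1 := h (pt w (-((n + 1 : ℕ) : ℤ)) j) false (sz_pt (by omega) hj) (by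
          rw [pt_e1, e]
          exact sz_pt (by omega) hj)
        rw [pt_e1, e] at h1
        rw [← h1, i2]
  have col : ∀ n : ℕ, n ≤ m → Int.fract (G (pt w 0 n)) = Int.fract (G (pt w 0 0)) ∧
        Int.fract (G (pt w 0 (-n))) = Int.fract (G (pt w 0 0)) := by
    intro n
    induction n with
    | zero => intro _; simp
    | succ n ih =>
      intro hn
      obtain ⟨i1, i2⟩ := ih (by omega)
      constructor
      · have h1 := h (pt w 0 n) true (sz_pt (by omega) (by omega)) (by
          rw [pt_e2]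
          exact sz_pt (by omega) (by omega))
        rw [pt_e2] at h1
        rw [← i1, ← h1]
        push_cast
        rfl
      · have e : -((n + 1 : ℕ) : ℤ) + 1 = -(n : ℤ) := by push_cast; ring
        have h1 := h (pt w 0 (-((n + 1 : ℕ) : ℤ))) true (sz_pt (by omega) (by omega)) (by
          rw [pt_e2, e]
          exact sz_pt (by omega) (by omega))
        rw [pt_e2, e] at h1
        rw [← h1, i2]
  have hx' : (x - w).1.valMinAbs.natAbs ≤ m ∧ (x - w).2.valMinAbs.natAbs ≤ m := max_le_iff.1 hx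
  have e0 : x = pt w (x - w).1.valMinAbs (x - w).2.valMinAbs := by
    unfold pt
    rw [H280.Hs.zc_vma]
    abel
  rw [e0]
  generalize hi : (x - w).1.valMinAbs = i at hx'
  generalize hj : (x - w).2.valMinAbs = j at hx'
  have r1 : Int.fract (G (pt w i j)) = Int.fract (G (pt w 0 j)) := by
    rcases Int.natAbs_eq i with hc | hc
    · rw [hc]
      exact (row i.natAbs hx'.1 j hx'.2).1
    · rw [hc]
      exact (row i.natAbs hx'.1 j hx'.2).2
  have r2 : Int.fract (G (pt w 0 j)) = Int.fract (G (pt w 0 0)) := by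
    rcases Int.natAbs_eq j with hc | hc
    · rw [hc]
      exact (col j.natAbs hx'.2).1
    · rw [hc]
      exact (col j.natAbs hx'.2).2
  rw [r1, r2, pt_zero]

/-- the constant of `cut_geo` -/
def Cc : ℝ := 33 * (1 + CG)

lemma Cc_pos : 0 < Cc := by
  have := CG_pos
  unfold Cc
  positivity

/-- the result of the local cut at `w`: `v` is a smooth bump around `w`, `W` is far from `w` -/
structure Cut (w : V N) (l : ℕ) (η : V N × Bool → ℤ) (fx v : V N → ℝ) (W : GE N) (c0 : ℝ) :
    Prop where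
  gb : GB (Cc / l) v
  le : ∀ x, |v x| ≤ Cc
  out : ∀ x, 4 * l ≤ sz (x - w) → v x = 0
  eq : ∀ x b, sz (x - w) ≤ 3 * l → sz (x + eb b - w) ≤ 3 * l →
    gr v (x, b) = (η (x, b) : ℝ) + gr fx (x, b)
  We : ∀ x b, sz (x - w) ≤ 3 * l → sz (x + eb b - w) ≤ 3 * l → W.1 (x, b) = 0
  Wf : ∀ x, sz (x - w) ≤ 3 * l → W.2 x = 0
  oute : ∀ x b, 3 * l < sz (x - w) → 3 * l < sz (x + eb b - w) → W.1 (x, b) = η (x, b)
  outf : ∀ x, 3 * l < sz (x - w) → W.2 x = fx x - v x - c0
  gau : ∃ k : V N → ℤ, (∀ x, 3 * l < sz (x - w) → k x = 0) ∧ W.1 = η + gi k ∧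
    ∀ x, W.2 x = fx x - v x - c0 - re k x

namespace Cut

variable {w : V N} {l : ℕ} {η : V N × Bool → ℤ} {fx v : V N → ℝ} {W : GE N} {c0 : ℝ}
  (h : Cut w l η fx v W c0)
include h

/-- `W` lives far from `w` -/
theorem sup (hl : 1 ≤ l) : Sup W (univ.filter fun x => 2 * l + 1 ≤ sd w x) := by
  have hS : ∀ x : V N, x ∉ (univ.filter fun x => 2 * l + 1 ≤ sd w x) → sz (x - w) ≤ 2 * l := by
    intro x hx
    rw [Finset.mem_filter, not_and, not_le] at hx
    have h1 : sd w x < 2 * l + 1 := hx (Finset.mem_univ _)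
    have h2 : sd w x = sz (x - w) := rfl
    omega
  refine ⟨fun e he => ?_, fun x hx => h.Wf x (by have := hS x hx; omega)⟩
  obtain ⟨x, b⟩ := e
  have e1 : eS N (x, b) = x := rfl
  have e2 : eT N (x, b) = x + eb b := by
    cases b <;> rfl
  rw [e1, e2] at he
  have hst := sz_step (x - w) b
  rw [← add_sub_right_comm] at hst
  rcases he with h1 | h1
  · have := hS _ h1
    exact h.We x b (by omega) (by omega)
  · have := hS _ h1
    exact h.We x b (by omega) (by omega)

/-- every constant -/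
theorem zM (b : ℝ) (M : Matrix (V N) (V N) ℝ) (F : V N → ℝ) (c : ℝ) :
    ZM (wTD N b η) M (H145.cs (fun x => fx x + F x) c) =
      ZM (wTD N b (W + ((0 : V N × Bool → ℤ), fun x => v x + F x)).1) M
        (H145.cs (W + ((0 : V N × Bool → ℤ), fun x => v x + F x)).2 (c0 + c)) := by
  obtain ⟨k, -, h1, h2⟩ := h.gau
  have e1 : (W + ((0 : V N × Bool → ℤ), fun x => v x + F x)).1 = η + gi k := by
    rw [Prod.fst_add, h1, add_zero]
  rw [e1]
  have h3 := H770.ZM_gauge (s := eS N) (t := eT N) (I := fun _ => wI b) M η k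
    (H145.cs (W + ((0 : V N × Bool → ℤ), fun x => v x + F x)).2 (c0 + c))
  refine Eq.trans ?_ h3.symm
  show ZM (wTD N b η) M _ = ZM (wTD N b η) M _
  congr 1
  funext x
  show fx x + F x + c = (W.2 x + (v x + F x)) + (c0 + c) + re k x
  rw [h2 x]
  ring

/-- the integer model at every constant, in the letters of helper612 -/
theorem zc_eq (b : ℝ) (M : Matrix (V N) (V N) ℝ) (F : V N → ℝ) (c : ℝ) :
    H612.zc (eS N) (eT N) (fun _ => wI b) M (η, fun x => fx x + F x) c =
      H612.zc (eS N) (eT N) (fun _ => wI b) M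
        (W + ((0 : V N × Bool → ℤ), fun x => v x + F x)) (c0 + c) := h.zM b M F c

/-- **the neutral model** -/
theorem zn_eq {b : ℝ} (hb : 0 < b) (M : Matrix (V N) (V N) ℝ) (F : V N → ℝ) :
    zn (eS N) (eT N) (fun _ => wI b) M (η, fun x => fx x + F x) =
      zn (eS N) (eT N) (fun _ => wI b) M (W + ((0 : V N × Bool → ℤ), fun x => v x + F x)) := by
  rw [H612.zn_torus, H612.zn_torus]
  refine H817.Zn_eF hb ?_
  obtain ⟨k, -, h1, h2⟩ := h.gau
  funext ⟨x, c⟩
  unfold H817.eF
  have e1 : (W + ((0 : V N × Bool → ℤ), fun x => v x + F x)).1 = η + gi k := by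
    rw [Prod.fst_add, h1, add_zero]
  rw [e1]
  have e2 : ((η + gi k) (x, c) : ℤ) = η (x, c) + gi k (x, c) := rfl
  have e3 := gi_cast k (x, c)
  rw [e2, gr_eq, gr_eq]
  rw [gr_eq] at e3
  push_cast
  rw [e3]
  show (η (x, c) : ℝ) + ((fx (x + eb c) + F (x + eb c)) - (fx x + F x)) =
    (η (x, c) : ℝ) + (re k (x + eb c) - re k x) +
      ((W.2 (x + eb c) + (v (x + eb c) + F (x + eb c))) - (W.2 x + (v x + F x)))
  rw [h2, h2]
  ring

/-- the charges -/
theorem cu_eq (x : V N) : cu (fun e => (W.1 e : ℝ)) x = cu (fun e => (η e : ℝ)) x := by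
  obtain ⟨k, -, h1, -⟩ := h.gau
  have e : (fun e => (W.1 e : ℝ)) = fun e => (η e : ℝ) + gr (re k) e := by
    funext e
    rw [h1, Pi.add_apply, Int.cast_add, gi_cast]
  rw [e, H817.cu_add (fun e => (η e : ℝ)) (gr (re k)), H817.cu_gr, add_zero]

/-- the edge field -/
theorem eF_eq (e : V N × Bool) : eF W.1 W.2 e + gr v e = (η e : ℝ) + gr fx e := by
  obtain ⟨k, -, h1, h2⟩ := h.gau
  obtain ⟨x, c⟩ := e
  have e3 := gi_cast k (x, c)
  unfold H817.eF
  rw [h1, Pi.add_apply, Int.cast_add, e3, gr_eq, gr_eq, gr_eq, gr_eq, h2, h2]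
  ring

end Cut

/-- **the local geometry of a far pair** -/
theorem cut_geo {p q w : V N} {l : ℕ} (hl : 1 ≤ l) (hN : 16 * l ≤ N) {η : V N × Bool → ℤ}
    {fx : V N → ℝ} (hη : ∀ e, (η e : ℝ) + gr fx e = bD p q e) (hp : 8 * l ≤ sz (w - p))
    (hq : 8 * l ≤ sz (w - q)) : ∃ (v : V N → ℝ) (W : GE N) (c0 : ℝ), v w = 0 ∧
      Cut w l η fx v W c0 ∧ ∀ x, sz (x - w) < 3 * l → dv (gr v) x = 0 := by
  have hC := CG_pos
  have hl0 : (0 : ℝ) < l := by exact_mod_cast hl
  have hN0 : (0 : ℝ) < N := Nat.cast_pos.2 (NeZero.pos N)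
  have far : ∀ (r : V N), 8 * l ≤ sz (w - r) → ∀ x, sz (x - w) ≤ 4 * l → 4 * l ≤ sz (x - r) := by
    intro r hr x hx
    have h1 := sz_add_le (w - x) (x - r)
    rw [sub_add_sub_cancel] at h1
    have h2 : sz (w - x) = sz (x - w) := by rw [← sz_neg, neg_sub]
    omega
  have hβ : ∀ x b, sz (x - w) ≤ 4 * l → |bD p q (x, b)| ≤ (1 + CG) / l := by
    intro x b hx
    have h1 := bD_le p q x b (far p hp x hx) (far q hq x hx)
    refine h1.trans ?_
    have h2 : 1 / (N : ℝ) ≤ 1 / l := by
      refine one_div_le_one_div_of_le hl0 ?_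
      have : l ≤ N := by omega
      exact_mod_cast this
    have h3 : 4 * CG / (1 + ((4 * l : ℕ) : ℝ)) ≤ CG / l := by
      rw [div_le_div_iff₀ (by positivity) hl0]
      push_cast
      nlinarith
    calc 1 / (N : ℝ) + 4 * CG / (1 + ((4 * l : ℕ) : ℝ)) ≤ 1 / l + CG / l := add_le_add h2 h3
      _ = (1 + CG) / l := by ring
  have hcu : ∀ x, sz (x - w) ≤ 4 * l → cu (bD p q) x = 0 := by
    intro x hx
    rw [cu_bD, if_neg, if_neg]
    · ring
    · rintro rfl
      have := far x hq x hx
      rw [sub_self, sz_zero] at this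
      omega
    · rintro rfl
      have := far x hp x hx
      rw [sub_self, sz_zero] at this
      omega
  obtain ⟨f, f0, fg, fb⟩ := box_pot (bD p q) w (m := 4 * l) (by omega) hβ hcu
  set v : V N → ℝ := fun x => U (3 * l) l (x - w) * f x with hv
  have hstep : ∀ (x : V N) (b : Bool), sz (x - w) ≤ sz (x + eb b - w) + 1 ∧
      sz (x + eb b - w) ≤ sz (x - w) + 1 := by
    intro x b
    rw [add_sub_right_comm]
    exact sz_step (x - w) b
  have hv1 : ∀ x, sz (x - w) ≤ 3 * l → v x = f x := by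
    intro x hx
    show U (3 * l) l (x - w) * f x = f x
    rw [U_one hl hx, one_mul]
  have hv0 : ∀ x, 4 * l ≤ sz (x - w) → v x = 0 := by
    intro x hx
    show U (3 * l) l (x - w) * f x = 0
    rw [U_zero (by omega), zero_mul]
  have hfb : ∀ x, sz (x - w) ≤ 4 * l → |f x| ≤ 32 * (1 + CG) := by
    intro x hx
    refine (fb x hx).trans (le_of_eq ?_)
    push_cast
    field_simp
    ring
  have hvb : ∀ x, |v x| ≤ Cc := by
    intro x
    rcases Nat.lt_or_ge (sz (x - w)) (4 * l) with hx | hx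
    · show |U (3 * l) l (x - w) * f x| ≤ Cc
      rw [abs_mul]
      have h1 := abs_U (3 * l) l (x - w)
      have h2 := hfb x hx.le
      calc |U (3 * l) l (x - w)| * |f x| ≤ 1 * (32 * (1 + CG)) :=
            mul_le_mul h1 h2 (abs_nonneg _) zero_le_one
        _ ≤ Cc := by unfold Cc; nlinarith
    · rw [hv0 x hx, abs_zero]
      exact Cc_pos.le
  have hgb : GB (Cc / l) v := by
    rintro ⟨x, b⟩
    rcases Nat.lt_or_ge (4 * l) (sz (x - w)) with hx | hx
    · have h1 := (hstep x b).1
      rw [gr_eq, hv0 x hx.le, hv0 (x + eb b) (by omega), sub_zero, abs_zero]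
      exact div_nonneg Cc_pos.le hl0.le
    · have e : gr v (x, b) = U (3 * l) l (x + eb b - w) * gr f (x, b) +
          gr (fun x => U (3 * l) l (x - w)) (x, b) * f x :=
        H817.gr_mul (fun x => U (3 * l) l (x - w)) f x b
      rw [e]
      refine (abs_add_le _ _).trans ?_
      have a1 : |U (3 * l) l (x + eb b - w) * gr f (x, b)| ≤ (1 + CG) / l := by
        rw [abs_mul, fg x b hx]
        calc |U (3 * l) l (x + eb b - w)| * |bD p q (x, b)| ≤ 1 * ((1 + CG) / l) :=
              mul_le_mul (abs_U _ _ _) (hβ x b hx) (abs_nonneg _) zero_le_one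
          _ = _ := one_mul _
      have a2 : |gr (fun x => U (3 * l) l (x - w)) (x, b) * f x| ≤ 1 / l * (32 * (1 + CG)) := by
        rw [abs_mul]
        exact mul_le_mul (U_shift_GB (3 * l) hl w (x, b)) (hfb x hx) (abs_nonneg _) (by positivity)
      calc |U (3 * l) l (x + eb b - w) * gr f (x, b)| +
            |gr (fun x => U (3 * l) l (x - w)) (x, b) * f x|
          ≤ (1 + CG) / l + 1 / l * (32 * (1 + CG)) := add_le_add a1 a2
        _ = Cc / l := by unfold Cc; ring
  have hgv : ∀ x b, sz (x - w) ≤ 3 * l → sz (x + eb b - w) ≤ 3 * l →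
      gr v (x, b) = bD p q (x, b) := by
    intro x b h1 h2
    rw [gr_eq, hv1 x h1, hv1 _ h2, ← gr_eq]
    exact fg x b (by omega)
  -- the gauge
  set G : V N → ℝ := fun x => fx x - v x with hG
  have hgG : ∀ x b, sz (x - w) ≤ 3 * l → sz (x + eb b - w) ≤ 3 * l →
      G (x + eb b) = G x + ((-η (x, b) : ℤ) : ℝ) := by
    intro x b h1 h2
    have h3 := hgv x b h1 h2
    have h4 := hη (x, b)
    rw [gr_eq] at h3 h4
    simp only [hG]
    push_cast
    linarith
  have hfr := fract_box (w := w) (m := 3 * l) (G := G) fun x b h1 h2 => by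
    rw [hgG x b h1 h2, Int.fract_add_intCast]
  set c0 : ℝ := Int.fract (G w) with hc0
  set k : V N → ℤ := fun x => if sz (x - w) ≤ 3 * l then ⌊G x⌋ else 0 with hk
  set W : GE N := (η + gi k, fun x => G x - c0 - re k x) with hW
  have hk1 : ∀ x, sz (x - w) ≤ 3 * l → re k x = G x - c0 := by
    intro x hx
    have h1 := Int.floor_add_fract (G x)
    rw [hfr x hx] at h1
    show ((k x : ℤ) : ℝ) = _
    simp only [hk, if_pos hx]
    linarith
  have hk0 : ∀ x, 3 * l < sz (x - w) → k x = 0 := by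
    intro x hx
    simp only [hk]
    rw [if_neg (by omega)]
  refine ⟨v, W, c0, ?_, ⟨hgb, hvb, hv0, ?_, ?_, ?_, ?_, ?_, k, hk0, rfl, fun x => rfl⟩, ?_⟩
  · rw [hv1 w (by rw [sub_self, sz_zero]; omega), f0]
  · intro x b h1 h2
    rw [hgv x b h1 h2, hη]
  · intro x b h1 h2
    have h3 := gi_cast k (x, b)
    rw [gr_eq, hk1 x h1, hk1 _ h2, hgG x b h1 h2] at h3
    have h4 : ((gi k (x, b) : ℤ) : ℝ) = ((-η (x, b) : ℤ) : ℝ) := by rw [h3]; ring
    have h5 : gi k (x, b) = -η (x, b) := by exact_mod_cast h4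
    show (η + gi k) (x, b) = 0
    rw [Pi.add_apply, h5]
    ring
  · intro x hx
    show G x - c0 - re k x = 0
    rw [hk1 x hx]
    ring
  · intro x b h1 h2
    have h3 : gi k (x, b) = k (eT N (x, b)) - k (eS N (x, b)) := rfl
    have e2 : eT N (x, b) = x + eb b := by cases b <;> rfl
    have e1 : eS N (x, b) = x := rfl
    show (η + gi k) (x, b) = η (x, b)
    rw [Pi.add_apply, h3, e1, e2, hk0 x h1, hk0 _ h2]
    ring
  · intro x hx
    show G x - c0 - re k x = fx x - v x - c0
    have h1 : re k x = 0 := by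
      show ((k x : ℤ) : ℝ) = 0
      rw [hk0 x hx]
      exact Int.cast_zero
    rw [h1]
    simp only [hG]
    ring
  · intro x hx
    have g1 := hstep x false
    have g2 := hstep x true
    have g3 := hstep (x - e1) false
    have g4 := hstep (x - e2) true
    have c1 : x - e1 + eb false = x := sub_add_cancel x e1
    have c2 : x - e2 + eb true = x := sub_add_cancel x e2
    rw [c1] at g3
    rw [c2] at g4
    have h1 := dv_bD p q x
    unfold H817.dv at h1 ⊢
    rw [hgv x false (by omega) (by omega), hgv x true (by omega) (by omega),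
      hgv (x - e1) false (by omega) (by rw [c1]; omega),
      hgv (x - e2) true (by omega) (by rw [c2]; omega)]
    exact h1

end

end Vale.Agent.P159.H764.Ctg
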