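import Vale.Agent.P159.H764.Rdc
import Vale.Agent.P159.H474.Cb15

/-!
P159 (helper764), S, module CUT: the number `RdN` for a pair of unit cores.

* `Qc_left`, `Qc_right` : wired correlations of a path around its two ends;
* `rdN_pair` : `rdN_cut` for `(η, fx)` with `η` a path from `p` to `q`, block numbers `mm b r0 ^ 2`.
-/

set_option linter.unusedSectionVars false

open scoped Matrix
open Finset

namespace Vale.Agent.P159.H764.Rd

open Vale.Agent.P159.H474.Cb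
open Vale.Agent.P159.H764.Ctg
open Vale.Agent.P159.TM.H459 (ball mem_ball sd sd_symm sd_tri)
open Vale.Agent.P159.H770 (Ed)
open Vale.Agent.P159.TM.SpecC (Tor)
open Vale.Agent.P159.TM.Spec (V)
open Vale.Agent.P159.H191 (LT iT BT RdN)
open Vale.Agent.P159.H513 (cuZ)
open Vale.Agent.P159.H773 (mm)
open Vale.Agent.P159.H817 (sz sz_neg IsPath vma_XX)

noncomputable section

section path

variable {N : ℕ} [NeZero N] {b : ℝ} {p q : V N} {v1 v2 : ℤ} {Lp : ℕ} {η : V N × Bool → ℤ}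

lemma cuZ_path (h : IsPath p q v1 v2 Lp η) (x : V N) :
    cuZ η x = (if x = p then 1 else 0) - if x = q then 1 else 0 := by
  have h1 := h.cu x
  have e : H817.cu (fun e => (η e : ℝ)) x = ((cuZ η x : ℤ) : ℝ) := by
    unfold H817.cu cuZ
    push_cast
    rfl
  rw [e] at h1
  have h2 : ((cuZ η x : ℤ) : ℝ) = (((if x = p then 1 else 0) - if x = q then 1 else 0 : ℤ) : ℝ) := by
    rw [h1]
    push_cast
    rfl
  exact_mod_cast h2

/-- the point `z + v` -/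
def sh (z : V N) (v : ℤ × ℤ) : V N := z + ((v.1 : ZMod N), (v.2 : ZMod N))

lemma sz_sh {r : ℕ} {v : ℤ × ℤ} (hv : v ∈ box r) (z : V N) : sz (sh z v - z) ≤ r := by
  rw [XY.mem_box] at hv
  unfold sh
  rw [add_sub_cancel_left]
  unfold sz
  exact max_le ((H764.vma_le _).trans hv.1) ((H764.vma_le _).trans hv.2)

lemma sh_ne {r : ℕ} (hN : 2 * r < N) {v : ℤ × ℤ} (hv : v ∈ box r) (h0 : v ≠ 0) (z : V N) :
    sh z v ≠ z := by
  rw [XY.mem_box] at hv
  intro h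
  unfold sh at h
  have h1 : (((v.1 : ZMod N), (v.2 : ZMod N)) : V N) = 0 := by
    have := congrArg (fun y => y - z) h
    simpa using this
  have a1 : ((v.1 : ZMod N)) = 0 := congrArg Prod.fst h1
  have a2 : ((v.2 : ZMod N)) = 0 := congrArg Prod.snd h1
  have b1 : ((v.1 : ZMod N)).valMinAbs = v.1 := vma_XX (by omega)
  have b2 : ((v.2 : ZMod N)).valMinAbs = v.2 := vma_XX (by omega)
  rw [a1, ZMod.valMinAbs_zero] at b1
  rw [a2, ZMod.valMinAbs_zero] at b2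
  exact h0 (Prod.ext b1.symm b2.symm)

lemma sh_zero (z : V N) : sh z 0 = z := by
  unfold sh
  simp

/-- the charge at the centre -/
lemma chg_ctr (z : V N) (φ : V N → ℝ) : chg ((η, φ) : GE N) z 0 = cuZ η z := by
  have h := sh_zero z
  unfold sh at h
  unfold chg
  rw [h]

lemma chg_sh (z : V N) (φ : V N → ℝ) (v : ℤ × ℤ) :
    chg ((η, φ) : GE N) z v = cuZ η (sh z v) := rfl

lemma zero_box : (0 : ℤ × ℤ) ∈ box 0 := by
  rw [XY.mem_box]
  simp

theorem Qc_left (hb : 0 ≤ b) (h : IsPath p q v1 v2 Lp η) {r : ℕ} (hr : r < sz (q - p))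
    (hN : 2 * r < N) (φ : V N → ℝ) : Qc b ((η, φ) : GE N) p r ≤ mm b r := by
  have hpq : p ≠ q := by
    rintro rfl
    rw [sub_self, H817.sz_zero] at hr
    omega
  have h1 : chg ((η, φ) : GE N) p 0 = 1 := by
    rw [chg_ctr, cuZ_path h, if_pos rfl, if_neg hpq]
    norm_num
  have h2 : ∀ v ∈ box r, v ≠ 0 → chg ((η, φ) : GE N) p v = 0 := by
    intro v hv hv0
    have h3 := sz_sh hv p
    rw [chg_sh, cuZ_path h, if_neg (sh_ne hN hv hv0 p), if_neg]
    · norm_num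
    · intro h4
      rw [h4] at h3
      omega
  have key := Qc_one (b := b) (X := ((η, φ) : GE N)) (z := p) (ρ := r) (d := 0) hb zero_box
    (Nat.zero_le r) (Or.inl h1) h2
  rwa [Nat.sub_zero] at key

theorem Qc_right (hb : 0 ≤ b) (h : IsPath p q v1 v2 Lp η) {r : ℕ} (hr : r < sz (q - p))
    (hN : 2 * r < N) (φ : V N → ℝ) : Qc b ((η, φ) : GE N) q r ≤ mm b r := by
  have hpq : q ≠ p := by
    rintro rfl
    rw [sub_self, H817.sz_zero] at hr
    omega
  have h1 : chg ((η, φ) : GE N) q 0 = -1 := by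
    rw [chg_ctr, cuZ_path h, if_neg hpq, if_pos rfl]
    norm_num
  have h2 : ∀ v ∈ box r, v ≠ 0 → chg ((η, φ) : GE N) q v = 0 := by
    intro v hv hv0
    have h3 := sz_sh hv q
    have h5 : sz (p - q) = sz (q - p) := by rw [← sz_neg, neg_sub]
    rw [chg_sh, cuZ_path h, if_neg (sh_ne hN hv hv0 q), if_neg]
    · norm_num
    · intro h4
      rw [h4] at h3
      omega
  have key := Qc_one (b := b) (X := ((η, φ) : GE N)) (z := q) (ρ := r) (d := 0) hb zero_box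
    (Nat.zero_le r) (Or.inr h1) h2
  rwa [Nat.sub_zero] at key

end path

section main

variable {m n : ℕ} [NeZero ((m + 1) * (n + 2))] [NeZero ((m + 1) * 2)] {b : ℝ}

/-- **the number of the cut step for a pair of unit cores** -/
theorem rdN_pair (hb : 0 < b) {ξ A K κ L : ℕ} {L₀ c C : ℝ} (hL₀ : 0 ≤ L₀) (hc : 0 < c)
    (hC : 0 < C) (H : LN m n b hb ξ A L₀ c C) (g : Geo m n ξ A K κ L c) (hK : 2 ≤ K)
    (hω : om ((m + 1) * (n + 2)) b (1 / (ξ : ℝ) ^ 2) ≤ 1 / 2)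
    {w p q : Tor ((m + 1) * (n + 2))} {l R0 : ℕ} (hl : 1 ≤ l) (hR : R0 + L ≤ 2 * l + 1)
    {v1 v2 : ℤ} {Lp : ℕ} {η : Ed ((m + 1) * (n + 2)) → ℤ} (hη : IsPath p q v1 v2 Lp η)
    {fx v : Tor ((m + 1) * (n + 2)) → ℝ}
    {W : GE ((m + 1) * (n + 2))} {c0 : ℝ} (h : Cut w l η fx v W c0)
    (hp : 8 * l ≤ sz (w - p)) (hq : 8 * l ≤ sz (w - q)) {r0 : ℕ} (hr : r0 + 1 ≤ κ)
    (hpq : 2 * r0 + 2 ≤ sz (q - p)) {lc Δ Ev pr : ℝ}
    (hU : ∀ F, LT ((m + 1) * (n + 2)) b (1 / (ξ : ℝ) ^ 2) ((η, fx) + iT ((m + 1) * (n + 2)) F) -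
      LT ((m + 1) * (n + 2)) b (1 / (ξ : ℝ) ^ 2) 0 ≤ lc)
    (hΔ : lc - Δ ≤ LT ((m + 1) * (n + 2)) b (1 / (ξ : ℝ) ^ 2) (η, fx) -
      LT ((m + 1) * (n + 2)) b (1 / (ξ : ℝ) ^ 2) 0)
    (hEv : BT ((m + 1) * (n + 2)) b (1 / (ξ : ℝ) ^ 2) v v ≤ Ev)
    (hQ : mm b r0 ^ 2 ≤ Real.exp (lc + pr))
    {f : Tor ((m + 1) * (n + 2)) → ℝ} (hf : ∀ x, R0 < sz (x - w) → f x = 0) (τ : ℝ) :
    RdN ((m + 1) * (n + 2)) b (1 / (ξ : ℝ) ^ 2) W f τ
      (Real.exp ((τ + 16 * om ((m + 1) * (n + 2)) b (1 / (ξ : ℝ) ^ 2)) / 2) *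
        √(KR A c C * (1 / (ξ : ℝ) ^ 2 * ∑ x, f x ^ 2) *
        ((((m + 1) * (n + 2) : ℕ) : ℝ) / ξ) ^ 2 *
        Real.exp (2 * Δ + Ev + pr / 2 - c * κ / (8 * ξ))) +
      8 * om ((m + 1) * (n + 2)) b (1 / (ξ : ℝ) ^ 2) ^ 2) := by
  classical
  have g' := g
  obtain ⟨hA, hAξ, hκ, hKm, hLm, hv⟩ := g'
  have hne : p ≠ q := by
    rintro rfl
    rw [sub_self, H817.sz_zero] at hpq
    omega
  have hpq' : sd p q = sz (q - p) := rfl
  have hqp' : sd q p = sz (q - p) := by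
    have h3 : sz (p - q) = sz (q - p) := by rw [← sz_neg, neg_sub]
    rw [← h3]
    rfl
  have hwp : sd w p = sz (w - p) := by
    have h3 : sz (p - w) = sz (w - p) := by rw [← sz_neg, neg_sub]
    rw [← h3]
    rfl
  have hwq : sd w q = sz (w - q) := by
    have h3 : sz (q - w) = sz (w - q) := by rw [← sz_neg, neg_sub]
    rw [← h3]
    rfl
  have hN : 2 * r0 < (m + 1) * (n + 2) := by
    have h1 : (K + 1) * (2 * κ) = K * (2 * κ) + 2 * κ := by ring
    have h2 : 2 * κ < m + 1 := by nlinarith [Nat.zero_le (K * (2 * κ))]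
    nlinarith [Nat.zero_le n, Nat.zero_le (m * n)]
  refine rdN_cut hb hL₀ hc hC H g hω hl hR h {p, q} ((Finset.card_le_two).trans hK) ?_
    (fun _ => r0) (fun _ _ => hr) ?_ hU hΔ hEv ?_ hf τ
  · intro z hz
    right
    rw [Finset.mem_insert, Finset.mem_singleton] at hz
    rcases hz with rfl | rfl
    · omega
    · omega
  · intro z hz z' hz' hzz
    rw [Finset.mem_insert, Finset.mem_singleton] at hz hz'
    rcases hz with rfl | rfl <;> rcases hz' with rfl | rfl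
    · exact absurd rfl hzz
    · omega
    · omega
    · exact absurd rfl hzz
  · rw [Finset.prod_pair hne]
    refine le_trans ?_ hQ
    rw [pow_two]
    exact mul_le_mul (Qc_left hb.le hη (by omega) hN fx) (Qc_right hb.le hη (by omega) hN fx)
      (Qc_nonneg hb.le _ _ _) (H773.mm_nonneg hb.le _)

end main

end

end Vale.Agent.P159.H764.Rd
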