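import Vale.Agent.P159.H764.Evq1
import Vale.Agent.P159.H883.Trl3
import Vale.Agent.P159.H883.Brg7

/-!
P159 / S (helper764 for helper446, helper191): smeared cuts and un-averaging, no auxiliary part.

* `Mv` : a symmetry `σ` of the law with inverse `σ'` and the action `τ` on the vectors,
* `smT p σ σ' T0 F = ∑ p_v σ'_v (T0 (σ_v F))` : the smeared cut,
* `smear_pt`, `smear_lint` : `exp (c ev_X (s T F))` against the average over the moved vectors at
  the sharp cut `T0`,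
* `ev_lint`, `ev_mk` : the integral of `exp (G_X (s T F) + G_X (- s T F))` and the probability that
  the exponent is large, through 552's `SS`,
* `mv_tor`, `ev_mk_tor` : the torus.
-/

open scoped Matrix ENNReal
open Finset MeasureTheory

set_option linter.unusedSectionVars false

namespace Vale.Agent.P159.H764.Evq

open Vale.Agent.P159.TM.H104 (EM)
open Vale.Agent.P159.H37
open Vale.Agent.P159.H770 (GWF Ed wTD wTD_zero gwf_wTD)
open Vale.Agent.P159.H963 (pin ntr nM MF An)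
open Vale.Agent.P159.H883
open Vale.Agent.P159.H552.Sm
open Vale.Agent.P159.TM.SpecC (wT)

noncomputable section

section gen

variable {B V : Type} [AddCommGroup B] [Fintype V] [DecidableEq V] [Nonempty V]
variable {w : B → (V → ℤ) → ℝ} {M : Matrix V V ℝ} {m : ℝ} {x₀ : V}

/-- `σ` preserves the law, `σ'` is its inverse, `τ` the action on the vectors -/
structure Mv (w : B → (V → ℤ) → ℝ) (M : Matrix V V ℝ) (m : ℝ) (x₀ : V)
    (σ σ' : (V → ℝ) → V → ℝ) (τ : B × (V → ℝ) → B × (V → ℝ)) : Prop where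
  ms : Measurable σ
  ms' : Measurable σ'
  law : ∀ Φ : (V → ℝ) → ℝ≥0∞, CI Φ → Measurable Φ →
    ∫⁻ F, Φ (σ F) ∂(nuM (w 0) M x₀) = ∫⁻ F, Φ F ∂(nuM (w 0) M x₀)
  smul : ∀ (s : ℝ) (Y : V → ℝ), σ' (s • Y) = s • σ' Y
  g : ∀ X Y, Gx w M m x₀ X (σ' Y) = Gx w M m x₀ (τ X) Y

variable {ι : Type*} [Fintype ι] {σ σ' : ι → (V → ℝ) → V → ℝ}
  {τ : ι → B × (V → ℝ) → B × (V → ℝ)}

/-- the smeared cut -/
def smT (p : ι → ℝ) (σ σ' : ι → (V → ℝ) → V → ℝ) (T0 : (V → ℝ) → V → ℝ) (F : V → ℝ) : V → ℝ :=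
  ∑ v, p v • σ' v (T0 (σ v F))

lemma Mv.ev {σ σ' : (V → ℝ) → V → ℝ} {τ : B × (V → ℝ) → B × (V → ℝ)}
    (h : Mv w M m x₀ σ σ' τ) (X : B × (V → ℝ)) (s : ℝ) (Y : V → ℝ) :
    EvG w M m x₀ X (s • σ' Y) = EvG w M m x₀ (τ X) (s • Y) := by
  unfold EvG
  have e : -(s • σ' Y) = (-s) • σ' Y := by rw [neg_smul]
  have e' : -(s • Y) = (-s) • Y := by rw [neg_smul]
  rw [e, e', ← h.smul, ← h.smul, h.g, h.g]

/-- **smearing**, pointwise -/
theorem smear_pt (hw : GWF w) (hM : MF M m) (h : ∀ v, Mv w M m x₀ (σ v) (σ' v) (τ v))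
    {p : ι → ℝ} (hp : ∀ v, 0 ≤ p v) (hp1 : ∑ v, p v = 1) (T0 : (V → ℝ) → V → ℝ)
    (X : B × (V → ℝ)) (s : ℝ) {c : ℝ} (hc : 0 ≤ c) (F : V → ℝ) :
    Real.exp (c * EvG w M m x₀ X (s • smT p σ σ' T0 F)) ≤
      ∑ v, p v * Real.exp (c * EvG w M m x₀ (τ v X) (s • T0 (σ v F))) := by
  have h1 := EvG_jensen (x₀ := x₀) hw hM X hc hp hp1 fun v => s • σ' v (T0 (σ v F))
  have e : ∑ v, p v • s • σ' v (T0 (σ v F)) = s • smT p σ σ' T0 F := by
    unfold smT
    rw [Finset.smul_sum]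
    exact Finset.sum_congr rfl fun v _ => smul_comm _ _ _
  rw [e] at h1
  refine h1.trans (le_of_eq ?_)
  refine Finset.sum_congr rfl fun v _ => ?_
  rw [(h v).ev]

/-- the good set of the sharp cut -/
def AT (w : B → (V → ℤ) → ℝ) (M : Matrix V V ℝ) (m : ℝ) (x₀ : V) (T0 : (V → ℝ) → V → ℝ)
    (s r : ℝ) : Set (V → ℝ) := {F | Rw w M m x₀ ((2 * s) • T0 F) ≤ r}

lemma meas_AT (hw : GWF w) (hE : ∀ b x₀, EM (pin (w b) x₀)) (hM : MF M m)
    {T0 : (V → ℝ) → V → ℝ} (hT : Measurable T0) (s r : ℝ) :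
    MeasurableSet (AT w M m x₀ T0 s r) := by
  have h1 : Continuous fun Y : V → ℝ => Rw w M m x₀ ((2 * s) • Y) :=
    (cont_Rw hw hE hM).comp (by fun_prop)
  exact measurableSet_le (h1.measurable.comp hT) measurable_const

lemma ci_AT {T0 : (V → ℝ) → V → ℝ} (hT : CI T0) (s r : ℝ) :
    CI fun F => F ∈ AT w M m x₀ T0 s r := by
  intro F c
  have h := hT F c
  show (Rw w M m x₀ ((2 * s) • T0 (fun x => F x + c)) ≤ r) = (Rw w M m x₀ ((2 * s) • T0 F) ≤ r)
  rw [h]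

lemma cont_EvG (hw : GWF w) (hE : ∀ b x₀, EM (pin (w b) x₀)) (hM : MF M m)
    (X : B × (V → ℝ)) : Continuous (EvG w M m x₀ X) := by
  unfold EvG
  exact ((cont_Gx hw hE hM X).add ((cont_Gx hw hE hM X).comp continuous_neg)).div_const 2

/-- **smearing under the law** -/
theorem smear_lint (hw : GWF w) (hE : ∀ b x₀, EM (pin (w b) x₀)) (hM : MF M m)
    (h : ∀ v, Mv w M m x₀ (σ v) (σ' v) (τ v)) {p : ι → ℝ} (hp : ∀ v, 0 ≤ p v)
    (hp1 : ∑ v, p v = 1) {T0 : (V → ℝ) → V → ℝ} (hT : Measurable T0) (hTc : CI T0)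
    (X : B × (V → ℝ)) (s : ℝ) {c : ℝ} (hc : 0 ≤ c) {A0 : Set (V → ℝ)} (hA0 : MeasurableSet A0)
    (hAc : CI fun F => F ∈ A0) :
    ∫⁻ F in {F | ∀ v, σ v F ∈ A0},
        ENNReal.ofReal (Real.exp (c * EvG w M m x₀ X (s • smT p σ σ' T0 F)))
          ∂(nuM (w 0) M x₀) ≤
      ∫⁻ F in A0, ENNReal.ofReal (∑ v, p v * Real.exp (c * EvG w M m x₀ (τ v X) (s • T0 F)))
        ∂(nuM (w 0) M x₀) := by
  have hmv : ∀ v, Measurable fun F : V → ℝ =>
      ENNReal.ofReal (p v * Real.exp (c * EvG w M m x₀ (τ v X) (s • T0 F))) := by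
    intro v
    have h1 : Continuous fun Y : V → ℝ => p v * Real.exp (c * EvG w M m x₀ (τ v X) (s • Y)) :=
      continuous_const.mul (Real.continuous_exp.comp (continuous_const.mul
        ((cont_EvG hw hE hM _).comp (by fun_prop))))
    exact (h1.measurable.comp hT).ennreal_ofReal
  have hcv : ∀ v, CI fun F : V → ℝ =>
      ENNReal.ofReal (p v * Real.exp (c * EvG w M m x₀ (τ v X) (s • T0 F))) := by
    intro v F c
    simp only
    rw [hTc F c]
  have hpos : ∀ (v : ι) (F : V → ℝ), 0 ≤ p v * Real.exp (c * EvG w M m x₀ (τ v X) (s • F)) :=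
    fun v F => mul_nonneg (hp v) (Real.exp_pos _).le
  have hA : MeasurableSet {F : V → ℝ | ∀ v, σ v F ∈ A0} := by
    have e : {F : V → ℝ | ∀ v, σ v F ∈ A0} = ⋂ v, σ v ⁻¹' A0 := by
      ext F
      simp
    rw [e]
    exact MeasurableSet.iInter fun v => (h v).ms hA0
  have h1 : ∫⁻ F in {F | ∀ v, σ v F ∈ A0},
      ENNReal.ofReal (Real.exp (c * EvG w M m x₀ X (s • smT p σ σ' T0 F))) ∂(nuM (w 0) M x₀) ≤
      ∫⁻ F in {F | ∀ v, σ v F ∈ A0}, ∑ v, ENNReal.ofReal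
        (p v * Real.exp (c * EvG w M m x₀ (τ v X) (s • T0 (σ v F)))) ∂(nuM (w 0) M x₀) := by
    refine lintegral_mono fun F => ?_
    rw [← ENNReal.ofReal_sum_of_nonneg fun v _ => hpos v _]
    exact ENNReal.ofReal_le_ofReal (smear_pt hw hM h hp hp1 T0 X s hc F)
  refine h1.trans ?_
  have hms : ∀ v, Measurable fun F : V → ℝ =>
      ENNReal.ofReal (p v * Real.exp (c * EvG w M m x₀ (τ v X) (s • T0 (σ v F)))) :=
    fun v => (hmv v).comp (h v).ms
  rw [lintegral_finsetSum _ fun v _ => hms v]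
  have e2 : ∫⁻ F in A0, ENNReal.ofReal
      (∑ v, p v * Real.exp (c * EvG w M m x₀ (τ v X) (s • T0 F))) ∂(nuM (w 0) M x₀) =
      ∑ v, ∫⁻ F in A0, ENNReal.ofReal
        (p v * Real.exp (c * EvG w M m x₀ (τ v X) (s • T0 F))) ∂(nuM (w 0) M x₀) := by
    rw [← lintegral_finsetSum _ fun v _ => hmv v]
    refine lintegral_congr fun F => ?_
    exact ENNReal.ofReal_sum_of_nonneg fun v _ => hpos v _
  rw [e2]
  refine Finset.sum_le_sum fun v _ => ?_
  set Φ : (V → ℝ) → ℝ≥0∞ := fun F =>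
    ENNReal.ofReal (p v * Real.exp (c * EvG w M m x₀ (τ v X) (s • T0 F))) with hΦ
  have hI : ∫⁻ F, (A0.indicator Φ) (σ v F) ∂(nuM (w 0) M x₀) =
      ∫⁻ F, (A0.indicator Φ) F ∂(nuM (w 0) M x₀) := by
    refine (h v).law _ ?_ ((hmv v).indicator hA0)
    intro F c
    have h2 : ((fun x => F x + c) ∈ A0) = (F ∈ A0) := hAc F c
    by_cases hF : F ∈ A0
    · rw [Set.indicator_of_mem hF, Set.indicator_of_mem (h2.symm ▸ hF)]
      exact hcv v F c
    · rw [Set.indicator_of_notMem hF, Set.indicator_of_notMem (h2.symm ▸ hF)]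
  rw [← lintegral_indicator hA0, ← hI, ← lintegral_indicator hA]
  refine lintegral_mono fun F => ?_
  by_cases hF : F ∈ {F : V → ℝ | ∀ v, σ v F ∈ A0}
  · rw [Set.indicator_of_mem hF, Set.indicator_of_mem (hF v)]
  · rw [Set.indicator_of_notMem hF]
    exact zero_le

/-- **un-averaging at `c = 2`** -/
theorem ev_lint (hw : GWF w) (hE : ∀ b x₀, EM (pin (w b) x₀)) (hM : MF M m)
    (h : ∀ v, Mv w M m x₀ (σ v) (σ' v) (τ v)) {p : ι → ℝ} (hp : ∀ v, 0 ≤ p v)
    (hp1 : ∑ v, p v = 1) {T0 : (V → ℝ) → V → ℝ} (hT : Measurable T0) (hTc : CI T0)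
    (X : B × (V → ℝ)) (s r : ℝ) {S : ℝ} (hS : SS w x₀ p (fun v => τ v X) ≤ S) :
    ∫⁻ F in {F | ∀ v, Rw w M m x₀ ((2 * s) • T0 (σ v F)) ≤ r},
        ENNReal.ofReal (Real.exp (Gx w M m x₀ X (s • smT p σ σ' T0 F) +
          Gx w M m x₀ X (-(s • smT p σ σ' T0 F)))) ∂(nuM (w 0) M x₀) ≤
      ENNReal.ofReal (Real.sqrt S * Real.exp (r / 2)) := by
  have := prob0 hw hE hM x₀
  have h1 := smear_lint hw hE hM h hp hp1 hT hTc X s (c := 2) (by norm_num)
    (meas_AT (x₀ := x₀) hw hE hM hT s r) (ci_AT (w := w) (M := M) (m := m) (x₀ := x₀) hTc s r)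
  have e1 : ∀ (X : B × (V → ℝ)) (Y : V → ℝ), 2 * EvG w M m x₀ X Y =
      Gx w M m x₀ X Y + Gx w M m x₀ X (-Y) := by
    intro X Y
    unfold EvG
    ring
  simp only [e1] at h1
  refine h1.trans ?_
  calc ∫⁻ F in AT w M m x₀ T0 s r, ENNReal.ofReal (∑ v, p v * Real.exp
        (Gx w M m x₀ (τ v X) (s • T0 F) + Gx w M m x₀ (τ v X) (-(s • T0 F))))
          ∂(nuM (w 0) M x₀)
      ≤ ∫⁻ _ in AT w M m x₀ T0 s r, ENNReal.ofReal (Real.sqrt S * Real.exp (r / 2))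
          ∂(nuM (w 0) M x₀) := by
        refine setLIntegral_mono_ae' (meas_AT (x₀ := x₀) hw hE hM hT s r)
          (Filter.Eventually.of_forall fun F hF => ENNReal.ofReal_le_ofReal ?_)
        have h2 := sm_pt' hw hE hM x₀ hp (fun v => τ v X) (s • T0 F)
        refine h2.trans ?_
        have h3 : Rw w M m x₀ ((2 : ℝ) • s • T0 F) ≤ r := by
          rw [smul_smul]
          exact hF
        exact mul_le_mul (Real.sqrt_le_sqrt hS) (Real.exp_le_exp.2 (by linarith))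
          (Real.exp_pos _).le (Real.sqrt_nonneg _)
    _ ≤ ENNReal.ofReal (Real.sqrt S * Real.exp (r / 2)) := by
        rw [lintegral_const]
        calc ENNReal.ofReal (Real.sqrt S * Real.exp (r / 2)) *
              ((nuM (w 0) M x₀).restrict (AT w M m x₀ T0 s r)) Set.univ
            ≤ ENNReal.ofReal (Real.sqrt S * Real.exp (r / 2)) * 1 := by
              refine mul_le_mul_of_nonneg_left ?_ zero_le
              rw [Measure.restrict_apply_univ]
              exact prob_le_one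
          _ = _ := mul_one _

/-- **Markov** -/
theorem ev_mk (hw : GWF w) (hE : ∀ b x₀, EM (pin (w b) x₀)) (hM : MF M m)
    (h : ∀ v, Mv w M m x₀ (σ v) (σ' v) (τ v)) {p : ι → ℝ} (hp : ∀ v, 0 ≤ p v)
    (hp1 : ∑ v, p v = 1) {T0 : (V → ℝ) → V → ℝ} (hT : Measurable T0) (hTc : CI T0)
    (X : B × (V → ℝ)) (s r K : ℝ) {S : ℝ} (hS : SS w x₀ p (fun v => τ v X) ≤ S) :
    nuM (w 0) M x₀ {F | (∀ v, Rw w M m x₀ ((2 * s) • T0 (σ v F)) ≤ r) ∧
        K < Gx w M m x₀ X (s • smT p σ σ' T0 F) + Gx w M m x₀ X (-(s • smT p σ σ' T0 F))} ≤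
      ENNReal.ofReal (Real.sqrt S * Real.exp (r / 2 - K)) := by
  have h1 := ev_lint hw hE hM h hp hp1 hT hTc X s r hS
  set A : Set (V → ℝ) := {F | ∀ v, Rw w M m x₀ ((2 * s) • T0 (σ v F)) ≤ r} with hA
  set Φ : (V → ℝ) → ℝ := fun F => Gx w M m x₀ X (s • smT p σ σ' T0 F) +
    Gx w M m x₀ X (-(s • smT p σ σ' T0 F)) with hΦ
  have hmT : Measurable fun F : V → ℝ => smT p σ σ' T0 F := by
    unfold smT
    exact Finset.measurable_sum _ fun v _ =>
      (((h v).ms'.comp (hT.comp (h v).ms)).const_smul (p v))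
  have hΦm : Measurable Φ := by
    have a1 : Measurable fun F : V → ℝ => Gx w M m x₀ X (s • smT p σ σ' T0 F) :=
      (cont_Gx hw hE hM X).measurable.comp (hmT.const_smul s)
    have a2 : Measurable fun F : V → ℝ => Gx w M m x₀ X (-(s • smT p σ σ' T0 F)) :=
      (cont_Gx hw hE hM X).measurable.comp (hmT.const_smul s).neg
    exact a1.add a2
  have hK : ENNReal.ofReal (Real.exp K) ≠ 0 := by
    rw [Ne, ENNReal.ofReal_eq_zero, not_le]
    exact Real.exp_pos _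
  have h2 : ENNReal.ofReal (Real.exp K) * nuM (w 0) M x₀ {F | F ∈ A ∧ K < Φ F} ≤
      ENNReal.ofReal (Real.sqrt S * Real.exp (r / 2)) := by
    refine le_trans ?_ h1
    have h3 := mul_meas_ge_le_lintegral (μ := (nuM (w 0) M x₀).restrict A)
      (f := fun F => ENNReal.ofReal (Real.exp (Φ F)))
      (Real.continuous_exp.measurable.comp hΦm).ennreal_ofReal (ENNReal.ofReal (Real.exp K))
    refine le_trans (mul_le_mul_of_nonneg_left ?_ zero_le) h3
    have hAm : MeasurableSet {F : V → ℝ | ENNReal.ofReal (Real.exp K) ≤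
        ENNReal.ofReal (Real.exp (Φ F))} :=
      measurableSet_le measurable_const
        (Real.continuous_exp.measurable.comp hΦm).ennreal_ofReal
    rw [Measure.restrict_apply hAm]
    refine measure_mono fun F hF => ⟨?_, hF.1⟩
    exact ENNReal.ofReal_le_ofReal (Real.exp_le_exp.2 hF.2.le)
  have h4 : nuM (w 0) M x₀ {F | F ∈ A ∧ K < Φ F} ≤
      ENNReal.ofReal (Real.sqrt S * Real.exp (r / 2)) / ENNReal.ofReal (Real.exp K) := by
    rw [ENNReal.le_div_iff_mul_le (Or.inl hK) (Or.inl ENNReal.ofReal_ne_top), mul_comm]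
    exact h2
  refine h4.trans (le_of_eq ?_)
  rw [← ENNReal.ofReal_div_of_pos (Real.exp_pos K), mul_div_assoc, ← Real.exp_sub]

end gen

/-! ### the torus -/

section torus

open Vale.Agent.P159.TM.Spec (V)

variable {N : ℕ} [NeZero N] {b t : ℝ}

/-- translated vector -/
def trX (a : V N) (X : (Ed N → ℤ) × (V N → ℝ)) : (Ed N → ℤ) × (V N → ℝ) :=
  (trE a X.1, trS a X.2)

theorem mv_tor (hb : 0 < b) (ht : 0 < t) (a : V N) :
    Mv (wTD N b) (t • (1 : Matrix (V N) (V N) ℝ)) t 0 (trS a) (trS (-a)) (trX a) where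
  ms := measurable_trS a
  ms' := measurable_trS (-a)
  law Φ hc hΦ := by
    rw [wTD_zero]
    have h1 := nuM_tr (N := N) (0 : V N) 0 a hb ht
    have h2 : ∫⁻ F, Φ F ∂(nuM (wT b N) (t • (1 : Matrix (V N) (V N) ℝ)) 0) =
        ∫⁻ F, Φ (q0 0 (trS a F)) ∂(nuM (wT b N) (t • (1 : Matrix (V N) (V N) ℝ)) 0) := by
      have h3 := lintegral_map (μ := nuM (wT b N) (t • (1 : Matrix (V N) (V N) ℝ)) 0)
        (f := Φ) (g := fun F : V N → ℝ => q0 0 (trS a F)) hΦ
        ((measurable_q0 0).comp (measurable_trS a))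
      rw [h1] at h3
      exact h3
    rw [h2]
    refine lintegral_congr fun F => ?_
    exact (hc.q0 0 (trS a F)).symm
  smul s Y := trS_smul _ _ _
  g X Y := by
    have e1 : trS a (X.2 + trS (-a) Y) = trS a X.2 + Y := by
      rw [trS_add, trS_trS, add_neg_cancel, trS_zero]
    have h1 := Zn_trE (t := t) b a X.1 (X.2 + trS (-a) Y)
    rw [e1] at h1
    have h2 : qf (An (wTD N b 0) (t • (1 : Matrix (V N) (V N) ℝ)) t 0) (trS (-a) Y) =
        qf (An (wTD N b 0) (t • (1 : Matrix (V N) (V N) ℝ)) t 0) Y := by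
      rw [wTD_zero, H963.qf_An_torus b ht, H963.qf_An_torus b ht]
      have hti := H963.ti_Anm (N := N) hb.le ht
      unfold qf
      rw [← Equiv.sum_comp (Equiv.addRight (-a)) fun x => ∑ y, Y x * H963.Anm N b t x y * Y y]
      refine Finset.sum_congr rfl fun x _ => ?_
      rw [← Equiv.sum_comp (Equiv.addRight (-a))
        fun y => Y ((Equiv.addRight (-a)) x) * H963.Anm N b t ((Equiv.addRight (-a)) x) y * Y y]
      refine Finset.sum_congr rfl fun y _ => ?_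
      simp only [Equiv.coe_addRight, trS]
      rw [hti.tr]
    unfold Gx gP trX
    simp only
    rw [h2, ← h1]

/-- the smeared cut on the torus, shifts `a v` -/
def smTt {ι : Type*} [Fintype ι] (p : ι → ℝ) (a : ι → V N) (T0 : (V N → ℝ) → V N → ℝ)
    (F : V N → ℝ) : V N → ℝ := ∑ v, p v • trS (-a v) (T0 (trS (a v) F))

/-- **un-averaging on the torus**, `c = 2` -/
theorem ev_lint_tor {ι : Type*} [Fintype ι] (hb : 0 < b) (ht : 0 < t) (a : ι → V N) {p : ι → ℝ}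
    (hp : ∀ v, 0 ≤ p v) (hp1 : ∑ v, p v = 1) {T0 : (V N → ℝ) → V N → ℝ} (hT : Measurable T0)
    (hTc : CI T0) (X : (Ed N → ℤ) × (V N → ℝ)) (s r : ℝ) {S : ℝ}
    (hS : SS (wTD N b) 0 p (fun v => trX (a v) X) ≤ S) :
    ∫⁻ F in {F | ∀ v, Rw (wTD N b) (t • (1 : Matrix (V N) (V N) ℝ)) t 0
          ((2 * s) • T0 (trS (a v) F)) ≤ r},
        ENNReal.ofReal (Real.exp
          (Gx (wTD N b) (t • (1 : Matrix (V N) (V N) ℝ)) t 0 X (s • smTt p a T0 F) +
          Gx (wTD N b) (t • (1 : Matrix (V N) (V N) ℝ)) t 0 X (-(s • smTt p a T0 F))))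
        ∂(nuM (wT b N) (t • (1 : Matrix (V N) (V N) ℝ)) 0) ≤
      ENNReal.ofReal (Real.sqrt S * Real.exp (r / 2)) := by
  have h := ev_lint (gwf_wTD hb) (fun η x₀ => em_pin_wTD hb η x₀) (mf_scalar ht)
    (fun v => mv_tor hb ht (a v)) hp hp1 hT hTc X s r hS
  rw [wTD_zero] at h
  exact h

/-- **Markov on the torus** -/
theorem ev_mk_tor {ι : Type*} [Fintype ι] (hb : 0 < b) (ht : 0 < t) (a : ι → V N) {p : ι → ℝ}
    (hp : ∀ v, 0 ≤ p v) (hp1 : ∑ v, p v = 1) {T0 : (V N → ℝ) → V N → ℝ} (hT : Measurable T0)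
    (hTc : CI T0) (X : (Ed N → ℤ) × (V N → ℝ)) (s r K : ℝ) {S : ℝ}
    (hS : SS (wTD N b) 0 p (fun v => trX (a v) X) ≤ S) :
    nuM (wT b N) (t • (1 : Matrix (V N) (V N) ℝ)) 0
        {F | (∀ v, Rw (wTD N b) (t • (1 : Matrix (V N) (V N) ℝ)) t 0
            ((2 * s) • T0 (trS (a v) F)) ≤ r) ∧
          K < Gx (wTD N b) (t • (1 : Matrix (V N) (V N) ℝ)) t 0 X (s • smTt p a T0 F) +
            Gx (wTD N b) (t • (1 : Matrix (V N) (V N) ℝ)) t 0 X (-(s • smTt p a T0 F))} ≤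
      ENNReal.ofReal (Real.sqrt S * Real.exp (r / 2 - K)) := by
  have h := ev_mk (gwf_wTD hb) (fun η x₀ => em_pin_wTD hb η x₀) (mf_scalar ht)
    (fun v => mv_tor hb ht (a v)) hp hp1 hT hTc X s r K hS
  rw [wTD_zero] at h
  exact h

/-- linear maps -/
lemma linT (T0 : (V N → ℝ) →ₗ[ℝ] (V N → ℝ)) : Measurable T0 :=
  (LinearMap.continuous_of_finiteDimensional T0).measurable

/-- a linear map which kills the constant does not see constants -/
lemma linT_ci (T0 : (V N → ℝ) →ₗ[ℝ] (V N → ℝ)) (h : T0 (fun _ => 1) = 0) : CI T0 := by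
  intro F c
  have e : (fun x => F x + c) = F + c • (fun _ : V N => (1 : ℝ)) := by
    funext x
    simp
  rw [e, map_add, map_smul, h, smul_zero, add_zero]

end torus

end

end Vale.Agent.P159.H764.Evq
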