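import Vale.Agent.P159.H764.Qt1
import Vale.Agent.P159.H764.Sw2
import Vale.Agent.P159.H474.Cb3

/-!
P159, helper764, module QT (2): charts of closed blocks.

`VB m m' = Fin (m+2) × Fin (m'+2)` the sites of a closed block (helper474's `blk`), `EB` its edges,
`sB w` the two copy system of the block with one log-concave edge weight `w`, `ch i j` the chart of
the block `(i, j)` in the torus `ZMod a × ZMod c`.  For `Λ` inside the open block (`Inn Λ`) the arm
functional of the torus is the arm functional of the block, read in the chart: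
`tr_gen` (any system on the torus with the weight `w` on the edges touching the chart of `Λ`).
-/

set_option linter.unusedSectionVars false
set_option linter.unusedDecidableInType false

namespace Vale.Agent.P159.H764

open scoped ENNReal
open Finset Vale.Agent.P159.TM.H60 Vale.Agent.P159.TM.H576
open Vale.Agent.P159.H145.Dz (touch mem_touch Arm)
open Vale.Agent.P159.H474.Cb (qa)
open Vale.Agent.P159.T1.H897 (LogC)

/-- sites of a closed block -/
abbrev VB (m m' : ℕ) : Type := Fin (m + 2) × Fin (m' + 2)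

/-- edges of a closed block (`true` first direction, `false` second direction); the edges which
would leave the block are loops -/
abbrev EB (m m' : ℕ) : Type := VB m m' × Bool

/-- next index, saturated -/
def nx {m : ℕ} (a : Fin (m + 2)) : Fin (m + 2) :=
  if h : (a : ℕ) + 1 < m + 2 then ⟨(a : ℕ) + 1, h⟩ else a

lemma nx_val {m : ℕ} {a : Fin (m + 2)} (h : (a : ℕ) + 1 < m + 2) : ((nx a : Fin (m + 2)) : ℕ) = a + 1 := by
  unfold nx
  rw [dif_pos h]

/-- start -/
def bS {m m' : ℕ} (e : EB m m') : VB m m' := e.1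

/-- end -/
def bT {m m' : ℕ} (e : EB m m') : VB m m' := if e.2 then (nx e.1.1, e.1.2) else (e.1.1, nx e.1.2)

/-- the block system -/
noncomputable def sB (m m' : ℕ) {w : ℤ → ℝ} (hw : ∀ n, 0 < w n) (hL : LogC w) :
    Sys (VB m m') (EB m m') (ℤ × ℤ) :=
  two bS bT (fun _ => w) (fun _ n => (hw n).le) (fun _ => hL) (fun _ _ => 1) fun _ _ => zero_le_one

/-- the chart of the closed block `(i, j)` -/
def ch {a c : ℕ} (m m' i j : ℕ) (v : VB m m') : ZMod a × ZMod c :=
  ((((m + 1) * i + v.1 : ℕ) : ZMod a), (((m' + 1) * j + v.2 : ℕ) : ZMod c))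

/-- the chart on edges; `o = true` : helper145's and TM's orientation, `o = false` : helper770's -/
def chE {a c : ℕ} (o : Bool) (m m' i j : ℕ) (e : EB m m') : (ZMod a × ZMod c) × Bool :=
  (ch m m' i j e.1, if o then e.2 else !e.2)

/-- `Λ` is in the open block -/
def Inn {m m' : ℕ} (Λ : Finset (VB m m')) : Prop :=
  ∀ v ∈ Λ, 1 ≤ (v.1 : ℕ) ∧ (v.1 : ℕ) ≤ m ∧ 1 ≤ (v.2 : ℕ) ∧ (v.2 : ℕ) ≤ m'

lemma cast_inj {a : ℕ} [NeZero a] {k x y : ℕ} (hx : x < a) (hy : y < a)
    (h : ((k + x : ℕ) : ZMod a) = ((k + y : ℕ) : ZMod a)) : x = y := by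
  push_cast at h
  have h1 : (x : ZMod a) = (y : ZMod a) := add_left_cancel h
  have h2 := congrArg ZMod.val h1
  rwa [ZMod.val_natCast_of_lt hx, ZMod.val_natCast_of_lt hy] at h2

lemma ch_inj {a c : ℕ} [NeZero a] [NeZero c] {m m' : ℕ} (ha : m + 2 ≤ a) (hc : m' + 2 ≤ c)
    (i j : ℕ) : Function.Injective (ch (a := a) (c := c) m m' i j) := by
  intro v w h
  have h1 := congrArg Prod.fst h
  have h2 := congrArg Prod.snd h
  simp only [ch] at h1 h2
  have h3 := cast_inj (by have := v.1.2; omega) (by have := w.1.2; omega) h1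
  have h4 := cast_inj (by have := v.2.2; omega) (by have := w.2.2; omega) h2
  exact Prod.ext (Fin.ext h3) (Fin.ext h4)

lemma chE_inj {a c : ℕ} [NeZero a] [NeZero c] {m m' : ℕ} (ha : m + 2 ≤ a) (hc : m' + 2 ≤ c)
    (o : Bool) (i j : ℕ) : Function.Injective (chE (a := a) (c := c) o m m' i j) := by
  intro e f h
  have h1 := ch_inj ha hc i j (congrArg Prod.fst h)
  have h2 := congrArg Prod.snd h
  simp only [chE] at h2
  refine Prod.ext h1 ?_
  cases o
  · simpa using h2
  · simpa using h2

/-- the step of the torus in the direction of a Bool -/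
def dr {a c : ℕ} (o b : Bool) : ZMod a × ZMod c := if b = o then (1, 0) else (0, 1)

lemma ch_bT {a c : ℕ} {m m' : ℕ} (o : Bool) (i j : ℕ) {e : EB m m'}
    (h : if e.2 then (e.1.1 : ℕ) ≤ m else (e.1.2 : ℕ) ≤ m') :
    ch (a := a) (c := c) m m' i j (bT e) =
      (chE (a := a) (c := c) o m m' i j e).1 + dr o (chE (a := a) (c := c) o m m' i j e).2 := by
  obtain ⟨⟨u, v⟩, b⟩ := e
  cases b
  · simp only [Bool.false_eq_true, if_false] at h
    have h1 := nx_val (a := v) (by omega)
    cases o <;> simp only [chE, ch, bT, dr, Bool.false_eq_true, if_false, if_true, Bool.not_false,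
      Bool.true_eq_false, h1, Prod.mk_add_mk, add_zero, Nat.cast_add, Nat.cast_one, add_assoc]
  · simp only [if_true] at h
    have h1 := nx_val (a := u) (by omega)
    cases o <;> simp only [chE, ch, bT, dr, Bool.false_eq_true, if_false, if_true, Bool.not_true,
      h1, Prod.mk_add_mk, add_zero, Nat.cast_add, Nat.cast_one, add_assoc]

/-- edges which touch a set of the open block do not leave the block -/
lemma touch_ok {m m' : ℕ} {w : ℤ → ℝ} (hw : ∀ n, 0 < w n) (hL : LogC w) {Λ : Finset (VB m m')}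
    (hΛ : Inn Λ) {e : EB m m'} (he : e ∈ touch (sB m m' hw hL) Λ) :
    if e.2 then (e.1.1 : ℕ) ≤ m else (e.1.2 : ℕ) ≤ m' := by
  obtain ⟨⟨u, v⟩, b⟩ := e
  rcases (mem_touch _).1 he with h | h
  · have h1 := hΛ _ h
    change 1 ≤ (u : ℕ) ∧ (u : ℕ) ≤ m ∧ 1 ≤ (v : ℕ) ∧ (v : ℕ) ≤ m' at h1
    cases b
    · simp only [Bool.false_eq_true, if_false]; exact h1.2.2.2
    · simp only [if_true]; exact h1.2.1
  · have h1 := hΛ _ h
    cases b
    · simp only [Bool.false_eq_true, if_false]
      change 1 ≤ (u : ℕ) ∧ (u : ℕ) ≤ m ∧ 1 ≤ ((nx v : Fin (m' + 2)) : ℕ) ∧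
        ((nx v : Fin (m' + 2)) : ℕ) ≤ m' at h1
      by_contra hc
      have h2 : ¬ (v : ℕ) + 1 < m' + 2 := by omega
      have h3 : (nx v : Fin (m' + 2)) = v := by
        unfold nx
        rw [dif_neg h2]
      rw [h3] at h1
      omega
    · simp only [if_true]
      change 1 ≤ ((nx u : Fin (m + 2)) : ℕ) ∧ ((nx u : Fin (m + 2)) : ℕ) ≤ m ∧ 1 ≤ (v : ℕ) ∧
        (v : ℕ) ≤ m' at h1
      by_contra hc
      have h2 : ¬ (u : ℕ) + 1 < m + 2 := by omega
      have h3 : (nx u : Fin (m + 2)) = u := by
        unfold nx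
        rw [dif_neg h2]
      rw [h3] at h1
      omega

/-- the predecessor -/
def pv {m : ℕ} (a : Fin (m + 2)) : Fin (m + 2) := ⟨(a : ℕ) - 1, by omega⟩

lemma nx_pv {m : ℕ} {a : Fin (m + 2)} (h : 1 ≤ (a : ℕ)) : nx (pv a) = a := by
  have h1 : ((pv a : Fin (m + 2)) : ℕ) = a - 1 := rfl
  have h2 := nx_val (a := pv a) (by omega)
  refine Fin.ext ?_
  rw [h2, h1]
  omega

/-- **the chart is a transport** -/
theorem tr_gen {a c : ℕ} [NeZero a] [NeZero c] {m m' : ℕ} (ha : m + 2 ≤ a) (hc : m' + 2 ≤ c)
    {w : ℤ → ℝ} (hw : ∀ n, 0 < w n) (hL : LogC w) (o : Bool) (i j : ℕ)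
    {σ' : Sys (ZMod a × ZMod c) ((ZMod a × ZMod c) × Bool) (ℤ × ℤ)}
    (hs : ∀ e, σ'.s e = e.1) (ht : ∀ e, σ'.t e = e.1 + dr o e.2)
    (hsw : σ'.sw = Prod.swap) (hd : σ'.d = fun x => x.1 - x.2)
    {Λ : Finset (VB m m')} (hΛ : Inn Λ)
    (hfl : ∀ e ∈ touch σ' (Λ.image (ch m m' i j)), σ'.fl e =
      fun x y => w (y.1 - x.1) * w (y.2 - x.2)) :
    Tr (sB m m' hw hL) σ' (ch m m' i j) (chE o m m' i j) Λ := by
  have hs1 : ∀ e, σ'.s (chE o m m' i j e) = ch m m' i j ((sB m m' hw hL).s e) := by
    intro e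
    rw [hs]
    rfl
  have ht1 : ∀ e ∈ touch (sB m m' hw hL) Λ,
      σ'.t (chE o m m' i j e) = ch m m' i j ((sB m m' hw hL).t e) := by
    intro e he
    rw [ht]
    exact (ch_bT o i j (touch_ok hw hL hΛ he)).symm
  have himg : ∀ e ∈ touch (sB m m' hw hL) Λ,
      chE o m m' i j e ∈ touch σ' (Λ.image (ch m m' i j)) := by
    intro e he
    rw [mem_touch, hs1 e, ht1 e he]
    rcases (mem_touch _).1 he with h | h
    · exact Or.inl (Finset.mem_image_of_mem _ h)
    · exact Or.inr (Finset.mem_image_of_mem _ h)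
  refine ⟨ch_inj ha hc i j, chE_inj ha hc o i j, fun e _ => hs1 e, ht1, hsw, hd, ?_, ?_⟩
  · intro e he
    rw [hfl _ (himg e he)]
    rfl
  · rintro ⟨x, b⟩ he
    rcases (mem_touch _).1 he with h | h
    · rw [hs] at h
      obtain ⟨v, hv, hvx⟩ := Finset.mem_image.1 h
      refine ⟨(v, if o then b else !b), ?_, ?_⟩
      · rw [mem_touch]
        exact Or.inl hv
      · simp only [chE]
        rw [hvx]
        refine Prod.ext rfl ?_
        cases o <;> simp
    · rw [ht] at h
      obtain ⟨v, hv, hvx⟩ := Finset.mem_image.1 h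
      have hi := hΛ v hv
      simp only at hvx
      -- the predecessor of `v` in the direction of `b`
      by_cases hb : b = o
      · -- first direction
        have hb' : (if o then b else !b) = true := by
          cases o <;> simp_all
        set e : EB m m' := ((pv v.1, v.2), true) with he0
        have h1 : bT e = v := by
          simp only [he0, bT, if_true]
          rw [nx_pv hi.1]
        have h2 : e ∈ touch (sB m m' hw hL) Λ := by
          rw [mem_touch]
          right
          show bT e ∈ Λ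
          rw [h1]
          exact hv
        refine ⟨e, h2, ?_⟩
        have h3 := ht1 e h2
        have h4 : (sB m m' hw hL).t e = v := h1
        rw [h4, ht, hvx] at h3
        have h5 : (chE (a := a) (c := c) o m m' i j e).2 = b := by
          simp only [chE, he0]
          cases o <;> simp_all
        rw [h5] at h3
        have h6 : (chE (a := a) (c := c) o m m' i j e).1 = x := add_right_cancel h3
        exact Prod.ext h6 h5
      · set e : EB m m' := ((v.1, pv v.2), false) with he0
        have h1 : bT e = v := by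
          simp only [he0, bT, Bool.false_eq_true, if_false]
          rw [nx_pv hi.2.2.1]
        have h2 : e ∈ touch (sB m m' hw hL) Λ := by
          rw [mem_touch]
          right
          show bT e ∈ Λ
          rw [h1]
          exact hv
        refine ⟨e, h2, ?_⟩
        have h3 := ht1 e h2
        have h4 : (sB m m' hw hL).t e = v := h1
        rw [h4, ht, hvx] at h3
        have h5 : (chE (a := a) (c := c) o m m' i j e).2 = b := by
          simp only [chE, he0]
          cases o <;> cases b <;> simp_all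
        rw [h5] at h3
        have h6 : (chE (a := a) (c := c) o m m' i j e).1 = x := add_right_cancel h3
        exact Prod.ext h6 h5

end Vale.Agent.P159.H764
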