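import Vale.Agent.P159.H764.Qt3
import Vale.Agent.P159.H859.Ab3

/-!
P159, helper764, module QT (4): the folded background of a closed block is slowly varying when the
background is slowly varying on the block (`lipS_foF`); helper859's arms in a background (`arm_f`)
in the form `ArmLe` (`armLe_f`) and for the folded background (`armLe_foF`).
-/

set_option linter.unusedSectionVars false
set_option linter.unusedDecidableInType false

namespace Vale.Agent.P159.H764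

open scoped ENNReal
open Finset Vale.Agent.P159.TM.H60 Vale.Agent.P159.TM.H576
open Vale.Agent.P159.H474.Cb (pt foE foF fo trD trF Z0)
open Vale.Agent.P159.TM.H459 (ball mem_ball sd sn sn_neg vma_add_le)
open Vale.Agent.P159.TM.SpecC (Tor wT)
open Vale.Agent.P159.TM

/-- the fold is the absolute value -/
lemma fo_vma (m : ℕ) [NeZero ((m + 1) * 2)] (x : ZMod ((m + 1) * 2)) :
    fo m x = x.valMinAbs.natAbs := by
  rw [ZMod.valMinAbs_natAbs_eq_min]
  rfl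

lemma fo_le (m : ℕ) [NeZero ((m + 1) * 2)] (x : ZMod ((m + 1) * 2)) : fo m x ≤ m + 1 := by
  rw [fo_vma]
  have := ZMod.natAbs_valMinAbs_le x
  omega

/-- the fold is a contraction -/
lemma fo_lip (m : ℕ) [NeZero ((m + 1) * 2)] (x y : ZMod ((m + 1) * 2)) :
    fo m y ≤ fo m x + (y - x).valMinAbs.natAbs := by
  rw [fo_vma, fo_vma]
  have := vma_add_le x (y - x)
  rwa [add_sub_cancel] at this

lemma fo_lip' (m : ℕ) [NeZero ((m + 1) * 2)] (x y : ZMod ((m + 1) * 2)) :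
    fo m x ≤ fo m y + (y - x).valMinAbs.natAbs := by
  have := fo_lip m y x
  rwa [← ZMod.natAbs_valMinAbs_neg (x - y), neg_sub] at this

/-- **the folded background is slowly varying** (the hypothesis only concerns the closed block) -/
theorem lipS_foF_loc {n : ℕ} (m : ℕ) [NeZero ((m + 1) * 2)] {F : Tor ((m + 1) * n) → ℝ}
    {L : ℝ} {i j : ℕ} (h : ∀ a c a' c' k : ℕ, a ≤ m + 1 → c ≤ m + 1 → a' ≤ m + 1 →
      c' ≤ m + 1 → a' ≤ a + k → a ≤ a' + k → c' ≤ c + k → c ≤ c' + k →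
      |F ((((m + 1) * i + a : ℕ) : ZMod ((m + 1) * n)), (((m + 1) * j + c : ℕ) : ZMod ((m + 1) * n))) -
        F ((((m + 1) * i + a' : ℕ) : ZMod ((m + 1) * n)),
          (((m + 1) * j + c' : ℕ) : ZMod ((m + 1) * n)))| ≤ L * k) :
    Spec.LipS L (foF m F i j) := by
  intro z w
  unfold foF
  have h1 := fo_lip m z.1 w.1
  have h2 := fo_lip' m z.1 w.1
  have h3 := fo_lip m z.2 w.2
  have h4 := fo_lip' m z.2 w.2
  have e : sd z w = max (w.1 - z.1).valMinAbs.natAbs (w.2 - z.2).valMinAbs.natAbs := rfl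
  rw [e]
  exact h _ _ _ _ _ (fo_le m _) (fo_le m _) (fo_le m _) (fo_le m _)
    (h1.trans (Nat.add_le_add_left (le_max_left _ _) _))
    (h2.trans (Nat.add_le_add_left (le_max_left _ _) _))
    (h3.trans (Nat.add_le_add_left (le_max_right _ _) _))
    (h4.trans (Nat.add_le_add_left (le_max_right _ _) _))

/-- the event block at the corner `s` -/
theorem lipS_foF {n : ℕ} (m : ℕ) [NeZero ((m + 1) * 2)] {F : Tor ((m + 1) * n) → ℝ}
    {L : ℝ} (s : Tor ((m + 1) * n)) (h : ∀ a c a' c' k : ℕ, a ≤ m + 1 → c ≤ m + 1 →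
      a' ≤ m + 1 → c' ≤ m + 1 → a' ≤ a + k → a ≤ a' + k → c' ≤ c + k → c ≤ c' + k →
      |F (pt s a c) - F (pt s a' c')| ≤ L * k) :
    Spec.LipS L (foF m (trF s F) 0 0) := by
  refine lipS_foF_loc m fun a c a' c' k h1 h2 h3 h4 h5 h6 h7 h8 => ?_
  unfold trF
  have e : ∀ a c : ℕ, ((((m + 1) * 0 + a : ℕ) : ZMod ((m + 1) * n)),
      (((m + 1) * 0 + c : ℕ) : ZMod ((m + 1) * n))) + s = pt s a c := by
    intro a c
    unfold pt
    rw [mul_zero, zero_add, zero_add]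
  rw [e, e]
  exact h a c a' c' k h1 h2 h3 h4 h5 h6 h7 h8

lemma co_dist {N : ℕ} [NeZero N] (z a a' k : ℕ) (h1 : a' ≤ a + k) (h2 : a ≤ a' + k) :
    (((z + a' : ℕ) : ZMod N) - ((z + a : ℕ) : ZMod N)).valMinAbs.natAbs ≤ k := by
  have h3 : ((z + a' : ℕ) : ZMod N) - ((z + a : ℕ) : ZMod N) =
      (((a' : ℤ) - (a : ℤ) : ℤ) : ZMod N) := by
    push_cast
    ring
  rw [h3]
  refine (vma_le _).trans ?_
  omega

/-- a slowly varying background -/
theorem lipS_foF_glob {n : ℕ} (m : ℕ) [NeZero ((m + 1) * n)] [NeZero ((m + 1) * 2)]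
    {F : Tor ((m + 1) * n) → ℝ} {L : ℝ} (hL : 0 ≤ L) (hF : Spec.LipS L F) (i j : ℕ) :
    Spec.LipS L (foF m F i j) := by
  refine lipS_foF_loc m fun a c a' c' k _ _ _ _ h5 h6 h7 h8 => ?_
  refine (hF _ _).trans (mul_le_mul_of_nonneg_left ?_ hL)
  rw [Nat.cast_le]
  unfold sd sn
  refine max_le ?_ ?_
  · exact co_dist _ _ _ _ h5 h6
  · exact co_dist _ _ _ _ h7 h8

lemma lipS_trF {N : ℕ} [NeZero N] {F : Tor N → ℝ} {L : ℝ} (hF : Spec.LipS L F) (s : Tor N) :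
    Spec.LipS L (trF s F) := by
  intro z w
  have h := hF (z + s) (w + s)
  have e : sd (z + s) (w + s) = sd z w := by
    unfold sd
    rw [add_sub_add_right_eq_sub]
  rwa [e] at h

/-- helper859's arms in a background -/
theorem armLe_f {b1 b2 a : ℝ} (hb1 : 0 < b1) (hA6 : Spec.ThmA6 b1 b2 a) : ∃ W₀ : ℝ, ∀ W : ℝ,
    W₀ ≤ W → ∃ L₀ c C η ys : ℝ, ∃ A X : ℕ, 0 < L₀ ∧ 0 < c ∧ 0 < C ∧ 0 < η ∧ 0 < ys ∧ 8 ≤ A ∧
    A ≤ X ∧
    ∀ (N : ℕ) [NeZero N] (b : ℝ) (hb : 0 ≤ b) (ξ : ℕ) (y : ℝ),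
      Spec.Rng b1 b2 a W ys X N b ξ y → (N : ℝ) ^ 2 * y ≤ η * (ξ : ℝ) ^ 2 →
      ∀ f : Spec.V N → ℝ, Spec.LipS (2 * L₀ / ξ) f → ∀ (x0 : Spec.V N) (ρ : ℕ),
        ArmLe N b hb ξ f x0 (ξ / A) ρ (C * Real.exp (-(c * ρ / ξ))) :=
  H145.Dz.arm_f hb1 hA6

end Vale.Agent.P159.H764
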