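import Vale.Agent.P159.H764.Swn
import Vale.Agent.P159.H612.MeanD

/-!
P159, helper764, module SWAP (5): the excess second moment `NX` (helper612, helper883's `N(W;u)`) of
a group element `W = (η, F)` supported in `VW`, at a real source `f` supported in `VP`, through the
block arm integrals of the pair `(W, 0)`.

`T_shift` : source against background, `m4_le` : crude fourth moment,
`nx_le` : `NX(W; τ f) ≤ 9 (τ ∑ f²) (Z₀ / Z(W)) ∑_i √(a_i)` if `AB_i(W, 0) ≤ a_i Z₀²`.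
-/

set_option linter.unusedSectionVars false
set_option linter.unusedDecidableInType false

namespace Vale.Agent.P159.H764

open scoped ENNReal
open Finset Vale.Agent.P159.TM.H60 Vale.Agent.P159.TM.H576
open Vale.Agent.P159.H770 (eW eWF EdW)
open Vale.Agent.P159.H37 (ZM qf re wM)
open Vale.Agent.P159.TM.H104 (EM T Ex li nh Gr)
open Vale.Agent.P159.T1.H897 (LogC)
open Vale.Agent.P159.H612 (NX)

section graph

variable {V E : Type} [Fintype V] [DecidableEq V] [Fintype E] [DecidableEq E]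
variable {s t : E → V} {I : E → ℤ → ℝ} {τ : ℝ}

/-- **source against background** -/
theorem T_shift (hτ : 0 < τ) (X : (E → ℤ) × (V → ℝ)) (J : V → ℝ) :
    TM.H104.T (eWF s t I (τ • (1 : Matrix V V ℝ)) X) J (fun _ => 1) =
      Real.exp (∑ x, J x * X.2 x + (∑ x, J x ^ 2) / (2 * τ)) *
        ZM (eW s t I X.1) (τ • (1 : Matrix V V ℝ)) (X.2 + τ⁻¹ • J) := by
  unfold TM.H104.T ZM
  rw [← tsum_mul_left]
  refine tsum_congr fun h => ?_
  unfold eWF
  rw [one_mul, mul_assoc, ← Real.exp_add, mul_left_comm, ← Real.exp_add]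
  congr 2
  rw [H37.qf_smul_one, H37.qf_smul_one]
  unfold li
  have e : ∀ x, (re h - (X.2 + τ⁻¹ • J)) x ^ 2 =
      (re h - X.2) x ^ 2 - 2 * τ⁻¹ * (J x * ((h x : ℝ) - X.2 x)) + (τ⁻¹) ^ 2 * J x ^ 2 := by
    intro x
    simp only [Pi.sub_apply, Pi.add_apply, Pi.smul_apply, smul_eq_mul, re]
    ring
  rw [Finset.sum_congr rfl fun x _ => e x, Finset.sum_add_distrib, Finset.sum_sub_distrib,
    ← Finset.mul_sum, ← Finset.mul_sum]
  have e2 : ∑ x, J x * ((h x : ℝ) - X.2 x) = ∑ x, J x * (h x : ℝ) - ∑ x, J x * X.2 x := by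
    rw [← Finset.sum_sub_distrib]
    exact Finset.sum_congr rfl fun x _ => by ring
  rw [e2]
  field_simp
  ring

lemma T_zero_exp (μ : (V → ℤ) → ℝ) (v : V → ℝ) :
    TM.H104.T μ 0 (fun h => Real.exp (li v h)) = TM.H104.T μ v fun _ => 1 := by
  unfold TM.H104.T
  refine tsum_congr fun h => ?_
  rw [TM.H104.li_zero, Real.exp_zero]
  ring

lemma li_smul' (c : ℝ) (u : V → ℝ) (h : V → ℤ) : li (c • u) h = c * li u h := by
  unfold li
  rw [Finset.mul_sum]
  exact Finset.sum_congr rfl fun x _ => by simp only [Pi.smul_apply, smul_eq_mul]; ring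

lemma pow4_le (x : ℝ) : x ^ 4 ≤ 24 * (Real.exp x + Real.exp (-x)) := by
  have h1 := Real.pow_div_factorial_le_exp (|x|) (abs_nonneg x) 4
  have h2 : |x| ^ 4 = x ^ 4 := by
    rw [← abs_pow]
    exact abs_of_nonneg (by positivity)
  rw [h2] at h1
  have h3 : ((Nat.factorial 4 : ℕ) : ℝ) = 24 := by norm_num [Nat.factorial]
  rw [h3, div_le_iff₀ (by norm_num)] at h1
  have h4 : Real.exp |x| ≤ Real.exp x + Real.exp (-x) := by
    rcases abs_cases x with ⟨h, _⟩ | ⟨h, _⟩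
    · rw [h]
      linarith [Real.exp_pos (-x)]
    · rw [h]
      linarith [Real.exp_pos x]
  linarith

/-- **crude fourth moment** -/
theorem m4_le (hE : EdW I) (hτ : 0 < τ) (X : (E → ℤ) × (V → ℝ)) {u : V → ℝ}
    (hu : ∑ x, u x * X.2 x = 0) {Z0 : ℝ}
    (hZ : ∀ F' : V → ℝ, ZM (eW s t I X.1) (τ • (1 : Matrix V V ℝ)) F' ≤ Z0) :
    Ex (eWF s t I (τ • (1 : Matrix V V ℝ)) X) 0 (fun h => li u h ^ 4) ≤
      48 * Real.exp (1 / 2) * ((∑ x, u x ^ 2) / τ) ^ 2 *
        (Z0 / ZM (eW s t I X.1) (τ • (1 : Matrix V V ℝ)) X.2) := by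
  have hEM := em_eWF (s := s) (t := t) hE hτ X
  set A := ∑ x, u x ^ 2 with hA
  have hA0 : 0 ≤ A := Finset.sum_nonneg fun _ _ => sq_nonneg _
  have hT0 : TM.H104.T (eWF s t I (τ • (1 : Matrix V V ℝ)) X) 0 (fun _ => 1) =
      ZM (eW s t I X.1) (τ • (1 : Matrix V V ℝ)) X.2 := by
    have h := T_shift (s := s) (t := t) (I := I) hτ X (0 : V → ℝ)
    simp only [Pi.zero_apply, zero_mul, Finset.sum_const_zero, ne_eq, OfNat.ofNat_ne_zero,
      not_false_eq_true, zero_pow, zero_div, add_zero, Real.exp_zero, one_mul, smul_zero] at h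
    exact h
  have hZp : 0 < ZM (eW s t I X.1) (τ • (1 : Matrix V V ℝ)) X.2 := by
    rw [← hT0]
    exact TM.H104.T_one_pos hEM 0
  have hZ0 : 0 < Z0 := hZp.trans_le (hZ _)
  rcases hA0.eq_or_lt with h0 | h0
  · have hu0 : ∀ x, u x = 0 := by
      intro x
      have h1 := (Finset.sum_eq_zero_iff_of_nonneg (fun y _ => sq_nonneg (u y))).1 h0.symm x
        (Finset.mem_univ x)
      exact pow_eq_zero_iff (two_ne_zero) |>.1 h1
    have h1 : (fun h : V → ℤ => li u h ^ 4) = fun _ => (0 : ℝ) := by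
      funext h
      unfold li
      rw [Finset.sum_eq_zero fun x _ => by rw [hu0 x, zero_mul]]
      norm_num
    rw [h1, TM.H104.Ex_const hEM]
    positivity
  · set l := √(τ / A) with hl
    have hl2 : l ^ 2 = τ / A := Real.sq_sqrt (by positivity)
    have hlp : 0 < l := Real.sqrt_pos.2 (by positivity)
    have key : ∀ h : V → ℤ, li u h ^ 4 ≤ 24 * (A / τ) ^ 2 *
        (Real.exp (li (l • u) h) + Real.exp (li ((-l) • u) h)) := by
      intro h
      have h1 := pow4_le (l * li u h)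
      rw [li_smul', li_smul', neg_mul]
      have h2 : li u h ^ 4 = (A / τ) ^ 2 * (l * li u h) ^ 4 := by
        rw [mul_pow, show l ^ 4 = (l ^ 2) ^ 2 by ring, hl2]
        field_simp
      rw [h2]
      have h3 : 0 ≤ (A / τ) ^ 2 := by positivity
      nlinarith [mul_le_mul_of_nonneg_left h1 h3]
    have hG : Gr fun h : V → ℤ => li u h ^ 4 := by
      have h1 := (((Gr.li u).mul (Gr.li u)).mul (Gr.li u)).mul (Gr.li u)
      have e : (fun h : V → ℤ => li u h ^ 4) = fun h => li u h * li u h * li u h * li u h := by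
        funext h
        ring
      rw [e]
      exact h1
    have h1 := TM.H104.Ex_mono hEM hG (((Gr.exp_li (l • u)).add (Gr.exp_li ((-l) • u))).cmul
      (24 * (A / τ) ^ 2)) key 0
    refine h1.trans ?_
    rw [TM.H104.Ex_cmul, TM.H104.Ex_add hEM (Gr.exp_li _) (Gr.exp_li _)]
    have h2 : ∀ c : ℝ, c ^ 2 = τ / A →
        Ex (eWF s t I (τ • (1 : Matrix V V ℝ)) X) 0 (fun h => Real.exp (li (c • u) h)) ≤
        Real.exp (1 / 2) * (Z0 / ZM (eW s t I X.1) (τ • (1 : Matrix V V ℝ)) X.2) := by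
      intro c hc
      unfold TM.H104.Ex
      rw [T_zero_exp, T_shift hτ, hT0]
      have e1 : ∑ x, (c • u) x * X.2 x = 0 := by
        have : ∀ x, (c • u) x * X.2 x = c * (u x * X.2 x) := fun x => by
          simp only [Pi.smul_apply, smul_eq_mul]
          ring
        rw [Finset.sum_congr rfl fun x _ => this x, ← Finset.mul_sum, hu, mul_zero]
      have e2 : (∑ x, (c • u) x ^ 2) / (2 * τ) = 1 / 2 := by
        have : ∀ x, (c • u) x ^ 2 = c ^ 2 * u x ^ 2 := fun x => by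
          simp only [Pi.smul_apply, smul_eq_mul]
          ring
        rw [Finset.sum_congr rfl fun x _ => this x, ← Finset.mul_sum, ← hA, hc]
        field_simp
      rw [e1, e2, zero_add, mul_div_assoc]
      refine mul_le_mul_of_nonneg_left ?_ (Real.exp_pos _).le
      exact div_le_div_of_nonneg_right (hZ _) hZp.le
    have h3 := h2 l hl2
    have h4 := h2 (-l) (by rw [neg_sq, hl2])
    calc 24 * (A / τ) ^ 2 *
          (Ex (eWF s t I (τ • (1 : Matrix V V ℝ)) X) 0 (fun h => Real.exp (li (l • u) h)) +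
          Ex (eWF s t I (τ • (1 : Matrix V V ℝ)) X) 0 fun h => Real.exp (li ((-l) • u) h))
        ≤ 24 * (A / τ) ^ 2 * (Real.exp (1 / 2) *
            (Z0 / ZM (eW s t I X.1) (τ • (1 : Matrix V V ℝ)) X.2) +
          Real.exp (1 / 2) * (Z0 / ZM (eW s t I X.1) (τ • (1 : Matrix V V ℝ)) X.2)) :=
          mul_le_mul_of_nonneg_left (add_le_add h3 h4) (by positivity)
      _ = _ := by ring

/-- the swap data of the pair `(W, 0)` -/
theorem swD_W {E0 : Finset E} {VP VW : Finset V} {W : (E → ℤ) × (V → ℝ)}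
    (h0 : ∀ e ∈ E0, W.1 e = 0)
    (he : ∀ e, e ∉ E0 → (s e ∈ VP ∧ t e ∈ VP ∧ W.1 e = 0) ∨ (s e ∈ VW ∧ t e ∈ VW))
    (hv : ∀ v, v ∉ VW → W.2 v = 0) : SwD s t E0 VP VW W 0 0 W where
  free e h := by
    rw [h0 e h]
    exact ⟨rfl, rfl, rfl⟩
  edge e h := by
    rcases he e h with ⟨h1, h2, h3⟩ | ⟨h1, h2⟩
    · exact Or.inl ⟨h1, h2, h3.symm, h3⟩
    · exact Or.inr ⟨h1, h2, rfl, rfl⟩
  site v := by
    by_cases h : v ∈ VW
    · exact Or.inr (Or.inl ⟨h, rfl, rfl⟩)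
    · refine Or.inr (Or.inr ⟨(hv v h).symm, (hv v h).symm, rfl⟩)

/-- **the number of `NX`** -/
theorem nx_le (hE : EdW I) (hτ : 0 < τ) (hL : ∀ e, LogC (I e)) {E0 : Finset E}
    {VP VW : Finset V} {W : (E → ℤ) × (V → ℝ)} (h0 : ∀ e ∈ E0, W.1 e = 0)
    (he : ∀ e, e ∉ E0 → (s e ∈ VP ∧ t e ∈ VP ∧ W.1 e = 0) ∨ (s e ∈ VW ∧ t e ∈ VW))
    (hv : ∀ v, v ∉ VW → W.2 v = 0) {f : V → ℝ} (hf : ∀ v, v ∉ VP → f v = 0)
    {ι : Type*} (J : Finset ι) (B Λ : ι → Finset V) {δ : V → ℕ}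
    (hδ : ∀ e, δ (s e) ≤ δ (t e) + 1 ∧ δ (t e) ≤ δ (s e) + 1) {k : ℕ}
    (hP : ∀ v ∈ VP, δ v < k) (hW : ∀ v ∈ VW, k ≤ δ v)
    (hB : ∀ z, δ z = k → ∃ i ∈ J, z ∈ B i) (hΛ : ∀ i ∈ J, ∀ v ∈ VP, v ∉ Λ i)
    {a : ι → ℝ} (ha : ∀ i ∈ J, 0 ≤ a i) {Z0 : ℝ}
    (hZ : ∀ F' : V → ℝ, ZM (eW s t I W.1) (τ • (1 : Matrix V V ℝ)) F' ≤ Z0)
    (hZ00 : ZM (eW s t I 0) (τ • (1 : Matrix V V ℝ)) 0 = Z0)
    (hA : ∀ i ∈ J, AB s t hE.pos hL E0 W.1 τ W 0 (B i) (Λ i) ≤ ENNReal.ofReal (a i * Z0 ^ 2)) :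
    NX (fun η : E → ℤ => wM (eW s t I η) (τ • (1 : Matrix V V ℝ))) W.1
        ((τ • (1 : Matrix V V ℝ)).mulVec W.2) ((τ • (1 : Matrix V V ℝ)).mulVec f) ≤
      9 * (τ * ∑ x, f x ^ 2) *
        (Z0 / ZM (eW s t I W.1) (τ • (1 : Matrix V V ℝ)) W.2) * ∑ i ∈ J, √(a i) := by
  have hMt : (τ • (1 : Matrix V V ℝ)).transpose = τ • (1 : Matrix V V ℝ) := by
    rw [Matrix.transpose_smul, Matrix.transpose_one]
  set u : V → ℝ := (τ • (1 : Matrix V V ℝ)).mulVec f with hu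
  have hux : ∀ x, u x = τ * f x := by
    intro x
    rw [hu, Matrix.smul_mulVec, Matrix.one_mulVec]
    rfl
  set ZW := ZM (eW s t I W.1) (τ • (1 : Matrix V V ℝ)) W.2 with hZW
  have hT : ∀ X : (E → ℤ) × (V → ℝ),
      TM.H104.T (eWF s t I (τ • (1 : Matrix V V ℝ)) X) 0 (fun _ => 1) =
      ZM (eW s t I X.1) (τ • (1 : Matrix V V ℝ)) X.2 := by
    intro X
    have h := T_shift (s := s) (t := t) (I := I) hτ X (0 : V → ℝ)
    simp only [Pi.zero_apply, zero_mul, Finset.sum_const_zero, ne_eq, OfNat.ofNat_ne_zero,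
      not_false_eq_true, zero_pow, zero_div, add_zero, Real.exp_zero, one_mul, smul_zero] at h
    exact h
  have hpos : ∀ X : (E → ℤ) × (V → ℝ), 0 < ZM (eW s t I X.1) (τ • (1 : Matrix V V ℝ)) X.2 := by
    intro X
    rw [← hT]
    exact TM.H104.T_one_pos (em_eWF (s := s) (t := t) hE hτ X) 0
  have hZWp : 0 < ZW := hpos W
  have hZ0p : 0 < Z0 := by
    rw [← hZ00]
    exact hpos 0
  have hzW : ZE s t I τ W = ENNReal.ofReal ZW := by rw [ZE_real hE hτ, hT]
  have hz0 : ZE s t I τ 0 = ENNReal.ofReal Z0 := by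
    rw [ZE_real hE hτ, hT]
    exact congrArg _ hZ00
  -- disjoint supports
  have hdis : ∀ v, f v * W.2 v = 0 := by
    intro v
    by_cases h1 : v ∈ VP
    · have h2 : v ∉ VW := fun h => absurd (hP v h1) (not_lt.2 (hW v h))
      rw [hv v h2, mul_zero]
    · rw [hf v h1, zero_mul]
  have huW : ∑ x, u x * W.2 x = 0 :=
    Finset.sum_eq_zero fun x _ => by rw [hux, mul_assoc, hdis, mul_zero]
  have hG2 : Gr fun h : V → ℤ => li u h ^ 2 := by
    have h1 := (Gr.li u).mul (Gr.li u)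
    simpa only [pow_two] using h1
  have h1 := swn_ex (s := s) (t := t) hE hτ hL (swD_W h0 he hv) (mul_comm _ _)
    (f := fun h => li u h ^ 2) (fun h => sq_nonneg _) hG2 (fun h h' hh => by
      congr 1
      unfold li
      refine Finset.sum_congr rfl fun x _ => ?_
      by_cases hx : x ∈ VP
      · rw [hh x hx]
      · rw [hux, hf x hx, mul_zero, zero_mul, zero_mul]) J B Λ hδ hP hW hB hΛ
    (ε := fun i => a i * Z0 / ZW) (fun i hi => by
      refine (hA i hi).trans (le_of_eq ?_)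
      rw [hzW, hz0, ← ENNReal.ofReal_mul hZWp.le,
        ← ENNReal.ofReal_mul (div_nonneg (mul_nonneg (ha i hi) hZ0p.le) hZWp.le)]
      congr 1
      field_simp)
  have h4 := m4_le (s := s) (t := t) hE hτ W huW hZ
  have e1 : ∑ x, u x ^ 2 = τ ^ 2 * ∑ x, f x ^ 2 := by
    rw [Finset.mul_sum]
    exact Finset.sum_congr rfl fun x _ => by rw [hux]; ring
  set Q := τ * ∑ x, f x ^ 2 with hQ
  have hQ0 : 0 ≤ Q := mul_nonneg hτ.le (Finset.sum_nonneg fun _ _ => sq_nonneg _)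
  have e2 : (∑ x, u x ^ 2) / τ = Q := by
    rw [e1, hQ]
    field_simp
  rw [e2, ← hZW] at h4
  have h5 : ∀ i ∈ J, √(a i * Z0 / ZW * Ex (eWF s t I (τ • (1 : Matrix V V ℝ)) W) 0
      fun h => (li u h ^ 2) ^ 2) ≤ 9 * Q * (Z0 / ZW) * √(a i) := by
    intro i hi
    have e3 : (fun h : V → ℤ => (li u h ^ 2) ^ 2) = fun h => li u h ^ 4 := by
      funext h
      ring
    rw [e3]
    have h6 : a i * Z0 / ZW * Ex (eWF s t I (τ • (1 : Matrix V V ℝ)) W) 0 (fun h => li u h ^ 4) ≤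
        (9 * Q * (Z0 / ZW) * √(a i)) ^ 2 := by
      have h7 : 48 * Real.exp (1 / 2) ≤ 81 := by
        have h8 : Real.exp (1 / 2) ≤ 27 / 16 := by
          have h9 : Real.exp (1 / 2) ^ 2 ≤ (27 / 16) ^ 2 := by
            rw [← Real.exp_nat_mul]
            have := Real.exp_one_lt_d9
            norm_num
            linarith
          exact le_of_sq_le_sq h9 (by norm_num)
        linarith
      have h10 : 0 ≤ a i * Z0 / ZW := div_nonneg (mul_nonneg (ha i hi) hZ0p.le) hZWp.le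
      calc a i * Z0 / ZW * Ex (eWF s t I (τ • (1 : Matrix V V ℝ)) W) 0 (fun h => li u h ^ 4)
          ≤ a i * Z0 / ZW * (48 * Real.exp (1 / 2) * Q ^ 2 * (Z0 / ZW)) :=
            mul_le_mul_of_nonneg_left h4 h10
        _ = 48 * Real.exp (1 / 2) * (a i * Q ^ 2 * (Z0 / ZW) ^ 2) := by ring
        _ ≤ 81 * (a i * Q ^ 2 * (Z0 / ZW) ^ 2) := by
            refine mul_le_mul_of_nonneg_right h7 ?_
            have := ha i hi
            positivity
        _ = _ := by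
            rw [mul_pow _ (√(a i)), Real.sq_sqrt (ha i hi)]
            ring
    rw [← Real.sqrt_sq (show 0 ≤ 9 * Q * (Z0 / ZW) * √(a i) by positivity)]
    exact Real.sqrt_le_sqrt h6
  have h6 := h1.trans (add_le_add_right (Finset.sum_le_sum h5) _)
  rw [← Finset.mul_sum] at h6
  unfold NX
  rw [Ex_eWF hMt, Ex_eWF hMt] at h6
  simp only [add_zero, Prod.fst_zero, Prod.snd_zero, Matrix.mulVec_zero] at h6
  linarith

end graph

end Vale.Agent.P159.H764
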