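import Vale.Agent.P159.H764.NcN
import Vale.Agent.P159.H770.DisN
import Vale.Agent.P159.H770.DisL
import Vale.Agent.P159.H612.OscD2
import Vale.Agent.P159.H864.Cel1

/-!
P159 / SL4 (helper764): near-convexity in every real background for every dislocation `η`, torus
weight `wTD N b η`, cell masses `MC N l t τ` and scalar masses, integer and neutral model, with the
zero background number `om0` of the undislocated model; comparison with the undislocated covariance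
at source `0` from the other side (helper770).
-/

namespace Vale.Agent.P159.H764

open MeasureTheory ProbabilityTheory Finset Matrix
open Vale.Agent.P159.H37 (gau Zn ZM wM qf bf Cm Gm Zs re Rs cellP)
open Vale.Agent.P159.TM.H104 (EM Ex Cv Lg li nh Gr)
open Vale.Agent.P159.T1.H897 (Hol LogC hol_edge)
open Vale.Agent.P159.H159 (Fer)
open Vale.Agent.P159.H145 (cs Per OscZ)
open Vale.Agent.P159.H963 (GrI MF nM ntr Neu pin)
open Vale.Agent.P159.H770 (EdW eW eWF DisF wTD Ed eS eT GWF)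
open Vale.Agent.P159.H612 (om0)
open Vale.Agent.P159.H864 (MC cobV)

set_option linter.unusedSectionVars false

noncomputable section

/-! ### the lattice condition with a dislocation -/

lemma logC_shift {f : ℤ → ℝ} (h : LogC f) (c : ℤ) : LogC fun n => f (n + c) := by
  intro a b d e h1 h2 h3
  exact h (a + c) (b + c) (d + c) (e + c) (by omega) (by omega) (by omega)

section edges

variable {V E I : Type} [Fintype V] [Fintype E] [Fintype I] [DecidableEq V] [DecidableEq I]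
  {s t : E → V} {W : E → ℤ → ℝ}

theorem hol_eW (W0 : ∀ e n, 0 ≤ W e n) (hW : ∀ e, LogC (W e)) (η : E → ℤ) :
    Hol (eW s t W η) (eW s t W η) := by
  unfold eW
  exact Hol.prod (fun e _ => hol_edge (logC_shift (hW e) (η e)) (s e) (t e))
    (fun e _ x => W0 e _) fun e _ x => W0 e _

/-- the standing hypotheses for edge weights with a dislocation -/
theorem ch_eW (hI : EdW W) (hL : ∀ e, LogC (W e)) (η : E → ℤ) {M : Matrix V V ℝ}
    {R : Matrix I V ℝ} {ρ : I → ℝ} {τ : ℝ} (sym : Mᵀ = M)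
    (coer : ∃ m0 : ℝ, 0 < m0 ∧ ∀ u : V → ℝ, m0 * ∑ x, u x ^ 2 ≤ qf M u) (fer : Fer M)
    (R0 : ∀ i x, 0 ≤ R i x) (RR : R * Rᵀ = 1) (MR : M * Rᵀ = τ • Rᵀ) (ρ0 : ∀ i, 0 < ρ i)
    (Rρ : Rᵀ *ᵥ ρ = fun _ => 1) (τ0 : 0 < τ) : CH (eW s t W η) M R ρ τ where
  w0 h := (hI.eW_pos η h).le
  wb := ⟨_, hI.eW_le η⟩
  wp := ⟨0, hI.eW_pos η 0⟩
  per := H612.per_eW η
  hol := hol_eW (fun e n => (hI.pos e n).le) hL η
  sym := sym
  coer := coer
  fer := fer
  R0 := R0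
  RR := RR
  MR := MR
  ρ0 := ρ0
  Rρ := Rρ
  τ0 := τ0

end edges

/-! ### free energies: parallelogram inequalities -/

section par

variable {V I : Type} [Fintype V] [Fintype I] [DecidableEq V] [DecidableEq I]
variable {w : (V → ℤ) → ℝ} {M : Matrix V V ℝ} {R : Matrix I V ℝ} {ρ : I → ℝ} {τ ω : ℝ}

/-- second difference of the integer free energy, lower bound in every background -/
theorem CH.par_low (h : CH w M R ρ τ) (hω0 : 0 ≤ ω) (hω1 : ω < 1)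
    (hO : OscZ w (dbM M R τ) ω) (F : V → ℝ) (g : I → ℝ) :
    Real.log (ZM w M (F + Rᵀ *ᵥ g)) + Real.log (ZM w M (F - Rᵀ *ᵥ g)) -
      2 * Real.log (ZM w M F) ≤ 8 * ω / (1 - ω) ^ 2 * τ * ∑ i, g i ^ 2 := by
  have h1 := (h.convexI hω0 hω1 hO F g).2 (Set.mem_univ 1) (Set.mem_univ (-1))
    (show (0 : ℝ) ≤ 1 / 2 by norm_num) (show (0 : ℝ) ≤ 1 / 2 by norm_num) (by norm_num)
  have e0 : (1 / 2 : ℝ) • (1 : ℝ) + (1 / 2 : ℝ) • (-1 : ℝ) = 0 := by norm_num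
  rw [e0] at h1
  simp only [zero_smul, add_zero, one_smul, neg_smul, ← sub_eq_add_neg, smul_eq_mul, neg_sq,
    one_pow, mul_one] at h1
  have e1 : 8 * ω / (1 - ω) ^ 2 * τ * ∑ i, g i ^ 2 =
      2 * (4 * ω / (1 - ω) ^ 2 * τ * ∑ i, g i ^ 2) := by ring
  rw [e1]
  linarith

/-- second difference of the neutral free energy, lower bound in every background -/
theorem CH.par_low_n (h : CH w M R ρ τ) (hω0 : 0 ≤ ω) (hω1 : ω < 1)
    (hO : OscZ w (dbM M R τ) ω) (F : V → ℝ) (g : I → ℝ) :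
    Real.log (Zn w M (F + Rᵀ *ᵥ g)) + Real.log (Zn w M (F - Rᵀ *ᵥ g)) -
      2 * Real.log (Zn w M F) ≤ 4 * ω / (1 - ω) * τ * ∑ i, g i ^ 2 := by
  have h1 := (h.convexN hω0 hω1 hO F g).2 (Set.mem_univ 1) (Set.mem_univ (-1))
    (show (0 : ℝ) ≤ 1 / 2 by norm_num) (show (0 : ℝ) ≤ 1 / 2 by norm_num) (by norm_num)
  have e0 : (1 / 2 : ℝ) • (1 : ℝ) + (1 / 2 : ℝ) • (-1 : ℝ) = 0 := by norm_num
  rw [e0] at h1
  simp only [zero_smul, add_zero, one_smul, neg_smul, ← sub_eq_add_neg, smul_eq_mul, neg_sq,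
    one_pow, mul_one] at h1
  have e1 : 4 * ω / (1 - ω) * τ * ∑ i, g i ^ 2 =
      2 * (2 * ω / (1 - ω) * τ * ∑ i, g i ^ 2) := by ring
  rw [e1]
  linarith

end par

/-! ### the torus -/

section torus

open Vale.Agent.P159.TM.SpecC (Tor wT)
open Vale.Agent.P159.H353 (wI)

variable {N l : ℕ} [NeZero N] {b t τ : ℝ}

/-- cells -/
theorem ch_cell [NeZero (N / l)] (hb : 0 < b) (hl : l ∣ N) (hτ : 0 < τ) (h : τ ≤ t)
    (η : Ed N → ℤ) :
    CH (wTD N b η) (MC N l t τ) (cobV N l) (fun _ => (l : ℝ)) τ := by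
  have hN : N ≠ 0 := NeZero.ne N
  have hl0 : 0 < l := Nat.pos_of_ne_zero fun h0 => by
    rw [h0, zero_dvd_iff] at hl
    exact hN hl
  have hlR : (0 : ℝ) < l := Nat.cast_pos.2 hl0
  refine ch_eW (H770.edW_wI hb) (fun _ => T1.H897.logC_wI hb.le) η (H864.MC_tr N l t τ)
    ⟨τ, hτ, H864.qf_MC_ge hl h⟩ (fun x y hxy => H864.MC_off hl h hxy) (fun i x => ?_)
    (H864.cobV_mul_tr hl) (H864.MC_mul_tr hl t τ) (fun _ => hlR) ?_ hτ
  · rw [H864.cobV_apply]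
    split_ifs
    · positivity
    · exact le_rfl
  · funext x
    rw [H864.cobV_tr_mulVec]
    exact inv_mul_cancel₀ hlR.ne'

lemma dbM_cell [NeZero (N / l)] (hl : l ∣ N) (t τ : ℝ) :
    dbM (MC N l t τ) (cobV N l) τ = MC N l t (2 * τ) := by
  unfold dbM
  rw [← H864.cellP_eq hl, ← H864.MC_add N l t (2 * τ) τ]
  congr 2
  ring

/-- scalar mass -/
theorem ch_t (hb : 0 < b) (ht : 0 < t) (η : Ed N → ℤ) :
    CH (wTD N b η) (t • (1 : Matrix (Tor N) (Tor N) ℝ)) (1 : Matrix (Tor N) (Tor N) ℝ)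
      (fun _ => (1 : ℝ)) t := by
  refine ch_eW (H770.edW_wI hb) (fun _ => T1.H897.logC_wI hb.le) η
    (by rw [transpose_smul, transpose_one]) ⟨t, ht, H789.coer_smul t⟩ (H159.fer_smul_one t)
    (fun i x => ?_) (by rw [transpose_one, Matrix.mul_one])
    (by rw [transpose_one, Matrix.mul_one]) (fun _ => one_pos)
    (by rw [transpose_one, one_mulVec]) ht
  rw [Matrix.one_apply]
  split_ifs
  · exact zero_le_one
  · exact le_rfl

lemma dbM_t (t : ℝ) : dbM (t • (1 : Matrix (Tor N) (Tor N) ℝ))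
    (1 : Matrix (Tor N) (Tor N) ℝ) t = (2 * t) • (1 : Matrix (Tor N) (Tor N) ℝ) := by
  unfold dbM
  rw [transpose_one, Matrix.mul_one, two_mul, add_smul]

/-- the oscillation hypothesis for every dislocation -/
theorem oscD {I : Type} [Fintype I] [DecidableEq I] {M : Matrix (Tor N) (Tor N) ℝ}
    {R : Matrix I (Tor N) ℝ} {ρ : I → ℝ} (hb : 0 < b) {η : Ed N → ℤ}
    (h : CH (wTD N b η) M R ρ τ) :
    OscZ (wTD N b η) (dbM M R τ) (om0 N b (dbM M R τ)) := by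
  obtain ⟨m0, hm0, hc⟩ := h.coer2
  exact H612.oscZ_wTD hb h.sym2 hm0 hc η

theorem om0_nonneg {I : Type} [Fintype I] [DecidableEq I] {M : Matrix (Tor N) (Tor N) ℝ}
    {R : Matrix I (Tor N) ℝ} {ρ : I → ℝ} (hb : 0 < b) {η : Ed N → ℤ}
    (h : CH (wTD N b η) M R ρ τ) : 0 ≤ om0 N b (dbM M R τ) := by
  have h1 := oscD hb h 0 0 ⟨le_refl _, zero_le_one⟩
  have h2 := H145.Zn_pos h.sym2 h.em2 0
  have h3 := (abs_nonneg _).trans h1
  exact nonneg_of_mul_nonneg_left h3 h2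

section gen

variable {I : Type} [Fintype I] [DecidableEq I] {M : Matrix (Tor N) (Tor N) ℝ}
  {R : Matrix I (Tor N) ℝ} {ρ : I → ℝ}

/-- **SL4, integer model, covariances**: every dislocation, every source -/
theorem cov_D (hb : 0 < b) {η : Ed N → ℤ} (h : CH (wTD N b η) M R ρ τ)
    (hω : om0 N b (dbM M R τ) < 1) (J : Tor N → ℝ) (g : I → ℝ) :
    qf (Gm (wM (wT b N) M)) (Rᵀ *ᵥ g) ≤ qf (Cm (wM (wTD N b η) M) J) (Rᵀ *ᵥ g) ∧
      qf (Cm (wM (wTD N b η) M) J) (Rᵀ *ᵥ g) ≤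
        (1 + 8 * om0 N b (dbM M R τ) / (1 - om0 N b (dbM M R τ)) ^ 2) / τ * ∑ i, g i ^ 2 := by
  constructor
  · obtain ⟨m0, hm0, hc⟩ := h.coer
    have h1 := H770.qf_monoD (H770.disF_torus hb hm0 hc) η J (Rᵀ *ᵥ g)
    rw [H770.wTD_zero] at h1
    exact h1
  · exact h.Cm_le (om0_nonneg hb h) hω (oscD hb h) J g

/-- **SL4, neutral model, covariances**: every dislocation, every neutral source -/
theorem cov_D_n (hb : 0 < b) {η : Ed N → ℤ} (h : CH (wTD N b η) M R ρ τ)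
    (hω : om0 N b (dbM M R τ) < 1) (x₀ : Tor N) {J : Tor N → ℝ} (hJ : Neu J) {g : I → ℝ}
    (hg : Neu (Rᵀ *ᵥ g)) :
    qf (Gm (nM (wT b N) M τ x₀)) (Rᵀ *ᵥ g) ≤ qf (Cm (nM (wTD N b η) M τ x₀) J) (Rᵀ *ᵥ g) ∧
      qf (Cm (nM (wTD N b η) M τ x₀) J) (Rᵀ *ᵥ g) ≤
        (1 + 4 * om0 N b (dbM M R τ) / (1 - om0 N b (dbM M R τ))) / τ * ∑ i, g i ^ 2 := by
  constructor
  · have h1 := H770.qf_monoD ((H770.gwf_wTD hb).disF_nM h.mf x₀) η J (Rᵀ *ᵥ g)
    rw [H770.wTD_zero] at h1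
    exact h1
  · exact h.Cm_n_le (om0_nonneg hb h) hω (oscD hb h) (H770.wTD_pos hb η 0) x₀ hJ hg

/-- the core-free parallelogram quantity of the S list, integer model -/
def TpI (N : ℕ) [NeZero N] (b : ℝ) (M : Matrix (Tor N) (Tor N) ℝ) (η : Ed N → ℤ)
    (F v : Tor N → ℝ) : ℝ :=
  Real.log (ZM (wTD N b η) M (F + v)) + Real.log (ZM (wTD N b η) M (F - v)) +
    2 * Real.log (ZM (wT b N) M 0) - 2 * Real.log (ZM (wTD N b η) M F) -
    2 * Real.log (ZM (wT b N) M v)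

/-- the same, neutral model -/
def TpN (N : ℕ) [NeZero N] (b : ℝ) (M : Matrix (Tor N) (Tor N) ℝ) (η : Ed N → ℤ)
    (F v : Tor N → ℝ) : ℝ :=
  Real.log (Zn (wTD N b η) M (F + v)) + Real.log (Zn (wTD N b η) M (F - v)) +
    2 * Real.log (Zn (wT b N) M 0) - 2 * Real.log (Zn (wTD N b η) M F) -
    2 * Real.log (Zn (wT b N) M v)

/-- Ginibre: the parallelogram quantity is nonnegative -/
theorem TpI_nonneg (hb : 0 < b) {η : Ed N → ℤ} (h : CH (wTD N b η) M R ρ τ)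
    (F v : Tor N → ℝ) : 0 ≤ TpI N b M η F v := by
  obtain ⟨m0, hm0, hc⟩ := h.coer
  have h1 := (H770.disF_torus_bg hb h.sym hm0 hc).gin (η, F) (0, v) 0 0
  simp only [add_zero, sub_zero, Prod.mk_add_mk, Prod.mk_sub_mk, H770.Zs_eWF] at h1
  have e0 : eW (eS N) (eT N) (fun _ => wI b) 0 = wT b N := H770.wTD_zero b
  have e1 : eW (eS N) (eT N) (fun _ => wI b) η = wTD N b η := rfl
  have e2 : ZM (eW (eS N) (eT N) (fun _ => wI b) (0 : (Ed N → ℤ) × (Tor N → ℝ)).1) M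
      (0 : (Ed N → ℤ) × (Tor N → ℝ)).2 = ZM (wT b N) M 0 := by
    rw [← e0]
    rfl
  rw [e2, e0, e1] at h1
  have p1 : 0 < ZM (wTD N b η) M (F + v) := H37.ZM_pos h.sym h.em _
  have p2 : 0 < ZM (wTD N b η) M (F - v) := H37.ZM_pos h.sym h.em _
  have p3 : 0 < ZM (wTD N b η) M F := H37.ZM_pos h.sym h.em _
  have hE0 : EM (wM (wT b N) M) := by
    have := (H770.disF_torus hb hm0 hc).em 0
    rwa [H770.wTD_zero] at this
  have p4 : 0 < ZM (wT b N) M 0 := H37.ZM_pos h.sym hE0 _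
  have p5 : 0 < ZM (wT b N) M v := H37.ZM_pos h.sym hE0 _
  have h2 := Real.log_le_log (by positivity) h1
  rw [Real.log_pow, Real.log_mul p3.ne' p5.ne', Real.log_mul (by positivity) (by positivity),
    Real.log_pow, Real.log_mul p1.ne' p2.ne'] at h2
  unfold TpI
  push_cast at h2
  linarith

/-- the quadratic form of the potential at background `0` -/
lemma log_ZM_ge (hb : 0 < b) {η : Ed N → ℤ} (h : CH (wTD N b η) M R ρ τ) (g : I → ℝ) :
    -((τ * (∑ i, g i ^ 2) - τ ^ 2 * qf (Gm (wM (wT b N) M)) (Rᵀ *ᵥ g)) / 2) ≤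
      Real.log (ZM (wT b N) M (Rᵀ *ᵥ g)) - Real.log (ZM (wT b N) M 0) := by
  obtain ⟨m0, hm0, hc⟩ := h.coer
  have hD := H770.disF_torus (N := N) hb hm0 hc
  have hE0 : EM (wM (wT b N) M) := by
    have := hD.em 0
    rwa [H770.wTD_zero] at this
  have hev : H37.Ev (wM (wT b N) M) := by
    have := hD.ev0
    rwa [H770.wTD_zero] at this
  have hpk : H37.PK (wM (wT b N) M) := by
    have := hD.pk
    rwa [H770.wTD_zero] at this
  have h1 := H789.Rs_nonneg hE0 hev hpk (M *ᵥ (Rᵀ *ᵥ g))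
  unfold Rs at h1
  rw [log_ZM h.sym hE0, log_ZM h.sym hE0, mulVec_zero, H37.qf_zero_vec, h.qf_eig, h.eig]
  rw [h.eig, H37.qf_smul] at h1
  linarith

/-- **upper bound of the parallelogram quantity, no core energy** -/
theorem TpI_le (hb : 0 < b) {η : Ed N → ℤ} (h : CH (wTD N b η) M R ρ τ)
    (hω : om0 N b (dbM M R τ) < 1) (F : Tor N → ℝ) (g : I → ℝ) :
    TpI N b M η F (Rᵀ *ᵥ g) ≤
      (τ * (∑ i, g i ^ 2) - τ ^ 2 * qf (Gm (wM (wT b N) M)) (Rᵀ *ᵥ g)) +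
        8 * om0 N b (dbM M R τ) / (1 - om0 N b (dbM M R τ)) ^ 2 * τ * ∑ i, g i ^ 2 := by
  have h1 := h.par_low (om0_nonneg hb h) hω (oscD hb h) F g
  have h2 := log_ZM_ge hb h g
  unfold TpI
  linarith

/-- second differences of the dislocated free energy: both sides, every background -/
theorem par_D (hb : 0 < b) {η : Ed N → ℤ} (h : CH (wTD N b η) M R ρ τ)
    (hω : om0 N b (dbM M R τ) < 1) (F : Tor N → ℝ) (g : I → ℝ) :
    -(8 * om0 N b (dbM M R τ) / (1 - om0 N b (dbM M R τ)) ^ 2 * τ * ∑ i, g i ^ 2) ≤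
        2 * Real.log (ZM (wTD N b η) M F) - Real.log (ZM (wTD N b η) M (F + Rᵀ *ᵥ g)) -
          Real.log (ZM (wTD N b η) M (F - Rᵀ *ᵥ g)) ∧
      2 * Real.log (ZM (wTD N b η) M F) - Real.log (ZM (wTD N b η) M (F + Rᵀ *ᵥ g)) -
          Real.log (ZM (wTD N b η) M (F - Rᵀ *ᵥ g)) ≤
        τ * (∑ i, g i ^ 2) - τ ^ 2 * qf (Gm (wM (wT b N) M)) (Rᵀ *ᵥ g) := by
  have h1 := h.par_low (om0_nonneg hb h) hω (oscD hb h) F g
  have h2 := log_ZM_ge hb h g
  have h3 := TpI_nonneg hb h F (Rᵀ *ᵥ g)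
  unfold TpI at h3
  constructor <;> linarith

/-- Ginibre for the neutral partition functions -/
theorem TpN_nonneg (hb : 0 < b) {η : Ed N → ℤ} (h : CH (wTD N b η) M R ρ τ)
    (F v : Tor N → ℝ) : 0 ≤ TpN N b M η F v := by
  have h1 := (H770.gwf_wTD (N := N) hb).ginZn h.mf η 0 F v
  simp only [add_zero, sub_zero, H770.wTD_zero] at h1
  have q := fun (η : Ed N → ℤ) (F : Tor N → ℝ) =>
    (H770.gwf_wTD (N := N) hb).Zn_pos h.mf η F
  have p1 : 0 < Zn (wTD N b η) M (F + v) := q η _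
  have p2 : 0 < Zn (wTD N b η) M (F - v) := q η _
  have p3 : 0 < Zn (wTD N b η) M F := q η _
  have p4 : 0 < Zn (wT b N) M 0 := by
    have := q 0 0
    rwa [H770.wTD_zero] at this
  have p5 : 0 < Zn (wT b N) M v := by
    have := q 0 v
    rwa [H770.wTD_zero] at this
  have h2 := Real.log_le_log (by positivity) h1
  rw [Real.log_pow, Real.log_mul p3.ne' p5.ne', Real.log_mul (by positivity) (by positivity),
    Real.log_pow, Real.log_mul p1.ne' p2.ne'] at h2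
  unfold TpN
  push_cast at h2
  linarith

/-- the quadratic form of the neutral potential at background `0` -/
lemma log_Zn_ge (hb : 0 < b) {η : Ed N → ℤ} (h : CH (wTD N b η) M R ρ τ) (x₀ : Tor N)
    {g : I → ℝ} (hg : Neu (Rᵀ *ᵥ g)) :
    -((τ * (∑ i, g i ^ 2) - τ ^ 2 * qf (Gm (nM (wT b N) M τ x₀)) (Rᵀ *ᵥ g)) / 2) ≤
      Real.log (Zn (wT b N) M (Rᵀ *ᵥ g)) - Real.log (Zn (wT b N) M 0) := by
  have hD := (H770.gwf_wTD (N := N) hb).disF_nM h.mf x₀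
  have hE0 : EM (nM (wT b N) M τ x₀) := by
    have := hD.em 0
    rwa [H770.wTD_zero] at this
  have hev : H37.Ev (nM (wT b N) M τ x₀) := by
    have := hD.ev0
    rwa [H770.wTD_zero] at this
  have hpk : H37.PK (nM (wT b N) M τ x₀) := by
    have := hD.pk
    rwa [H770.wTD_zero] at this
  have hN : (0 : ℝ) < Fintype.card (Tor N) := Nat.cast_pos.2 Fintype.card_pos
  have hτ := h.τ0
  have hz := (H770.gwf_wTD (N := N) hb).Zn_eq h.mf x₀ 0
  simp only [H770.wTD_zero] at hz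
  have hl : ∀ F, Real.log (Zn (wT b N) M F) =
      Real.log (Real.sqrt (2 * Real.pi / (τ * Fintype.card (Tor N)))) -
        (qf (ntr M τ) F / 2 - Lg (nM (wT b N) M τ x₀) (ntr M τ *ᵥ F)) := by
    intro F
    have h1 : 0 < Zs (nM (wT b N) M τ x₀) (ntr M τ *ᵥ F) := TM.H104.T_one_pos hE0 _
    rw [hz F, Real.log_mul (Real.sqrt_pos.2 (by positivity)).ne'
      (mul_pos (Real.exp_pos _) h1).ne', Real.log_mul (Real.exp_pos _).ne' h1.ne', Real.log_exp]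
    unfold Lg Zs
    ring
  have h1 := H789.Rs_nonneg hE0 hev hpk (ntr M τ *ᵥ (Rᵀ *ᵥ g))
  unfold Rs at h1
  rw [hl, hl, mulVec_zero, H37.qf_zero_vec, H963.qf_ntr_neu M τ hg, h.qf_eig]
  rw [H963.ntr_of_neu M τ hg, h.eig, H37.qf_smul] at h1
  rw [H963.ntr_of_neu M τ hg, h.eig]
  linarith

/-- **neutral model: upper bound of the parallelogram quantity, no core energy** -/
theorem TpN_le (hb : 0 < b) {η : Ed N → ℤ} (h : CH (wTD N b η) M R ρ τ)
    (hω : om0 N b (dbM M R τ) < 1) (F : Tor N → ℝ) (x₀ : Tor N) {g : I → ℝ}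
    (hg : Neu (Rᵀ *ᵥ g)) : TpN N b M η F (Rᵀ *ᵥ g) ≤
      (τ * (∑ i, g i ^ 2) - τ ^ 2 * qf (Gm (nM (wT b N) M τ x₀)) (Rᵀ *ᵥ g)) +
        4 * om0 N b (dbM M R τ) / (1 - om0 N b (dbM M R τ)) * τ * ∑ i, g i ^ 2 := by
  have h1 := h.par_low_n (om0_nonneg hb h) hω (oscD hb h) F g
  have h2 := log_Zn_ge hb h x₀ hg
  unfold TpN
  linarith

/-- neutral model: second differences of the dislocated free energy, every background -/
theorem par_D_n (hb : 0 < b) {η : Ed N → ℤ} (h : CH (wTD N b η) M R ρ τ)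
    (hω : om0 N b (dbM M R τ) < 1) (F : Tor N → ℝ) (x₀ : Tor N) {g : I → ℝ}
    (hg : Neu (Rᵀ *ᵥ g)) :
    -(4 * om0 N b (dbM M R τ) / (1 - om0 N b (dbM M R τ)) * τ * ∑ i, g i ^ 2) ≤
        2 * Real.log (Zn (wTD N b η) M F) - Real.log (Zn (wTD N b η) M (F + Rᵀ *ᵥ g)) -
          Real.log (Zn (wTD N b η) M (F - Rᵀ *ᵥ g)) ∧
      2 * Real.log (Zn (wTD N b η) M F) - Real.log (Zn (wTD N b η) M (F + Rᵀ *ᵥ g)) -
          Real.log (Zn (wTD N b η) M (F - Rᵀ *ᵥ g)) ≤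
        τ * (∑ i, g i ^ 2) - τ ^ 2 * qf (Gm (nM (wT b N) M τ x₀)) (Rᵀ *ᵥ g) := by
  have h1 := h.par_low_n (om0_nonneg hb h) hω (oscD hb h) F g
  have h2 := log_Zn_ge hb h x₀ hg
  have h3 := TpN_nonneg hb h F (Rᵀ *ᵥ g)
  unfold TpN at h3
  constructor <;> linarith

end gen

/-! ### instances in final letters -/

/-- **cells, integer model** -/
theorem cov_cell [NeZero (N / l)] (hb : 0 < b) (hl : l ∣ N) (hτ : 0 < τ) (h : τ ≤ t)
    (hω : om0 N b (MC N l t (2 * τ)) < 1) (η : Ed N → ℤ) (J : Tor N → ℝ)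
    (g : TM.Spec.V (N / l) → ℝ) :
    qf (Cm (wM (wTD N b η) (MC N l t τ)) J) ((cobV N l)ᵀ *ᵥ g) ≤
      (1 + 8 * om0 N b (MC N l t (2 * τ)) / (1 - om0 N b (MC N l t (2 * τ))) ^ 2) / τ *
        ∑ i, g i ^ 2 := by
  have h1 := ch_cell (b := b) hb hl hτ h η
  rw [← dbM_cell hl] at hω ⊢
  exact (cov_D hb h1 hω J g).2

/-- **cells, neutral model** -/
theorem cov_cell_n [NeZero (N / l)] (hb : 0 < b) (hl : l ∣ N) (hτ : 0 < τ) (h : τ ≤ t)
    (hω : om0 N b (MC N l t (2 * τ)) < 1) (η : Ed N → ℤ) (x₀ : Tor N) {J : Tor N → ℝ}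
    (hJ : Neu J) {g : TM.Spec.V (N / l) → ℝ} (hg : Neu ((cobV N l)ᵀ *ᵥ g)) :
    qf (Cm (nM (wTD N b η) (MC N l t τ) τ x₀) J) ((cobV N l)ᵀ *ᵥ g) ≤
      (1 + 4 * om0 N b (MC N l t (2 * τ)) / (1 - om0 N b (MC N l t (2 * τ)))) / τ *
        ∑ i, g i ^ 2 := by
  have h1 := ch_cell (b := b) hb hl hτ h η
  rw [← dbM_cell hl] at hω ⊢
  exact (cov_D_n hb h1 hω x₀ hJ hg).2

/-- **scalar mass, integer model** -/
theorem cov_t (hb : 0 < b) (ht : 0 < t)
    (hω : om0 N b ((2 * t) • (1 : Matrix (Tor N) (Tor N) ℝ)) < 1) (η : Ed N → ℤ)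
    (J u : Tor N → ℝ) :
    qf (Cm (H770.wtD N b t η) J) u ≤
      (1 + 8 * om0 N b ((2 * t) • (1 : Matrix (Tor N) (Tor N) ℝ)) /
        (1 - om0 N b ((2 * t) • (1 : Matrix (Tor N) (Tor N) ℝ))) ^ 2) / t * ∑ x, u x ^ 2 := by
  have h1 := ch_t (b := b) hb ht η
  rw [← dbM_t] at hω ⊢
  have h2 := (cov_D hb h1 hω J u).2
  rw [transpose_one, one_mulVec] at h2
  exact h2

/-- **scalar mass, neutral model** -/
theorem cov_t_n (hb : 0 < b) (ht : 0 < t)
    (hω : om0 N b ((2 * t) • (1 : Matrix (Tor N) (Tor N) ℝ)) < 1) (η : Ed N → ℤ)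
    (x₀ : Tor N) {J u : Tor N → ℝ} (hJ : Neu J) (hu : Neu u) :
    qf (Cm (H770.nwtD N b t x₀ η) J) u ≤
      (1 + 4 * om0 N b ((2 * t) • (1 : Matrix (Tor N) (Tor N) ℝ)) /
        (1 - om0 N b ((2 * t) • (1 : Matrix (Tor N) (Tor N) ℝ)))) / t * ∑ x, u x ^ 2 := by
  have h1 := ch_t (b := b) hb ht η
  rw [← dbM_t] at hω ⊢
  have hg : Neu ((1 : Matrix (Tor N) (Tor N) ℝ)ᵀ *ᵥ u) := by
    rw [transpose_one, one_mulVec]
    exact hu
  have h2 := (cov_D_n hb h1 hω x₀ hJ hg).2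
  rw [transpose_one, one_mulVec] at h2
  exact h2

end torus

end

end Vale.Agent.P159.H764
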