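import Vale.Agent.P159.H37.Gau
import Mathlib.Probability.Moments.MGFAnalytic

/-!
P159 / near-convexity in every background, part 1 (helper764): Gaussian convolution of a bounded
positive function of the background and the second logarithmic derivative as a variance.
-/

namespace Vale.Agent.P159.H764

open MeasureTheory ProbabilityTheory Finset
open Vale.Agent.P159.H37 (gau gau_shift gau_exp_mul integrable_exp_norm)

noncomputable section

/-! ### variances with respect to weights -/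

section var

variable {Ω : Type*} [MeasurableSpace Ω] (P : Measure Ω)

/-- mean of `X` under the weight `W` -/
def mnW (W X : Ω → ℝ) : ℝ := (∫ z, X z * W z ∂P) / ∫ z, W z ∂P

/-- variance of `X` under the weight `W` -/
def vrW (W X : Ω → ℝ) : ℝ := (∫ z, X z ^ 2 * W z ∂P) / (∫ z, W z ∂P) - mnW P W X ^ 2

variable {P}

lemma sq_about {W X : Ω → ℝ} (h0 : Integrable W P) (h1 : Integrable (fun z => X z * W z) P)
    (h2 : Integrable (fun z => X z ^ 2 * W z) P) (hpos : 0 < ∫ z, W z ∂P) (c : ℝ) :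
    (∫ z, (X z - c) ^ 2 * W z ∂P) / (∫ z, W z ∂P) = vrW P W X + (mnW P W X - c) ^ 2 := by
  have e : ∫ z, (X z - c) ^ 2 * W z ∂P =
      (∫ z, X z ^ 2 * W z ∂P) - 2 * c * (∫ z, X z * W z ∂P) + c ^ 2 * ∫ z, W z ∂P := by
    have e1 : ∫ z, (X z - c) ^ 2 * W z ∂P =
        ∫ z, (X z ^ 2 * W z - 2 * c * (X z * W z)) + c ^ 2 * W z ∂P := by
      refine integral_congr_ae (Filter.Eventually.of_forall fun z => ?_)
      simp only
      ring
    have i2 : Integrable (fun z => X z ^ 2 * W z - 2 * c * (X z * W z)) P :=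
      h2.sub (h1.const_mul (2 * c))
    rw [e1, integral_add i2 (h0.const_mul (c ^ 2)), integral_sub h2 (h1.const_mul (2 * c)),
      integral_const_mul, integral_const_mul]
  rw [e]
  unfold vrW mnW
  field_simp
  ring

lemma vrW_le {W X : Ω → ℝ} (h0 : Integrable W P) (h1 : Integrable (fun z => X z * W z) P)
    (h2 : Integrable (fun z => X z ^ 2 * W z) P) (hpos : 0 < ∫ z, W z ∂P) (c : ℝ) :
    vrW P W X ≤ (∫ z, (X z - c) ^ 2 * W z ∂P) / (∫ z, W z ∂P) := by
  rw [sq_about h0 h1 h2 hpos c]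
  nlinarith [sq_nonneg (mnW P W X - c)]

lemma vrW_nonneg {W X : Ω → ℝ} (h0 : Integrable W P) (h1 : Integrable (fun z => X z * W z) P)
    (h2 : Integrable (fun z => X z ^ 2 * W z) P) (hpos : 0 < ∫ z, W z ∂P) (hW : ∀ z, 0 ≤ W z) :
    0 ≤ vrW P W X := by
  have h := sq_about h0 h1 h2 hpos (mnW P W X)
  rw [sub_self, sq, mul_zero, add_zero] at h
  rw [← h]
  exact div_nonneg (integral_nonneg fun z => mul_nonneg (sq_nonneg _) (hW z)) hpos.le

/-- comparable weights have comparable variances -/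
lemma vrW_comp {W W₀ X : Ω → ℝ} {a b : ℝ} (ha : 0 < a)
    (h0 : Integrable W P) (h1 : Integrable (fun z => X z * W z) P)
    (h2 : Integrable (fun z => X z ^ 2 * W z) P)
    (k0 : Integrable W₀ P) (k1 : Integrable (fun z => X z * W₀ z) P)
    (k2 : Integrable (fun z => X z ^ 2 * W₀ z) P) (kpos : 0 < ∫ z, W₀ z ∂P)
    (hW₀ : ∀ z, 0 ≤ W₀ z)
    (hlo : ∀ z, a * W₀ z ≤ W z) (hhi : ∀ z, W z ≤ b * W₀ z) :
    vrW P W X ≤ b / a * vrW P W₀ X := by
  have hb : 0 ≤ b := by
    by_contra hb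
    push Not at hb
    have h3 : ∫ z, a * W₀ z ∂P ≤ ∫ z, b * W₀ z ∂P :=
      integral_mono (k0.const_mul a) (k0.const_mul b) fun z => (hlo z).trans (hhi z)
    rw [integral_const_mul, integral_const_mul] at h3
    nlinarith
  have hm : a * ∫ z, W₀ z ∂P ≤ ∫ z, W z ∂P := by
    rw [← integral_const_mul]
    exact integral_mono (k0.const_mul a) h0 hlo
  have hpos : 0 < ∫ z, W z ∂P := lt_of_lt_of_le (mul_pos ha kpos) hm
  set c := mnW P W₀ X with hc
  have sqi : ∀ {U : Ω → ℝ}, Integrable U P → Integrable (fun z => X z * U z) P →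
      Integrable (fun z => X z ^ 2 * U z) P → Integrable (fun z => (X z - c) ^ 2 * U z) P := by
    intro U u0 u1 u2
    refine ((u2.sub (u1.const_mul (2 * c))).add (u0.const_mul (c ^ 2))).congr
      (Filter.Eventually.of_forall fun z => ?_)
    simp only [Pi.add_apply, Pi.sub_apply]
    ring
  refine (vrW_le h0 h1 h2 hpos c).trans ?_
  have h4 := sq_about k0 k1 k2 kpos c
  rw [hc, sub_self, ← hc] at h4
  have h4' : vrW P W₀ X = (∫ z, (X z - c) ^ 2 * W₀ z ∂P) / ∫ z, W₀ z ∂P := by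
    rw [h4]; ring
  rw [h4']
  have h5 : ∫ z, (X z - c) ^ 2 * W z ∂P ≤ b * ∫ z, (X z - c) ^ 2 * W₀ z ∂P := by
    rw [← integral_const_mul]
    refine integral_mono (sqi h0 h1 h2) ((sqi k0 k1 k2).const_mul b) fun z => ?_
    have := mul_le_mul_of_nonneg_left (hhi z) (sq_nonneg (X z - c))
    simp only
    linarith
  have h6 : 0 ≤ ∫ z, (X z - c) ^ 2 * W₀ z ∂P :=
    integral_nonneg fun z => mul_nonneg (sq_nonneg _) (hW₀ z)
  calc (∫ z, (X z - c) ^ 2 * W z ∂P) / ∫ z, W z ∂P
      ≤ (b * ∫ z, (X z - c) ^ 2 * W₀ z ∂P) / (a * ∫ z, W₀ z ∂P) :=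
        div_le_div₀ (mul_nonneg hb h6) h5 (mul_pos ha kpos) hm
    _ = b / a * ((∫ z, (X z - c) ^ 2 * W₀ z ∂P) / ∫ z, W₀ z ∂P) := by
        field_simp

end var

/-! ### Gaussian convolution -/

section conv

variable {V : Type*} [Fintype V]

/-- linear functional of the Gaussian field -/
def lz (g z : V → ℝ) : ℝ := ∑ x, g x * z x

@[fun_prop]
lemma measurable_lz (g : V → ℝ) : Measurable (lz g) := by
  unfold lz
  fun_prop

lemma lz_smul (c : ℝ) (g z : V → ℝ) : lz (c • g) z = c * lz g z := by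
  unfold lz
  simp only [Pi.smul_apply, smul_eq_mul, Finset.mul_sum, mul_assoc]

/-- convolution with `a` times the standard Gaussian -/
def PA (a : ℝ) (f : (V → ℝ) → ℝ) (F : V → ℝ) : ℝ := ∫ z, f (F + a • z) ∂(gau V)

/-- bounded, measurable, positive -/
structure BP (f : (V → ℝ) → ℝ) : Prop where
  meas : Measurable f
  pos : ∀ F, 0 < f F
  bdd : ∃ B : ℝ, ∀ F, f F ≤ B

lemma integrable_abs_exp (g : V → ℝ) (n : ℕ) (θ : ℝ) :
    Integrable (fun z : V → ℝ => |lz g z| ^ n * Real.exp (θ * lz g z)) (gau V) := by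
  have hb : ∀ z : V → ℝ, |lz g z| ≤ (∑ x, |g x|) * ∑ x, |z x| := by
    intro z
    unfold lz
    refine (Finset.abs_sum_le_sum_abs _ _).trans ?_
    rw [Finset.sum_mul]
    refine Finset.sum_le_sum fun x _ => ?_
    rw [abs_mul]
    exact mul_le_mul_of_nonneg_left
      (Finset.single_le_sum (f := fun x => |z x|) (fun _ _ => abs_nonneg _) (Finset.mem_univ x))
      (abs_nonneg _)
  refine ((integrable_exp_norm (I := V) ((1 + |θ|) * ∑ x, |g x|)).const_mul
    ((n.factorial : ℝ))).mono' (by fun_prop) (Filter.Eventually.of_forall fun z => ?_)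
  rw [Real.norm_eq_abs, abs_mul, abs_of_pos (Real.exp_pos _), abs_of_nonneg (by positivity)]
  have h1 : |lz g z| ^ n ≤ (n.factorial : ℝ) * Real.exp |lz g z| := by
    have := Real.pow_div_factorial_le_exp (|lz g z|) (abs_nonneg _) n
    rw [div_le_iff₀ (by positivity)] at this
    linarith
  have h2 : θ * lz g z ≤ |θ| * |lz g z| := by
    rw [← abs_mul]
    exact le_abs_self _
  calc |lz g z| ^ n * Real.exp (θ * lz g z)
      ≤ (n.factorial : ℝ) * Real.exp |lz g z| * Real.exp (|θ| * |lz g z|) :=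
        mul_le_mul h1 (Real.exp_le_exp.2 h2) (Real.exp_pos _).le (by positivity)
    _ = (n.factorial : ℝ) * Real.exp ((1 + |θ|) * |lz g z|) := by
        rw [mul_assoc, ← Real.exp_add]
        ring_nf
    _ ≤ (n.factorial : ℝ) * Real.exp ((1 + |θ|) * (∑ x, |g x|) * ∑ x, |z x|) := by
        refine mul_le_mul_of_nonneg_left (Real.exp_le_exp.2 ?_) (by positivity)
        rw [mul_assoc]
        exact mul_le_mul_of_nonneg_left (hb z) (by positivity)

variable {f : (V → ℝ) → ℝ}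

omit [Fintype V] in
lemma BP.meas' (hf : BP f) (a : ℝ) (F : V → ℝ) : Measurable fun z : V → ℝ => f (F + a • z) := by
  refine hf.meas.comp ?_
  fun_prop

lemma BP.int (hf : BP f) (a : ℝ) (F g : V → ℝ) (n : ℕ) (θ : ℝ) :
    Integrable (fun z : V → ℝ => lz g z ^ n * Real.exp (θ * lz g z) * f (F + a • z)) (gau V) := by
  obtain ⟨B, hB⟩ := hf.bdd
  refine ((integrable_abs_exp g n θ).mul_const B).mono' ?_ (Filter.Eventually.of_forall fun z => ?_)
  · exact (Measurable.mul (by fun_prop) (hf.meas' a F)).aestronglyMeasurable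
  · rw [Real.norm_eq_abs, abs_mul, abs_mul, abs_pow, abs_of_pos (Real.exp_pos _),
      abs_of_pos (hf.pos _)]
    exact mul_le_mul_of_nonneg_left (hB _) (by positivity)

lemma BP.int_exp (hf : BP f) (a : ℝ) (F g : V → ℝ) (θ : ℝ) :
    Integrable (fun z : V → ℝ => Real.exp (θ * lz g z) * f (F + a • z)) (gau V) := by
  simpa using hf.int a F g 0 θ

lemma BP.int0 (hf : BP f) (a : ℝ) (F : V → ℝ) :
    Integrable (fun z : V → ℝ => f (F + a • z)) (gau V) := by
  simpa using hf.int a F 0 0 0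

lemma BP.int1 (hf : BP f) (a : ℝ) (F g : V → ℝ) :
    Integrable (fun z : V → ℝ => lz g z * f (F + a • z)) (gau V) := by
  simpa using hf.int a F g 1 0

lemma BP.int2 (hf : BP f) (a : ℝ) (F g : V → ℝ) :
    Integrable (fun z : V → ℝ => lz g z ^ 2 * f (F + a • z)) (gau V) := by
  simpa using hf.int a F g 2 0

lemma BP.tilt_pos (hf : BP f) (a : ℝ) (F g : V → ℝ) (θ : ℝ) :
    0 < ∫ z, Real.exp (θ * lz g z) * f (F + a • z) ∂(gau V) := by
  rw [integral_pos_iff_support_of_nonneg (fun z => (mul_pos (Real.exp_pos _) (hf.pos _)).le)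
    (hf.int_exp a F g θ)]
  have : Function.support (fun z : V → ℝ => Real.exp (θ * lz g z) * f (F + a • z)) = Set.univ := by
    ext z
    simp only [Function.mem_support, ne_eq, Set.mem_univ, iff_true]
    exact (mul_pos (Real.exp_pos _) (hf.pos _)).ne'
  rw [this]
  simp

lemma BP.PA_pos (hf : BP f) (a : ℝ) (F : V → ℝ) : 0 < PA a f F := by
  have := hf.tilt_pos a F 0 0
  simpa [PA] using this

/-- exponential tilt of the convolution -/
lemma PA_shift (a : ℝ) (ha : a ≠ 0) (F g : V → ℝ) (τ : ℝ) :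
    PA a f (F + τ • g) = Real.exp (-(τ ^ 2 * (∑ x, g x ^ 2) / (2 * a ^ 2))) *
      ∫ z, Real.exp (τ / a * lz g z) * f (F + a • z) ∂(gau V) := by
  unfold PA
  have h := gau_shift (I := V) ((τ / a) • g) fun z => f (F + a • z)
  have e1 : ∀ z : V → ℝ, f (F + a • (z + (τ / a) • g)) = f (F + τ • g + a • z) := by
    intro z
    congr 1
    funext x
    simp only [Pi.add_apply, Pi.smul_apply, smul_eq_mul]
    field_simp
    ring
  simp_rw [e1] at h
  rw [h, ← integral_const_mul]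
  refine integral_congr_ae (Filter.Eventually.of_forall fun z => ?_)
  simp only
  rw [← mul_assoc, ← Real.exp_add]
  congr 2
  have e2 : ∑ i, ((τ / a) • g) i * z i = τ / a * lz g z := by
    rw [← lz_smul]; rfl
  have e3 : ∑ i, ((τ / a) • g) i ^ 2 = τ ^ 2 / a ^ 2 * ∑ x, g x ^ 2 := by
    rw [Finset.mul_sum]
    refine Finset.sum_congr rfl fun x _ => ?_
    simp only [Pi.smul_apply, smul_eq_mul]
    ring
  rw [e2, e3]
  field_simp
  ring

/-- the measure with density `f (F + a z)` -/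
private def kap (a : ℝ) (f : (V → ℝ) → ℝ) (F : V → ℝ) : Measure (V → ℝ) :=
  (gau V).withDensity fun z => ENNReal.ofReal (f (F + a • z))

private lemma integral_kap (hf : BP f) (a : ℝ) (F : V → ℝ) (Φ : (V → ℝ) → ℝ) :
    ∫ z, Φ z ∂(kap a f F) = ∫ z, Φ z * f (F + a • z) ∂(gau V) := by
  unfold kap
  rw [integral_withDensity_eq_integral_toReal_smul (hf.meas' a F).ennreal_ofReal
    (Filter.Eventually.of_forall fun x => ENNReal.ofReal_lt_top)]
  refine integral_congr_ae (Filter.Eventually.of_forall fun z => ?_)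
  simp only [smul_eq_mul]
  rw [ENNReal.toReal_ofReal (hf.pos _).le, mul_comm]

private lemma integrable_kap (hf : BP f) (a : ℝ) (F : V → ℝ) {Φ : (V → ℝ) → ℝ}
    (h : Integrable (fun z => Φ z * f (F + a • z)) (gau V)) : Integrable Φ (kap a f F) := by
  unfold kap
  rw [integrable_withDensity_iff_integrable_smul₀' (hf.meas' a F).ennreal_ofReal.aemeasurable
    (Filter.Eventually.of_forall fun x => ENNReal.ofReal_lt_top)]
  refine h.congr (Filter.Eventually.of_forall fun z => ?_)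
  simp only [smul_eq_mul]
  rw [ENNReal.toReal_ofReal (hf.pos _).le, mul_comm]

private lemma expset (hf : BP f) (a : ℝ) (F g : V → ℝ) :
    interior (integrableExpSet (lz g) (kap a f F)) = Set.univ := by
  have : integrableExpSet (lz g) (kap a f F) = Set.univ := by
    ext θ
    simp only [integrableExpSet, Set.mem_ofPred_eq, Set.mem_univ, iff_true]
    exact integrable_kap hf a F (hf.int_exp a F g θ)
  rw [this, interior_univ]

/-- moments of the tilted weight -/
def MM (a : ℝ) (f : (V → ℝ) → ℝ) (F g : V → ℝ) (n : ℕ) (θ : ℝ) : ℝ :=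
  ∫ z, lz g z ^ n * Real.exp (θ * lz g z) * f (F + a • z) ∂(gau V)

lemma hasDerivAt_MM (hf : BP f) (a : ℝ) (F g : V → ℝ) (n : ℕ) (θ : ℝ) :
    HasDerivAt (MM a f F g n) (MM a f F g (n + 1) θ) θ := by
  have h := hasDerivAt_integral_pow_mul_exp_real (X := lz g) (μ := kap a f F) (t := θ)
    (by rw [expset hf]; trivial) n
  simp only [integral_kap hf] at h
  exact h

lemma MM_zero_pos (hf : BP f) (a : ℝ) (F g : V → ℝ) (θ : ℝ) : 0 < MM a f F g 0 θ := by
  unfold MM
  simpa using hf.tilt_pos a F g θ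

/-- logarithm of the convolution along a line -/
lemma log_PA (hf : BP f) {a : ℝ} (ha : a ≠ 0) (F g : V → ℝ) (τ : ℝ) :
    Real.log (PA a f (F + τ • g)) =
      Real.log (MM a f F g 0 (τ / a)) - τ ^ 2 * (∑ x, g x ^ 2) / (2 * a ^ 2) := by
  have h : ∫ z, Real.exp (τ / a * lz g z) * f (F + a • z) ∂(gau V) = MM a f F g 0 (τ / a) := by
    unfold MM
    simp
  rw [PA_shift a ha, h, Real.log_mul (Real.exp_pos _).ne' (MM_zero_pos hf a F g _).ne',
    Real.log_exp]
  ring

/-- first logarithmic derivative of the convolution -/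
def dP (a : ℝ) (f : (V → ℝ) → ℝ) (F g : V → ℝ) : ℝ :=
  mnW (gau V) (fun z => f (F + a • z)) (lz g) / a

lemma hasDerivAt_logMM (hf : BP f) {a : ℝ} (ha : a ≠ 0) (F g : V → ℝ) (τ : ℝ) :
    HasDerivAt (fun τ => Real.log (PA a f (F + τ • g)))
      (MM a f F g 1 (τ / a) / MM a f F g 0 (τ / a) / a - τ * (∑ x, g x ^ 2) / a ^ 2) τ := by
  have h0 : HasDerivAt (fun τ : ℝ => τ / a) (1 / a) τ := (hasDerivAt_id τ).div_const a
  have h1 := (hasDerivAt_MM hf a F g 0 (τ / a)).comp τ h0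
  have h2 := h1.log (MM_zero_pos hf a F g (τ / a)).ne'
  have h3 : HasDerivAt (fun τ : ℝ => τ ^ 2 * (∑ x, g x ^ 2) / (2 * a ^ 2))
      (2 * τ * (∑ x, g x ^ 2) / (2 * a ^ 2)) τ := by
    have := ((hasDerivAt_pow 2 τ).mul_const (∑ x, g x ^ 2)).div_const (2 * a ^ 2)
    simpa using this
  have h4 := h2.sub h3
  have e : (fun τ => Real.log (PA a f (F + τ • g))) = fun τ =>
      Real.log (MM a f F g 0 (τ / a)) - τ ^ 2 * (∑ x, g x ^ 2) / (2 * a ^ 2) := by
    funext τ
    exact log_PA hf ha F g τ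
  rw [e]
  refine h4.congr_deriv ?_
  simp only [Function.comp_apply]
  field_simp

lemma hasDerivAt_logPA (hf : BP f) {a : ℝ} (ha : a ≠ 0) (F g : V → ℝ) (τ : ℝ) :
    HasDerivAt (fun τ => Real.log (PA a f (F + τ • g))) (dP a f (F + τ • g) g) τ := by
  have h := hasDerivAt_logMM hf ha (F + τ • g) g 0
  have h1 : HasDerivAt (fun σ : ℝ => σ - τ) 1 τ := (hasDerivAt_id τ).sub_const τ
  have h2 : HasDerivAt (fun τ' => Real.log (PA a f (F + τ • g + τ' • g)))
      (MM a f (F + τ • g) g 1 (0 / a) / MM a f (F + τ • g) g 0 (0 / a) / a -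
        0 * (∑ x, g x ^ 2) / a ^ 2) (τ - τ) := by
    rw [sub_self]; exact h
  have h3 := HasDerivAt.comp (h := fun σ : ℝ => σ - τ) τ h2 h1
  refine (h3.congr_of_eventuallyEq (Filter.Eventually.of_forall fun σ => ?_)).congr_deriv ?_
  · simp only [Function.comp_apply]
    congr 2
    rw [add_assoc, ← add_smul]
    congr 2
    ring
  · unfold dP mnW MM
    simp

/-- **second logarithmic derivative of the convolution = variance** -/
theorem hasDerivAt_dP (hf : BP f) {a : ℝ} (ha : a ≠ 0) (F g : V → ℝ) :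
    HasDerivAt (fun τ : ℝ => dP a f (F + τ • g) g)
      ((vrW (gau V) (fun z => f (F + a • z)) (lz g) - ∑ x, g x ^ 2) / a ^ 2) 0 := by
  have e : (fun τ : ℝ => dP a f (F + τ • g) g) = fun τ : ℝ =>
      MM a f F g 1 (τ / a) / MM a f F g 0 (τ / a) / a - τ * (∑ x, g x ^ 2) / a ^ 2 := by
    funext τ
    exact (hasDerivAt_logPA hf ha F g τ).unique (hasDerivAt_logMM hf ha F g τ)
  rw [e]
  have h0 : HasDerivAt (fun τ : ℝ => τ / a) (1 / a) 0 := (hasDerivAt_id (0 : ℝ)).div_const a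
  have h1 : HasDerivAt (fun τ : ℝ => MM a f F g 1 (τ / a)) (MM a f F g 2 (0 / a) * (1 / a)) 0 :=
    HasDerivAt.comp (h := fun τ : ℝ => τ / a) (0 : ℝ) (hasDerivAt_MM hf a F g 1 (0 / a)) h0
  have h2 : HasDerivAt (fun τ : ℝ => MM a f F g 0 (τ / a)) (MM a f F g 1 (0 / a) * (1 / a)) 0 :=
    HasDerivAt.comp (h := fun τ : ℝ => τ / a) (0 : ℝ) (hasDerivAt_MM hf a F g 0 (0 / a)) h0
  have hne := (MM_zero_pos hf a F g (0 / a)).ne'
  have h3 := (h1.div h2 hne).div_const a
  have h4 : HasDerivAt (fun τ : ℝ => τ * (∑ x, g x ^ 2) / a ^ 2) ((∑ x, g x ^ 2) / a ^ 2) 0 := by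
    have := ((hasDerivAt_id (0 : ℝ)).mul_const (∑ x, g x ^ 2)).div_const (a ^ 2)
    simpa using this
  refine (h3.sub h4).congr_deriv ?_
  have k0 : MM a f F g 0 (0 / a) = ∫ z, f (F + a • z) ∂(gau V) := by
    unfold MM; simp
  have k1 : MM a f F g 1 (0 / a) = ∫ z, lz g z * f (F + a • z) ∂(gau V) := by
    unfold MM; simp
  have k2 : MM a f F g 2 (0 / a) = ∫ z, lz g z ^ 2 * f (F + a • z) ∂(gau V) := by
    unfold MM; simp
  unfold vrW mnW
  rw [k0] at hne
  rw [k0, k1, k2]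
  field_simp

end conv

end

end Vale.Agent.P159.H764
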