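import Vale.Agent.P159.H552.Tl4
import Vale.Agent.P159.H253.Sm1

/-!
P159 / S (helper764 for helper446): the even part of the energy of a dislocated vector `X + D`
with an auxiliary part `X`, in rough real backgrounds, pointwise.

* `EvG w M m x₀ X Y = (Gx X Y + Gx X (-Y)) / 2` : even part (letters of helper552's Tl4),
* `EvG_ge`, `EvG_cvx`, `EvG_exp_cvx` : lower bound, convexity in the real direction,
* `evq_pt` : the smeared Ginibre inequality with the base `X`,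
* `evq_lo`, `evq_two` : the price of the auxiliary part is inside.
-/

open scoped Matrix
open Finset MeasureTheory

set_option linter.unusedSectionVars false

namespace Vale.Agent.P159.H764.Evq

open Vale.Agent.P159.TM.H104 (EM)
open Vale.Agent.P159.H37
open Vale.Agent.P159.H770 (GWF)
open Vale.Agent.P159.H963 (pin ntr nM MF An)
open Vale.Agent.P159.H883
open Vale.Agent.P159.H552.Sm

noncomputable section

variable {B V : Type} [AddCommGroup B] [Fintype V] [DecidableEq V] [Nonempty V]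
variable {w : B → (V → ℤ) → ℝ} {M : Matrix V V ℝ} {m : ℝ} {x₀ : V}

/-- the even part of the energy in the real direction -/
def EvG (w : B → (V → ℤ) → ℝ) (M : Matrix V V ℝ) (m : ℝ) (x₀ : V) (X : B × (V → ℝ))
    (Y : V → ℝ) : ℝ := (Gx w M m x₀ X Y + Gx w M m x₀ X (-Y)) / 2

lemma EvG_neg (X : B × (V → ℝ)) (Y : V → ℝ) : EvG w M m x₀ X (-Y) = EvG w M m x₀ X Y := by
  unfold EvG
  rw [neg_neg, add_comm]

lemma EvG_zero (X : B × (V → ℝ)) : EvG w M m x₀ X 0 = Gx w M m x₀ X 0 := by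
  unfold EvG
  rw [neg_zero]
  ring

/-- the even part is above its value at zero -/
theorem EvG_ge (hw : GWF w) (hM : MF M m) (X : B × (V → ℝ)) (Y : V → ℝ) :
    Gx w M m x₀ X 0 ≤ EvG w M m x₀ X Y := by
  have h := (eng_neu (x₀ := x₀) hw hM).sym_ge (X, 0) Y
  have e1 : ((X, (0 : V → ℝ)) : (B × (V → ℝ)) × (V → ℝ)) + rP B V Y = (X, Y) := by
    rw [rP_apply]
    simp
  have e2 : ((X, (0 : V → ℝ)) : (B × (V → ℝ)) × (V → ℝ)) - rP B V Y = (X, -Y) := by
    rw [rP_apply]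
    simp
  rw [e1, e2] at h
  unfold EvG Gx
  linarith

/-- convexity of `Gx` in the real direction -/
theorem Gx_cvx (hw : GWF w) (hM : MF M m) (X : B × (V → ℝ)) :
    ConvexOn ℝ Set.univ (Gx w M m x₀ X) := by
  have h := (eng_neu (x₀ := x₀) hw hM).cvx (X, 0)
  have e : (fun F => gP w M m x₀ (((X, (0 : V → ℝ)) : (B × (V → ℝ)) × (V → ℝ)) + rP B V F)) =
      Gx w M m x₀ X := by
    funext F
    have e1 : ((X, (0 : V → ℝ)) : (B × (V → ℝ)) × (V → ℝ)) + rP B V F = (X, F) := by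
      rw [rP_apply]
      simp
    rw [e1]
    rfl
  rwa [e] at h

theorem EvG_cvx (hw : GWF w) (hM : MF M m) (X : B × (V → ℝ)) :
    ConvexOn ℝ Set.univ (EvG w M m x₀ X) := by
  have h := Gx_cvx (x₀ := x₀) hw hM X
  refine ⟨convex_univ, fun F _ H _ a b ha hb hab => ?_⟩
  have h1 := h.2 (Set.mem_univ F) (Set.mem_univ H) ha hb hab
  have h2 := h.2 (Set.mem_univ (-F)) (Set.mem_univ (-H)) ha hb hab
  have e : a • -F + b • -H = -(a • F + b • H) := by module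
  rw [e] at h2
  simp only [smul_eq_mul] at h1 h2 ⊢
  unfold EvG
  nlinarith

theorem EvG_exp_cvx (hw : GWF w) (hM : MF M m) (X : B × (V → ℝ)) {c : ℝ} (hc : 0 ≤ c) :
    ConvexOn ℝ Set.univ fun Y => Real.exp (c * EvG w M m x₀ X Y) := by
  have h := EvG_cvx (x₀ := x₀) hw hM X
  refine ⟨convex_univ, fun F _ H _ a b ha hb hab => ?_⟩
  have h1 := h.2 (Set.mem_univ F) (Set.mem_univ H) ha hb hab
  simp only [smul_eq_mul] at h1 ⊢
  have h2 := convexOn_exp.2 (Set.mem_univ (c * EvG w M m x₀ X F))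
    (Set.mem_univ (c * EvG w M m x₀ X H)) ha hb hab
  simp only [smul_eq_mul] at h2
  refine le_trans (Real.exp_le_exp.2 ?_) h2
  have h3 := mul_le_mul_of_nonneg_left h1 hc
  linarith

/-- Jensen for the exponential of the even part -/
theorem EvG_jensen (hw : GWF w) (hM : MF M m) (X : B × (V → ℝ)) {c : ℝ} (hc : 0 ≤ c)
    {ι : Type*} [Fintype ι] {p : ι → ℝ} (hp : ∀ v, 0 ≤ p v) (hp1 : ∑ v, p v = 1)
    (Y : ι → V → ℝ) :
    Real.exp (c * EvG w M m x₀ X (∑ v, p v • Y v)) ≤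
      ∑ v, p v * Real.exp (c * EvG w M m x₀ X (Y v)) := by
  have h := (EvG_exp_cvx (x₀ := x₀) hw hM X hc).map_sum_le (t := Finset.univ) (w := p) (p := Y)
    (fun v _ => hp v) hp1 (fun v _ => Set.mem_univ _)
  simpa only [smul_eq_mul] using h

variable {ι : Type*} [Fintype ι]

/-- the double average with the base `X`, at the zero background -/
def SB0 (w : B → (V → ℤ) → ℝ) (M : Matrix V V ℝ) (X : B × (V → ℝ)) (p : ι → ℝ)
    (d : ι → B × (V → ℝ)) : ℝ :=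
  ∑ u, ∑ v, p u * p v * (Px w M (X + (d u + d v)) 0 * Px w M (d u - d v) 0)

/-- the double average with the base `X`, massless means -/
def SB (w : B → (V → ℤ) → ℝ) (x₀ : V) (X : B × (V → ℝ)) (p : ι → ℝ)
    (d : ι → B × (V → ℝ)) : ℝ :=
  ∑ u, ∑ v, p u * p v * (CX w x₀ (X + (d u + d v)) * CX w x₀ (d u - d v))

lemma SB0_nonneg (hw : GWF w) (hM : MF M m) {p : ι → ℝ} (hp : ∀ u, 0 ≤ p u)
    (X : B × (V → ℝ)) (d : ι → B × (V → ℝ)) : 0 ≤ SB0 w M X p d :=
  Finset.sum_nonneg fun u _ => Finset.sum_nonneg fun v _ =>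
    mul_nonneg (mul_nonneg (hp u) (hp v)) (mul_pos (Px_pos hw hM _ _) (Px_pos hw hM _ _)).le

lemma SB_nonneg (hw : GWF w) (hE : ∀ b x₀, EM (pin (w b) x₀)) {p : ι → ℝ}
    (hp : ∀ u, 0 ≤ p u) (X : B × (V → ℝ)) (d : ι → B × (V → ℝ)) : 0 ≤ SB w x₀ X p d :=
  Finset.sum_nonneg fun u _ => Finset.sum_nonneg fun v _ =>
    mul_nonneg (mul_nonneg (hp u) (hp v)) (mul_pos (CX_pos hw hE x₀ _) (CX_pos hw hE x₀ _)).le

lemma SB0_le (hw : GWF w) (hE : ∀ b x₀, EM (pin (w b) x₀)) (hM : MF M m) (x₀ : V) {p : ι → ℝ}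
    (hp : ∀ u, 0 ≤ p u) (X : B × (V → ℝ)) (d : ι → B × (V → ℝ)) :
    SB0 w M X p d ≤ SB w x₀ X p d := by
  refine Finset.sum_le_sum fun u _ => Finset.sum_le_sum fun v _ => ?_
  refine mul_le_mul_of_nonneg_left ?_ (mul_nonneg (hp u) (hp v))
  exact mul_le_mul (Px_le hw hE hM x₀ _) (Px_le hw hE hM x₀ _) (Px_pos hw hM _ _).le
    (CX_pos hw hE x₀ _).le

/-- the smeared Ginibre inequality with a base, one sign -/
theorem ev_one (hw : GWF w) (hM : MF M m) (x₀ : V) (X : B × (V → ℝ)) (p : ι → ℝ)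
    (d : ι → B × (V → ℝ)) (Y : V → ℝ) :
    (∑ u, p u * Real.exp (Gx w M m x₀ (X + d u) Y + Gx w M m x₀ (d u) (-Y))) ^ 2 ≤
      SB0 w M X p d * Real.exp (Gx w M m x₀ X ((2 : ℝ) • Y)) := by
  have h := H253.Sm.smB hw hM X (Finset.univ : Finset ι) p d (Finset.univ : Finset Unit)
    (fun _ => 1) fun _ => ((0, Y) : B × (V → ℝ))
  have hZ : ∀ q : B × (V → ℝ), H253.Sm.ZQ w M q = ZG w M q := fun q => rfl
  simp only [hZ, Finset.univ_unique, Finset.sum_singleton, mul_one, one_mul, sub_self] at h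
  have z0 := posZG hw hM (0 : B × (V → ℝ))
  set z := ZG w M 0 with hz
  set q := qf (An (w 0) M m x₀) Y with hq
  have eL : ∑ u, p u * Real.exp (Gx w M m x₀ (X + d u) Y + Gx w M m x₀ (d u) (-Y)) =
      (∑ u, p u * (ZG w M (X + (d u + (0, Y))) * ZG w M (d u - (0, Y)))) *
        (Real.exp q / z ^ 2) := by
    rw [Finset.sum_mul]
    refine Finset.sum_congr rfl fun u _ => ?_
    rw [Real.exp_add, exp_Gx hw hM, exp_Gx hw hM, qf_neg, ← hq, ← hz]
    have e1 : d u + ((0 : B), -Y) = d u - (0, Y) := by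
      ext <;> simp [sub_eq_add_neg]
    have e2 : Real.exp q = Real.exp (q / 2) * Real.exp (q / 2) := by
      rw [← Real.exp_add]; congr 1; ring
    rw [e1, e2, add_assoc]
    field_simp
  have eS : SB0 w M X p d = (∑ u, ∑ v, p u * p v * (ZG w M (X + (d u + d v)) *
      ZG w M (d u - d v))) / z ^ 2 := by
    unfold SB0
    rw [Finset.sum_div]
    refine Finset.sum_congr rfl fun u _ => ?_
    rw [Finset.sum_div]
    refine Finset.sum_congr rfl fun v _ => ?_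
    rw [Px_eq, Px_eq]
    have e0 : ((0 : B), (0 : V → ℝ)) = 0 := rfl
    rw [e0, add_zero, add_zero, ← hz]
    field_simp
  have eR : Real.exp (Gx w M m x₀ X ((2 : ℝ) • Y)) =
      ZG w M (X + ((0, Y) + (0, Y))) / z * Real.exp q ^ 2 := by
    rw [exp_Gx hw hM, ← hz, qf_smul, ← hq, ← Real.exp_nat_mul]
    have e1 : ((0 : B), Y) + (0, Y) = (0, (2 : ℝ) • Y) := by
      rw [two_smul]
      ext <;> simp
    rw [e1]
    congr 2
    push_cast
    ring
  rw [eL, mul_pow, eS, eR]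
  have hc : 0 ≤ (Real.exp q / z ^ 2) ^ 2 := sq_nonneg _
  calc (∑ u, p u * (ZG w M (X + (d u + (0, Y))) * ZG w M (d u - (0, Y)))) ^ 2 *
        (Real.exp q / z ^ 2) ^ 2 ≤ _ := mul_le_mul_of_nonneg_right h hc
    _ = _ := by field_simp

/-- one sign, as a bound of the sum -/
theorem ev_one' (hw : GWF w) (hE : ∀ b x₀, EM (pin (w b) x₀)) (hM : MF M m) (x₀ : V)
    (X : B × (V → ℝ)) {p : ι → ℝ} (hp : ∀ u, 0 ≤ p u) (d : ι → B × (V → ℝ)) (Y : V → ℝ) :
    ∑ u, p u * Real.exp (Gx w M m x₀ (X + d u) Y + Gx w M m x₀ (d u) (-Y)) ≤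
      Real.sqrt (SB w x₀ X p d) * Real.exp (Gx w M m x₀ X ((2 : ℝ) • Y) / 2) := by
  have h := (ev_one hw hM x₀ X p d Y).trans (mul_le_mul_of_nonneg_right
    (SB0_le hw hE hM x₀ hp X d) (Real.exp_pos _).le)
  have e : Real.sqrt (SB w x₀ X p d) * Real.exp (Gx w M m x₀ X ((2 : ℝ) • Y) / 2) =
      Real.sqrt (SB w x₀ X p d * Real.exp (Gx w M m x₀ X ((2 : ℝ) • Y))) := by
    rw [Real.sqrt_mul (SB_nonneg hw hE hp X d), ← Real.exp_half]
  rw [e]
  exact Real.le_sqrt_of_sq_le h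

/-- **(a)** the even part of `X + d u` and of `d u` against the even part of `X` -/
theorem evq_pt (hw : GWF w) (hE : ∀ b x₀, EM (pin (w b) x₀)) (hM : MF M m) (x₀ : V)
    (X : B × (V → ℝ)) {p : ι → ℝ} (hp : ∀ u, 0 ≤ p u) (d : ι → B × (V → ℝ)) (Y : V → ℝ) :
    ∑ u, p u * Real.exp (EvG w M m x₀ (X + d u) Y + EvG w M m x₀ (d u) Y) ≤
      Real.sqrt (SB w x₀ X p d) * Real.exp (EvG w M m x₀ X ((2 : ℝ) • Y) / 2) := by
  have h1 := ev_one' hw hE hM x₀ X hp d Y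
  have h2 := ev_one' hw hE hM x₀ X hp d (-Y)
  rw [neg_neg, smul_neg] at h2
  have hcs := Finset.sum_sq_le_sum_mul_sum_of_sq_le_mul (Finset.univ : Finset ι)
    (r := fun u => p u * Real.exp (EvG w M m x₀ (X + d u) Y + EvG w M m x₀ (d u) Y))
    (f := fun u => p u * Real.exp (Gx w M m x₀ (X + d u) Y + Gx w M m x₀ (d u) (-Y)))
    (g := fun u => p u * Real.exp (Gx w M m x₀ (X + d u) (-Y) + Gx w M m x₀ (d u) Y))
    (fun u _ => mul_nonneg (hp u) (Real.exp_pos _).le)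
    (fun u _ => mul_nonneg (hp u) (Real.exp_pos _).le) (fun u _ => by
      have e : Real.exp (EvG w M m x₀ (X + d u) Y + EvG w M m x₀ (d u) Y) ^ 2 =
          Real.exp (Gx w M m x₀ (X + d u) Y + Gx w M m x₀ (d u) (-Y)) *
            Real.exp (Gx w M m x₀ (X + d u) (-Y) + Gx w M m x₀ (d u) Y) := by
        rw [← Real.exp_nat_mul, ← Real.exp_add]
        congr 1
        unfold EvG
        push_cast
        ring
      rw [mul_pow, e]
      exact le_of_eq (by ring))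
  have hA : 0 ≤ ∑ u, p u * Real.exp (Gx w M m x₀ (X + d u) (-Y) + Gx w M m x₀ (d u) Y) :=
    Finset.sum_nonneg fun u _ => mul_nonneg (hp u) (Real.exp_pos _).le
  have hS := SB_nonneg (x₀ := x₀) hw hE hp X d
  have h3 : (∑ u, p u * Real.exp (EvG w M m x₀ (X + d u) Y + EvG w M m x₀ (d u) Y)) ^ 2 ≤
      SB w x₀ X p d * Real.exp (EvG w M m x₀ X ((2 : ℝ) • Y)) := by
    refine hcs.trans ((mul_le_mul h1 h2 hA (by positivity)).trans (le_of_eq ?_))
    have e : Real.exp (EvG w M m x₀ X ((2 : ℝ) • Y)) =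
        Real.exp (Gx w M m x₀ X ((2 : ℝ) • Y) / 2) *
          Real.exp (Gx w M m x₀ X (-((2 : ℝ) • Y)) / 2) := by
      rw [← Real.exp_add]
      congr 1
      unfold EvG
      ring
    rw [e]
    nth_rewrite 3 [← Real.mul_self_sqrt hS]
    ring
  have e : Real.sqrt (SB w x₀ X p d) * Real.exp (EvG w M m x₀ X ((2 : ℝ) • Y) / 2) =
      Real.sqrt (SB w x₀ X p d * Real.exp (EvG w M m x₀ X ((2 : ℝ) • Y))) := by
    rw [Real.sqrt_mul hS, ← Real.exp_half]
  rw [e]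
  exact Real.le_sqrt_of_sq_le h3

/-- **(b)** with a lower bound of the values at zero -/
theorem evq_lo (hw : GWF w) (hE : ∀ b x₀, EM (pin (w b) x₀)) (hM : MF M m) (x₀ : V)
    (X : B × (V → ℝ)) {p : ι → ℝ} (hp : ∀ u, 0 ≤ p u) (d : ι → B × (V → ℝ)) {g0 : ℝ}
    (hg : ∀ u, g0 ≤ Gx w M m x₀ (d u) 0) (Y : V → ℝ) :
    ∑ u, p u * Real.exp (EvG w M m x₀ (X + d u) Y) ≤
      Real.exp (-g0) * Real.sqrt (SB w x₀ X p d) *
        Real.exp (EvG w M m x₀ X ((2 : ℝ) • Y) / 2) := by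
  have h := evq_pt hw hE hM x₀ X hp d Y
  have h1 : ∑ u, p u * Real.exp (EvG w M m x₀ (X + d u) Y) ≤ Real.exp (-g0) *
      ∑ u, p u * Real.exp (EvG w M m x₀ (X + d u) Y + EvG w M m x₀ (d u) Y) := by
    rw [Finset.mul_sum]
    refine Finset.sum_le_sum fun u _ => ?_
    have e : Real.exp (-g0) * (p u * Real.exp (EvG w M m x₀ (X + d u) Y +
        EvG w M m x₀ (d u) Y)) = p u * Real.exp (EvG w M m x₀ (X + d u) Y +
          (EvG w M m x₀ (d u) Y - g0)) := by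
      rw [mul_left_comm, ← Real.exp_add]
      congr 2
      ring
    rw [e]
    refine mul_le_mul_of_nonneg_left (Real.exp_le_exp.2 ?_) (hp u)
    have h2 := EvG_ge (x₀ := x₀) hw hM (d u) Y
    have h3 := hg u
    linarith
  refine h1.trans ?_
  rw [mul_assoc]
  exact mul_le_mul_of_nonneg_left h (Real.exp_pos _).le

/-- fourth root of an average -/
lemma avg_four {κ : Type*} [Fintype κ] {r : κ → ℝ} (hr : ∀ k, 0 ≤ r k) (hr1 : ∑ k, r k = 1)
    {y : κ → ℝ} {S : ℝ} (h : ∑ k, r k * Real.exp (2 * y k) ≤ S) :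
    ∑ k, r k * Real.exp (y k / 2) ≤ S ^ (1 / 4 : ℝ) := by
  have h1 := Real.pow_arith_mean_le_arith_mean_pow (Finset.univ : Finset κ) r
    (fun k => Real.exp (y k / 2)) (fun k _ => hr k) hr1 (fun k _ => (Real.exp_pos _).le) 4
  have e : ∀ k, Real.exp (y k / 2) ^ 4 = Real.exp (2 * y k) := by
    intro k
    rw [← Real.exp_nat_mul]
    congr 1
    push_cast
    ring
  simp only [e] at h1
  have h2 := h1.trans h
  have h0 : 0 ≤ ∑ k, r k * Real.exp (y k / 2) :=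
    Finset.sum_nonneg fun k _ => mul_nonneg (hr k) (Real.exp_pos _).le
  have h3 := Real.rpow_le_rpow (by positivity) h2 (by norm_num : (0 : ℝ) ≤ 1 / 4)
  refine le_trans (le_of_eq ?_) h3
  rw [← Real.rpow_natCast, ← Real.rpow_mul h0]
  norm_num

/-- **(c)** auxiliary positions `a k` with weights `r k`: only `R (4 Y)` enters -/
theorem evq_two {κ : Type*} [Fintype κ] (hw : GWF w) (hE : ∀ b x₀, EM (pin (w b) x₀))
    (hM : MF M m) (x₀ : V) {p : ι → ℝ} (hp : ∀ u, 0 ≤ p u) (d : ι → B × (V → ℝ)) {g0 : ℝ}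
    (hg : ∀ u, g0 ≤ Gx w M m x₀ (d u) 0) {r : κ → ℝ} (hr : ∀ k, 0 ≤ r k) (hr1 : ∑ k, r k = 1)
    (a : κ → B × (V → ℝ)) {S1 S2 : ℝ} (hS1 : ∀ k, SB w x₀ (a k) p d ≤ S1)
    (hS2 : SS w x₀ r a ≤ S2) (Y : V → ℝ) :
    ∑ k, r k * ∑ u, p u * Real.exp (EvG w M m x₀ (a k + d u) Y) ≤
      Real.exp (-g0) * Real.sqrt S1 *
        (Real.sqrt S2 * Real.exp (Rw w M m x₀ ((4 : ℝ) • Y) / 2)) ^ (1 / 4 : ℝ) := by
  have h1 : ∑ k, r k * ∑ u, p u * Real.exp (EvG w M m x₀ (a k + d u) Y) ≤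
      Real.exp (-g0) * Real.sqrt S1 *
        ∑ k, r k * Real.exp (EvG w M m x₀ (a k) ((2 : ℝ) • Y) / 2) := by
    rw [Finset.mul_sum]
    refine Finset.sum_le_sum fun k _ => ?_
    have h2 := evq_lo hw hE hM x₀ (a k) hp d hg Y
    have h3 : Real.exp (-g0) * Real.sqrt (SB w x₀ (a k) p d) *
        Real.exp (EvG w M m x₀ (a k) ((2 : ℝ) • Y) / 2) ≤
        Real.exp (-g0) * Real.sqrt S1 * Real.exp (EvG w M m x₀ (a k) ((2 : ℝ) • Y) / 2) := by
      refine mul_le_mul_of_nonneg_right ?_ (Real.exp_pos _).le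
      exact mul_le_mul_of_nonneg_left (Real.sqrt_le_sqrt (hS1 k)) (Real.exp_pos _).le
    calc r k * ∑ u, p u * Real.exp (EvG w M m x₀ (a k + d u) Y)
        ≤ r k * (Real.exp (-g0) * Real.sqrt S1 *
            Real.exp (EvG w M m x₀ (a k) ((2 : ℝ) • Y) / 2)) :=
          mul_le_mul_of_nonneg_left (h2.trans h3) (hr k)
      _ = _ := by ring
  refine h1.trans (mul_le_mul_of_nonneg_left ?_ (by positivity))
  refine avg_four hr hr1 ?_
  have h4 := sm_pt' hw hE hM x₀ hr a ((2 : ℝ) • Y)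
  have e1 : (2 : ℝ) • (2 : ℝ) • Y = (4 : ℝ) • Y := by rw [smul_smul]; norm_num
  rw [e1] at h4
  have e2 : ∀ k, 2 * EvG w M m x₀ (a k) ((2 : ℝ) • Y) =
      Gx w M m x₀ (a k) ((2 : ℝ) • Y) + Gx w M m x₀ (a k) (-((2 : ℝ) • Y)) := by
    intro k
    unfold EvG
    ring
  simp only [e2]
  exact h4.trans (mul_le_mul_of_nonneg_right (Real.sqrt_le_sqrt hS2) (Real.exp_pos _).le)

end

end Vale.Agent.P159.H764.Evq
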