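import Vale.Agent.P159.H764.ConvG
import Vale.Agent.P159.H37.Spec0L

/-!
P159 / near-convexity in every background, part 2 (helper764): the half step. The partition
function of mass `t` in the background `F` is the Gaussian convolution of that of mass `2 t`.
-/

namespace Vale.Agent.P159.H764

open MeasureTheory ProbabilityTheory Finset
open Vale.Agent.P159.H37 (gau gau_shift gau_exp_mul integrable_exp_norm)
open Vale.Agent.P159.TM.H870 (gr Zr lin)
open Vale.Agent.P159.TM.H104 (EM Ex Cv Lg li nh Gr ddU dU U Cf)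

noncomputable section

/-! ### one site -/

lemma one_site {t : ℝ} (ht : 0 < t) (y : ℝ) :
    ∫ z, Real.exp (-(t * (y - Real.sqrt (1 / (2 * t)) * z) ^ 2)) ∂(gaussianReal 0 1) =
      (Real.sqrt 2)⁻¹ * Real.exp (-(t / 2 * y ^ 2)) := by
  set a := Real.sqrt (1 / (2 * t)) with ha
  have ha2 : a ^ 2 = 1 / (2 * t) := Real.sq_sqrt (by positivity)
  have hta : t * a ^ 2 = 1 / 2 := by rw [ha2]; field_simp
  rw [integral_gaussianReal_eq_integral_smul one_ne_zero]
  have e1 : ∀ z : ℝ, gaussianPDFReal 0 1 z • Real.exp (-(t * (y - a * z) ^ 2)) =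
      ((Real.sqrt (2 * Real.pi))⁻¹ * Real.exp (-(t / 2 * y ^ 2))) *
        Real.exp (-1 * (z - t * a * y) ^ 2) := by
    intro z
    unfold gaussianPDFReal
    simp only [NNReal.coe_one, mul_one, sub_zero, smul_eq_mul]
    rw [mul_assoc, mul_assoc, ← Real.exp_add, ← Real.exp_add]
    congr 2
    have h1 : t * (y - a * z) ^ 2 = t * y ^ 2 - 2 * (t * a * y) * z + (t * a ^ 2) * z ^ 2 := by ring
    have h2 : -1 * (z - t * a * y) ^ 2 =
      -z ^ 2 + 2 * (t * a * y) * z - t * (t * a ^ 2) * y ^ 2 := by ring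
    rw [h1, h2, hta]
    ring
  simp_rw [e1]
  rw [integral_const_mul, integral_sub_right_eq_self (fun z => Real.exp (-1 * z ^ 2)),
    integral_gaussian, div_one]
  have hs : Real.sqrt (2 * Real.pi) = Real.sqrt 2 * Real.sqrt Real.pi :=
    Real.sqrt_mul (by norm_num) _
  rw [hs]
  have hp : Real.sqrt Real.pi ≠ 0 := (Real.sqrt_pos.2 Real.pi_pos).ne'
  have h2 : Real.sqrt 2 ≠ 0 := (Real.sqrt_pos.2 (by norm_num)).ne'
  field_simp

/-- uniform bound of a one-dimensional Gaussian sum -/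
lemma one_site_sum {a : ℝ} (ha : 0 < a) (x : ℝ) :
    ∑' k : ℤ, Real.exp (-(a * ((k : ℝ) - x) ^ 2)) ≤
      ∑' k : ℤ, Real.exp a * Real.exp (-(a / 2 * ((k : ℝ) - 0) ^ 2)) := by
  have h0 : ∑' k : ℤ, Real.exp (-(a * ((k : ℝ) - x) ^ 2)) =
      ∑' k : ℤ, Real.exp (-(a * ((k : ℝ) - Int.fract x) ^ 2)) := by
    rw [← (Equiv.addRight ⌊x⌋).tsum_eq (fun k : ℤ => Real.exp (-(a * ((k : ℝ) - x) ^ 2)))]
    refine tsum_congr fun k => ?_
    congr 4
    simp only [Equiv.coe_addRight, Int.cast_add]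
    have := Int.floor_add_fract x
    linarith
  rw [h0]
  refine Summable.tsum_le_tsum (fun k => ?_) (TM.H870.summable_gauss ha _)
    ((TM.H870.summable_gauss (half_pos ha) 0).mul_left _)
  rw [← Real.exp_add]
  refine Real.exp_le_exp.2 ?_
  have h1 := Int.fract_nonneg x
  have h2 := (Int.fract_lt_one x).le
  have h3 : Int.fract x ^ 2 ≤ 1 := by nlinarith
  nlinarith [mul_nonneg ha.le (sq_nonneg ((k : ℝ) - 2 * Int.fract x)),
    mul_le_mul_of_nonneg_left h3 ha.le]

section model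

variable {V : Type*} [Fintype V] {w : (V → ℤ) → ℝ} {Wb : ℝ}

/-- sum of products -/
lemma tsum_prod_le {g : V → ℤ → ℝ} (h0 : ∀ x k, 0 ≤ g x k) (hg : ∀ x, Summable (g x)) :
    ∑' h : V → ℤ, ∏ x, g x (h x) ≤ ∏ x, ∑' k, g x k := by
  classical
  refine Real.tsum_le_of_sum_le (fun h => Finset.prod_nonneg fun x _ => h0 x _) fun u => ?_
  calc ∑ h ∈ u, ∏ x, g x (h x)
      ≤ ∑ h ∈ Fintype.piFinset fun x => u.image fun h => h x, ∏ x, g x (h x) := by
        refine Finset.sum_le_sum_of_subset_of_nonneg ?_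
          fun h _ _ => Finset.prod_nonneg fun x _ => h0 x _
        intro h hh
        rw [Fintype.mem_piFinset]
        exact fun x => Finset.mem_image_of_mem _ hh
    _ = ∏ x, ∑ k ∈ u.image fun h => h x, g x k := (Finset.prod_univ_sum _ _).symm
    _ ≤ ∏ x, ∑' k, g x k := by
        refine Finset.prod_le_prod (fun x _ => Finset.sum_nonneg fun k _ => h0 x k) fun x _ => ?_
        exact (hg x).sum_le_tsum _ fun k _ => h0 x k

/-- constant mass -/
abbrev cm (t : ℝ) : V → ℝ := fun _ => t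

lemma gr_prod (t : ℝ) (h : V → ℤ) (F : V → ℝ) :
    gr (cm t) h F = ∏ x, Real.exp (-(t / 2 * ((h x : ℝ) - F x) ^ 2)) := by
  unfold gr
  rw [← Real.exp_sum, Finset.sum_neg_distrib]

/-- one term of the half step -/
lemma gr_half {t : ℝ} (ht : 0 < t) (h : V → ℤ) (F : V → ℝ) :
    ∫ z, gr (cm (2 * t)) h (F + Real.sqrt (1 / (2 * t)) • z) ∂(gau V) =
      ((Real.sqrt 2)⁻¹) ^ (Fintype.card V) * gr (cm t) h F := by
  unfold gau
  have e : ∀ z : V → ℝ, gr (cm (2 * t)) h (F + Real.sqrt (1 / (2 * t)) • z) =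
      ∏ x, Real.exp (-(t * (((h x : ℝ) - F x) - Real.sqrt (1 / (2 * t)) * z x) ^ 2)) := by
    intro z
    rw [gr_prod]
    refine Finset.prod_congr rfl fun x _ => ?_
    simp only [Pi.add_apply, Pi.smul_apply, smul_eq_mul]
    congr 2
    ring
  simp_rw [e]
  rw [integral_fintype_prod_eq_prod (𝕜 := ℝ)
    (f := fun (x : V) (z : ℝ) =>
      Real.exp (-(t * (((h x : ℝ) - F x) - Real.sqrt (1 / (2 * t)) * z) ^ 2)))]
  simp_rw [one_site ht]
  rw [Finset.prod_mul_distrib, Finset.prod_const, Finset.card_univ, gr_prod]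

variable (hw0 : ∀ h, 0 ≤ w h) (hwb : ∀ h, w h ≤ Wb) (hp : ∃ h, 0 < w h)

include hw0 hwb

omit [Fintype V] in
lemma Wb_nonneg' : 0 ≤ Wb := (hw0 0).trans (hwb 0)

/-- the partition function is bounded uniformly in the background -/
lemma Zr_bdd {t : ℝ} (ht : 0 < t) : ∃ B : ℝ, ∀ F : V → ℝ, Zr w (cm t) F ≤ B := by
  classical
  refine ⟨Wb * ∏ _x : V, ∑' k : ℤ, Real.exp (t / 2) * Real.exp (-(t / 2 / 2 * ((k : ℝ) - 0) ^ 2)),
    fun F => ?_⟩
  have hs : Summable fun h : V → ℤ => gr (cm t) h F :=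
    TM.H870.summable_gr (m := cm t) (fun _ => ht) F
  have h1 : Zr w (cm t) F ≤ ∑' h : V → ℤ, Wb * gr (cm t) h F := by
    unfold Zr
    exact Summable.tsum_le_tsum (fun h => mul_le_mul_of_nonneg_right (hwb h) (TM.H870.gr_pos _ _ _).le)
      (TM.H870.summable_wgr (fun _ => ht) hw0 hwb F) (hs.mul_left Wb)
  refine h1.trans ?_
  rw [tsum_mul_left]
  refine mul_le_mul_of_nonneg_left ?_ (Wb_nonneg' hw0 hwb)
  have h2 : ∑' h : V → ℤ, gr (cm t) h F ≤
      ∏ x, ∑' k : ℤ, Real.exp (-(t / 2 * ((k : ℝ) - F x) ^ 2)) := by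
    simp_rw [gr_prod]
    exact tsum_prod_le (g := fun (x : V) (k : ℤ) => Real.exp (-(t / 2 * ((k : ℝ) - F x) ^ 2)))
      (fun x k => (Real.exp_pos _).le) fun x => TM.H870.summable_gauss (half_pos ht) (F x)
  refine h2.trans ?_
  exact Finset.prod_le_prod (fun x _ => tsum_nonneg fun k => (Real.exp_pos _).le)
    fun x _ => one_site_sum (half_pos ht) (F x)

include hp

lemma continuous_Zr {t : ℝ} (ht : 0 < t) : Continuous fun F : V → ℝ => Zr w (cm t) F := by
  have hμ := TM.H104.em_bw (m := cm t) (fun _ => ht) hw0 hwb hp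
  have e : (fun F : V → ℝ => Zr w (cm t) F) = fun F => Real.exp (-TM.H104.me (cm t) F) *
      TM.H104.T (TM.H104.bw w (cm t)) (TM.H104.mf (cm t) F) fun _ => 1 := by
    funext F
    exact TM.H104.Zr_eq w (cm t) F
  rw [e]
  refine Continuous.mul ?_ ((TM.H104.continuous_T hμ (Gr.const 1)).comp ?_)
  · unfold TM.H104.me
    exact Real.continuous_exp.comp (continuous_finsetSum _ fun x _ =>
      continuous_const.mul ((continuous_apply x).pow 2)).neg
  · unfold TM.H104.mf
    exact continuous_pi fun x => continuous_const.mul (continuous_apply x)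

lemma bp_Zr {t : ℝ} (ht : 0 < t) : BP fun F : V → ℝ => Zr w (cm t) F where
  meas := (continuous_Zr hw0 hwb hp ht).measurable
  pos := fun F => TM.H104.Zr_pos (fun _ => ht) hw0 hwb hp F
  bdd := Zr_bdd hw0 hwb ht

omit hp in
/-- **the half step** -/
theorem PA_Zr {t : ℝ} (ht : 0 < t) (F : V → ℝ) :
    PA (Real.sqrt (1 / (2 * t))) (fun F => Zr w (cm (2 * t)) F) F =
      ((Real.sqrt 2)⁻¹) ^ (Fintype.card V) * Zr w (cm t) F := by
  classical
  unfold PA
  set a := Real.sqrt (1 / (2 * t)) with ha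
  have hint : ∀ h : V → ℤ, Integrable (fun z : V → ℝ => w h * gr (cm (2 * t)) h (F + a • z))
      (gau V) := by
    intro h
    refine Integrable.const_mul ?_ _
    refine Integrable.mono' (integrable_const (1 : ℝ)) ?_ (Filter.Eventually.of_forall fun z => ?_)
    · refine Measurable.aestronglyMeasurable ?_
      unfold gr
      fun_prop
    · rw [Real.norm_eq_abs, abs_of_pos (TM.H870.gr_pos _ _ _)]
      unfold gr
      rw [Real.exp_le_one_iff, neg_nonpos]
      exact Finset.sum_nonneg fun x _ => mul_nonneg (by positivity) (sq_nonneg _)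
  have hterm : ∀ h : V → ℤ, ∫ z, w h * gr (cm (2 * t)) h (F + a • z) ∂(gau V) =
      ((Real.sqrt 2)⁻¹) ^ (Fintype.card V) * (w h * gr (cm t) h F) := by
    intro h
    rw [integral_const_mul, gr_half ht]
    ring
  have hnorm : ∀ h : V → ℤ, ∫ z, ‖w h * gr (cm (2 * t)) h (F + a • z)‖ ∂(gau V) =
      ((Real.sqrt 2)⁻¹) ^ (Fintype.card V) * (w h * gr (cm t) h F) := by
    intro h
    rw [← hterm h]
    refine integral_congr_ae (Filter.Eventually.of_forall fun z => ?_)
    simp only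
    rw [Real.norm_eq_abs, abs_of_nonneg (mul_nonneg (hw0 h) (TM.H870.gr_pos _ _ _).le)]
  have hsum : Summable fun h : V → ℤ => ∫ z, ‖w h * gr (cm (2 * t)) h (F + a • z)‖ ∂(gau V) := by
    simp_rw [hnorm]
    exact (TM.H870.summable_wgr (fun _ => ht) hw0 hwb F).mul_left _
  have h1 := hasSum_integral_of_summable_integral_norm hint hsum
  simp_rw [hterm] at h1
  have h2 := ((TM.H870.summable_wgr (m := cm t) (fun _ => ht) hw0 hwb F).hasSum.mul_left
    (((Real.sqrt 2)⁻¹) ^ (Fintype.card V)))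
  have h3 := h1.unique h2
  exact h3

end model

end

end Vale.Agent.P159.H764
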