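import Vale.Agent.P159.H764.Half

/-!
P159 / near-convexity in every background, abstract form (helper764). `Z`, `N` bounded positive
functions on `I → ℝ` (partition functions at the doubled mass as functions of the observed field),
`|Z - N| ≤ ω N`, `N` invariant in the direction `ρ`, and the second derivative of `- log (Z * G)`,
`G` = Gaussian of variance `a ^ 2`, averaged over the direction `ρ`, nonnegative. Then the second
derivatives of `- log (Z * G)` and `- log (N * G)` are bounded below by `- C ω / a ^ 2` everywhere.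
-/

namespace Vale.Agent.P159.H764

open MeasureTheory ProbabilityTheory Finset
open Vale.Agent.P159.H37 (gau)

noncomputable section

variable {I : Type*} [Fintype I]

/-- second derivative of `- log (PA a W)` at `f` in the direction `g` -/
def hs (a : ℝ) (W : (I → ℝ) → ℝ) (f g : I → ℝ) : ℝ :=
  ((∑ i, g i ^ 2) - vrW (gau I) (fun z => W (f + a • z)) (lz g)) / a ^ 2

/-- first derivative of `- log (PA a W)` at `f` in the direction `g` -/
def d1 (a : ℝ) (W : (I → ℝ) → ℝ) (f g : I → ℝ) : ℝ := -dP a W f g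

theorem hasDerivAt_d0 {a : ℝ} {W : (I → ℝ) → ℝ} (hW : BP W) (ha : a ≠ 0) (f g : I → ℝ) (s : ℝ) :
    HasDerivAt (fun s : ℝ => -Real.log (PA a W (f + s • g))) (d1 a W (f + s • g) g) s :=
  (hasDerivAt_logPA hW ha f g s).neg

theorem hasDerivAt_d1 {a : ℝ} {W : (I → ℝ) → ℝ} (hW : BP W) (ha : a ≠ 0) (f g : I → ℝ) (s : ℝ) :
    HasDerivAt (fun s : ℝ => d1 a W (f + s • g) g) (hs a W (f + s • g) g) s := by
  have h2 := (hasDerivAt_dP hW ha (f + s • g) g).neg
  have h1 : HasDerivAt (fun σ : ℝ => σ - s) 1 s := (hasDerivAt_id s).sub_const s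
  rw [← sub_self s] at h2
  have h3 := HasDerivAt.comp (h := fun σ : ℝ => σ - s) s h2 h1
  refine (h3.congr_of_eventuallyEq (Filter.Eventually.of_forall fun σ => ?_)).congr_deriv ?_
  · simp only [Function.comp_apply, d1]
    congr 2
    rw [add_assoc, ← add_smul]
    congr 2
    ring
  · unfold hs
    field_simp
    ring

/-- data of the abstract near-convexity -/
structure NA (a : ℝ) (Z N : (I → ℝ) → ℝ) (ρ : I → ℝ) (ω : ℝ) : Prop where
  a0 : 0 < a
  bz : BP Z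
  bn : BP N
  ω0 : 0 ≤ ω
  ω1 : ω < 1
  cmp : ∀ f, |Z f - N f| ≤ ω * N f
  inv : ∀ (f : I → ℝ) (c : ℝ), N (f + c • ρ) = N f
  cont : ∀ f g : I → ℝ, Continuous fun c : ℝ => hs a Z (f + c • ρ) g
  dir : ∀ f g : I → ℝ, 0 ≤ ∫ c in (0 : ℝ)..1, hs a Z (f + c • ρ) g

variable {a ω : ℝ} {Z N : (I → ℝ) → ℝ} {ρ : I → ℝ}

lemma NA.vZ_le (h : NA a Z N ρ ω) (f g : I → ℝ) :
    vrW (gau I) (fun z => Z (f + a • z)) (lz g) ≤
      (1 + ω) / (1 - ω) * vrW (gau I) (fun z => N (f + a • z)) (lz g) := by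
  refine vrW_comp (by linarith [h.ω1]) (h.bz.int0 _ f) (h.bz.int1 _ f g) (h.bz.int2 _ f g)
    (h.bn.int0 _ f) (h.bn.int1 _ f g) (h.bn.int2 _ f g) (h.bn.PA_pos _ f)
    (fun z => (h.bn.pos _).le) (fun z => ?_) fun z => ?_
  · have := abs_le.1 (h.cmp (f + a • z))
    linarith [this.1]
  · have := abs_le.1 (h.cmp (f + a • z))
    linarith [this.2]

lemma NA.vN_le (h : NA a Z N ρ ω) (f g : I → ℝ) :
    vrW (gau I) (fun z => N (f + a • z)) (lz g) ≤
      (1 + ω) / (1 - ω) * vrW (gau I) (fun z => Z (f + a • z)) (lz g) := by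
  have h1 : 0 < 1 - ω := by linarith [h.ω1]
  have h2 : 0 < 1 + ω := by linarith [h.ω0]
  have key := vrW_comp (P := gau I) (a := (1 + ω)⁻¹) (b := (1 - ω)⁻¹) (inv_pos.2 h2)
    (h.bn.int0 a f) (h.bn.int1 a f g) (h.bn.int2 a f g)
    (h.bz.int0 a f) (h.bz.int1 a f g) (h.bz.int2 a f g) (h.bz.PA_pos a f)
    (fun z => (h.bz.pos _).le) (fun z => ?_) fun z => ?_
  · have e : (1 - ω)⁻¹ / (1 + ω)⁻¹ = (1 + ω) / (1 - ω) := by
      field_simp
    rw [e] at key
    exact key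
  · have := abs_le.1 (h.cmp (f + a • z))
    rw [inv_mul_le_iff₀ h2]
    linarith [this.2]
  · have := abs_le.1 (h.cmp (f + a • z))
    rw [le_inv_mul_iff₀ h1]
    linarith [this.1]

lemma NA.vN_shift (h : NA a Z N ρ ω) (f g : I → ℝ) (c : ℝ) :
    vrW (gau I) (fun z => N (f + c • ρ + a • z)) (lz g) =
      vrW (gau I) (fun z => N (f + a • z)) (lz g) := by
  congr 1
  funext z
  rw [add_right_comm, h.inv]

/-- the variance of the neutral half step -/
theorem NA.vN_bd (h : NA a Z N ρ ω) (f g : I → ℝ) :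
    vrW (gau I) (fun z => N (f + a • z)) (lz g) ≤ (1 + ω) / (1 - ω) * ∑ i, g i ^ 2 := by
  have hr : 0 ≤ (1 + ω) / (1 - ω) := div_nonneg (by linarith [h.ω0]) (by linarith [h.ω1])
  have ha2 : 0 < a ^ 2 := pow_pos h.a0 2
  set r := (1 + ω) / (1 - ω) with hrdef
  have h2 : ∀ c : ℝ, r * hs a Z (f + c • ρ) g ≤
      (r * (∑ i, g i ^ 2) - vrW (gau I) (fun z => N (f + a • z)) (lz g)) / a ^ 2 := by
    intro c
    have h3 := h.vN_le (f + c • ρ) g
    rw [h.vN_shift] at h3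
    unfold hs
    rw [← mul_div_assoc, mul_sub]
    refine div_le_div_of_nonneg_right ?_ ha2.le
    linarith
  have h5 : ∫ c in (0 : ℝ)..1, r * hs a Z (f + c • ρ) g ≤
      ∫ _c in (0 : ℝ)..1,
        (r * (∑ i, g i ^ 2) - vrW (gau I) (fun z => N (f + a • z)) (lz g)) / a ^ 2 :=
    intervalIntegral.integral_mono_on zero_le_one
      ((continuous_const.mul (h.cont f g)).intervalIntegrable _ _) (by simp) fun c _ => h2 c
  rw [intervalIntegral.integral_const_mul] at h5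
  simp only [intervalIntegral.integral_const, sub_zero, one_smul] at h5
  have h6 := (mul_nonneg hr (h.dir f g)).trans h5
  have h7 := (le_div_iff₀ ha2).1 h6
  linarith

theorem NA.vZ_bd (h : NA a Z N ρ ω) (f g : I → ℝ) :
    vrW (gau I) (fun z => Z (f + a • z)) (lz g) ≤ ((1 + ω) / (1 - ω)) ^ 2 * ∑ i, g i ^ 2 := by
  have hr : 0 ≤ (1 + ω) / (1 - ω) := div_nonneg (by linarith [h.ω0]) (by linarith [h.ω1])
  have h1 := h.vZ_le f g
  have h2 := mul_le_mul_of_nonneg_left (h.vN_bd f g) hr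
  calc vrW (gau I) (fun z => Z (f + a • z)) (lz g) ≤ _ := h1
    _ ≤ _ := h2
    _ = _ := by ring

/-- **neutral function** -/
theorem NA.hsN_ge (h : NA a Z N ρ ω) (f g : I → ℝ) :
    -(2 * ω / (1 - ω) / a ^ 2 * ∑ i, g i ^ 2) ≤ hs a N f g := by
  have h1 := h.vN_bd f g
  have h0 : 0 < 1 - ω := by linarith [h.ω1]
  have ha2 : 0 < a ^ 2 := pow_pos h.a0 2
  unfold hs
  rw [le_div_iff₀ ha2]
  have e : -(2 * ω / (1 - ω) / a ^ 2 * ∑ i, g i ^ 2) * a ^ 2 =
      (∑ i, g i ^ 2) - (1 + ω) / (1 - ω) * ∑ i, g i ^ 2 := by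
    have ha := h.a0.ne'
    field_simp
    ring
  rw [e]
  linarith

/-- **integer function** -/
theorem NA.hsZ_ge (h : NA a Z N ρ ω) (f g : I → ℝ) :
    -(4 * ω / (1 - ω) ^ 2 / a ^ 2 * ∑ i, g i ^ 2) ≤ hs a Z f g := by
  have h1 := h.vZ_bd f g
  have h0 : 0 < 1 - ω := by linarith [h.ω1]
  have ha2 : 0 < a ^ 2 := pow_pos h.a0 2
  unfold hs
  rw [le_div_iff₀ ha2]
  have e : -(4 * ω / (1 - ω) ^ 2 / a ^ 2 * ∑ i, g i ^ 2) * a ^ 2 =
      (∑ i, g i ^ 2) - ((1 + ω) / (1 - ω)) ^ 2 * ∑ i, g i ^ 2 := by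
    have ha := h.a0.ne'
    field_simp
    ring
  rw [e]
  linarith

/-- convexity along lines from the second derivative -/
theorem convex_of_hs {W : (I → ℝ) → ℝ} (hW : BP W) (ha : a ≠ 0) {κ : ℝ} (f g : I → ℝ)
    (hk : ∀ f, -(2 * κ) ≤ hs a W f g) :
    ConvexOn ℝ Set.univ fun s : ℝ => -Real.log (PA a W (f + s • g)) + κ * s ^ 2 := by
  have hd1 : ∀ s : ℝ, HasDerivAt (fun s : ℝ => -Real.log (PA a W (f + s • g)) + κ * s ^ 2)
      (d1 a W (f + s • g) g + κ * (2 * s)) s := by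
    intro s
    have h1 := hasDerivAt_d0 hW ha f g s
    have h2 : HasDerivAt (fun s : ℝ => κ * s ^ 2) (κ * (2 * s)) s := by
      have := (hasDerivAt_pow 2 s).const_mul κ
      simpa using this
    exact h1.add h2
  have hd2 : ∀ s : ℝ, HasDerivAt (fun s : ℝ => d1 a W (f + s • g) g + κ * (2 * s))
      (hs a W (f + s • g) g + κ * 2) s := by
    intro s
    have h1 := hasDerivAt_d1 hW ha f g s
    have h2 : HasDerivAt (fun s : ℝ => κ * (2 * s)) (κ * 2) s := by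
      have := ((hasDerivAt_id s).const_mul 2).const_mul κ
      simpa using this
    exact h1.add h2
  have hmono : Monotone fun s : ℝ => d1 a W (f + s • g) g + κ * (2 * s) := by
    refine monotone_of_deriv_nonneg (fun s => (hd2 s).differentiableAt) fun s => ?_
    rw [(hd2 s).deriv]
    have := hk (f + s • g)
    linarith
  have hderiv : deriv (fun s : ℝ => -Real.log (PA a W (f + s • g)) + κ * s ^ 2) =
      fun s => d1 a W (f + s • g) g + κ * (2 * s) := by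
    funext s
    exact (hd1 s).deriv
  refine Monotone.convexOn_univ_of_deriv (fun s => (hd1 s).differentiableAt) ?_
  rw [hderiv]
  exact hmono

/-! ### the Dirichlet form -/

/-- a form with kernel `τ δ - τ² K` is a row sum term and a Dirichlet form, weights `ρ` -/
lemma dir_form {K : I → I → ℝ} {ρ : I → ℝ} (hs : ∀ i j, K i j = K j i) (hρ : ∀ i, ρ i ≠ 0)
    (τ : ℝ) (g : I → ℝ) :
    τ * (∑ i, g i ^ 2) - τ ^ 2 * ∑ i, ∑ j, K i j * g i * g j =
      ∑ i, g i ^ 2 / ρ i * (τ * ρ i - τ ^ 2 * ∑ j, K i j * ρ j) +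
        τ ^ 2 / 2 * ∑ i, ∑ j, K i j * (ρ i * ρ j) * (g i / ρ i - g j / ρ j) ^ 2 := by
  have e1 : ∑ i, ∑ j, K i j * (ρ i * ρ j) * (g i / ρ i - g j / ρ j) ^ 2 =
      2 * (∑ i, ∑ j, g i ^ 2 / ρ i * (K i j * ρ j)) - 2 * ∑ i, ∑ j, K i j * g i * g j := by
    have e2 : ∑ i, ∑ j, g j ^ 2 / ρ j * (K i j * ρ i) =
        ∑ i, ∑ j, g i ^ 2 / ρ i * (K i j * ρ j) := by
      rw [Finset.sum_comm]
      refine Finset.sum_congr rfl fun i _ => Finset.sum_congr rfl fun j _ => ?_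
      rw [hs j i]
    have e3 : ∑ i, ∑ j, K i j * (ρ i * ρ j) * (g i / ρ i - g j / ρ j) ^ 2 =
        (∑ i, ∑ j, g i ^ 2 / ρ i * (K i j * ρ j)) + (∑ i, ∑ j, g j ^ 2 / ρ j * (K i j * ρ i)) -
          2 * ∑ i, ∑ j, K i j * g i * g j := by
      rw [Finset.mul_sum, ← Finset.sum_add_distrib, ← Finset.sum_sub_distrib]
      refine Finset.sum_congr rfl fun i _ => ?_
      rw [Finset.mul_sum, ← Finset.sum_add_distrib, ← Finset.sum_sub_distrib]
      refine Finset.sum_congr rfl fun j _ => ?_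
      have hi := hρ i
      have hj := hρ j
      field_simp
      ring
    rw [e3, e2]
    ring
  have e4 : ∑ i, g i ^ 2 / ρ i * (τ * ρ i - τ ^ 2 * ∑ j, K i j * ρ j) =
      τ * (∑ i, g i ^ 2) - τ ^ 2 * ∑ i, ∑ j, g i ^ 2 / ρ i * (K i j * ρ j) := by
    rw [Finset.mul_sum, Finset.mul_sum, ← Finset.sum_sub_distrib]
    refine Finset.sum_congr rfl fun i _ => ?_
    rw [← Finset.mul_sum]
    have hi := hρ i
    field_simp
  rw [e1, e4]
  ring

/-- lower bound by the row sums -/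
lemma dir_form_ge {K : I → I → ℝ} {ρ : I → ℝ} (hs : ∀ i j, K i j = K j i) (hK : ∀ i j, 0 ≤ K i j)
    (hρ : ∀ i, 0 < ρ i) (τ : ℝ) (g : I → ℝ) :
    ∑ i, g i ^ 2 / ρ i * (τ * ρ i - τ ^ 2 * ∑ j, K i j * ρ j) ≤
      τ * (∑ i, g i ^ 2) - τ ^ 2 * ∑ i, ∑ j, K i j * g i * g j := by
  rw [dir_form hs (fun i => (hρ i).ne') τ g]
  have : 0 ≤ τ ^ 2 / 2 * ∑ i, ∑ j, K i j * (ρ i * ρ j) * (g i / ρ i - g j / ρ j) ^ 2 :=
    mul_nonneg (by positivity) (Finset.sum_nonneg fun i _ => Finset.sum_nonneg fun j _ =>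
      mul_nonneg (mul_nonneg (hK i j) (mul_nonneg (hρ i).le (hρ j).le)) (sq_nonneg _))
  linarith

end

end Vale.Agent.P159.H764
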