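import Vale.Agent.P159.H764.NcA
import Vale.Agent.P159.H145.Loc2
import Vale.Agent.P159.H159.Inst
import Vale.Agent.P159.H896.FlowT
import Vale.Agent.P159.H963.NeuD

/-!
P159 / near-convexity in every real background, mass forms and cell channels (helper764).

`w` a bounded nonnegative weight with the lattice condition and `w (h + 1) = w h` (evenness is not
used, so dislocated weights are allowed), `M` a ferromagnetic coercive mass form, `R` nonnegative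
orthonormal rows with `M Rᵀ = τ Rᵀ` and `Rᵀ ρ = 1`, `ρ > 0` (cells, or `R = 1`, `M = t`). If
`|Z(F) - Z⁰(F)| ≤ ω Z⁰(F)` for the mass form `M + τ Rᵀ R`, `ω < 1`, then for ALL backgrounds the
second derivatives of `- log Z_M`, `- log Z⁰_M` in the directions `Rᵀ g` are
`≥ - 8 ω τ / (1-ω)² |g|²`, `≥ - 4 ω τ / (1-ω) |g|²`.
-/

namespace Vale.Agent.P159.H764

open MeasureTheory ProbabilityTheory Finset Matrix
open Vale.Agent.P159.H37 (gau Zn ZM wM qf bf Cm Zs re)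
open Vale.Agent.P159.TM.H104 (EM Ex Cv Lg li nh Gr)
open Vale.Agent.P159.T1.H897 (Hol)
open Vale.Agent.P159.H159 (Fer)
open Vale.Agent.P159.H145 (cs Per OscZ)

set_option linter.unusedSectionVars false

noncomputable section

variable {V I : Type} [Fintype V] [Fintype I] [DecidableEq V] [DecidableEq I]

/-- standing hypotheses -/
structure CH (w : (V → ℤ) → ℝ) (M : Matrix V V ℝ) (R : Matrix I V ℝ) (ρ : I → ℝ) (τ : ℝ) :
    Prop where
  w0 : ∀ h, 0 ≤ w h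
  wb : ∃ Wb : ℝ, ∀ h, w h ≤ Wb
  wp : ∃ h, 0 < w h
  per : Per w
  hol : Hol w w
  sym : Mᵀ = M
  coer : ∃ m0 : ℝ, 0 < m0 ∧ ∀ u : V → ℝ, m0 * ∑ x, u x ^ 2 ≤ qf M u
  fer : Fer M
  R0 : ∀ i x, 0 ≤ R i x
  RR : R * Rᵀ = 1
  MR : M * Rᵀ = τ • Rᵀ
  ρ0 : ∀ i, 0 < ρ i
  Rρ : Rᵀ *ᵥ ρ = fun _ => 1
  τ0 : 0 < τ

/-- the doubled mass form -/
def dbM (M : Matrix V V ℝ) (R : Matrix I V ℝ) (τ : ℝ) : Matrix V V ℝ := M + τ • (Rᵀ * R)

variable {w : (V → ℤ) → ℝ} {M : Matrix V V ℝ} {R : Matrix I V ℝ} {ρ : I → ℝ} {τ ω : ℝ}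

namespace CH

variable (h : CH w M R ρ τ)

include h

theorem em : EM (wM w M) := by
  obtain ⟨Wb, hb⟩ := h.wb
  obtain ⟨m0, hm0, hc⟩ := h.coer
  exact H37.em_wM h.w0 hb h.wp hm0 hc

lemma sym2 : (dbM M R τ)ᵀ = dbM M R τ := by
  unfold dbM
  rw [transpose_add, h.sym, transpose_smul, transpose_mul, transpose_transpose]

lemma coer2 : ∃ m0 : ℝ, 0 < m0 ∧ ∀ u : V → ℝ, m0 * ∑ x, u x ^ 2 ≤ qf (dbM M R τ) u := by
  obtain ⟨m0, hm0, hc⟩ := h.coer
  refine ⟨m0, hm0, fun u => (hc u).trans ?_⟩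
  unfold dbM
  have h1 : qf (τ • (Rᵀ * R)) u = τ * qf (Rᵀ * R) u := by
    simp only [H37.qf_eq, smul_mulVec, dotProduct_smul, smul_eq_mul]
  rw [H37.qf_add_mat, h1, H37.qf_gram]
  have : 0 ≤ τ * ∑ i, (R *ᵥ u) i ^ 2 :=
    mul_nonneg h.τ0.le (Finset.sum_nonneg fun i _ => sq_nonneg _)
  linarith

theorem em2 : EM (wM w (dbM M R τ)) := by
  obtain ⟨Wb, hb⟩ := h.wb
  obtain ⟨m0, hm0, hc⟩ := h.coer2
  exact H37.em_wM h.w0 hb h.wp hm0 hc

lemma nn2 (u : V → ℝ) : 0 ≤ qf (dbM M R τ) u := by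
  obtain ⟨m0, hm0, hc⟩ := h.coer2
  exact (mul_nonneg hm0.le (Finset.sum_nonneg fun x _ => sq_nonneg _)).trans (hc u)

lemma MR2 : dbM M R τ * Rᵀ = (2 * τ) • Rᵀ := by
  unfold dbM
  rw [Matrix.add_mul, h.MR, Matrix.smul_mul, Matrix.mul_assoc, h.RR, Matrix.mul_one, two_mul,
    add_smul]

/-- the half step as a channel -/
theorem chn : H896.Chn (dbM M R τ) M (√(1 / (2 * τ)) • Rᵀ)
    ((√(1 / (2 * τ)) * (2 * τ) / (1 + 1 / (2 * τ) * (2 * τ))) • R) := by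
  have hτ := h.τ0
  have h1 := H896.chn_row (σ := 1 / (2 * τ)) h.sym2 h.nn2 h.RR h.MR2 (by positivity)
    (by positivity)
  have e : dbM M R τ - (1 / (2 * τ) * (2 * τ) ^ 2 / (1 + 1 / (2 * τ) * (2 * τ))) • (Rᵀ * R) =
      M := by
    have e1 : 1 / (2 * τ) * (2 * τ) ^ 2 / (1 + 1 / (2 * τ) * (2 * τ)) = τ := by
      field_simp
      ring
    rw [e1]
    unfold dbM
    rw [add_sub_cancel_right]
  rw [e] at h1
  exact h1

end CH

/-- partition function at the doubled mass along the observed directions -/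
def Zf (w : (V → ℤ) → ℝ) (M : Matrix V V ℝ) (R : Matrix I V ℝ) (τ : ℝ) (F₀ : V → ℝ)
    (f : I → ℝ) : ℝ := ZM w (dbM M R τ) (F₀ + Rᵀ *ᵥ f)

/-- neutral partition function at the doubled mass along the observed directions -/
def Nf (w : (V → ℤ) → ℝ) (M : Matrix V V ℝ) (R : Matrix I V ℝ) (τ : ℝ) (F₀ : V → ℝ)
    (f : I → ℝ) : ℝ := Zn w (dbM M R τ) (F₀ + Rᵀ *ᵥ f)

lemma vec_half (R : Matrix I V ℝ) (a : ℝ) (F₀ : V → ℝ) (f z : I → ℝ) :
    F₀ + Rᵀ *ᵥ (f + a • z) = F₀ + Rᵀ *ᵥ f + (a • Rᵀ) *ᵥ z := by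
  rw [mulVec_add, mulVec_smul, smul_mulVec, add_assoc]

lemma continuous_mulVec' {A : Matrix V I ℝ} : Continuous fun f : I → ℝ => A *ᵥ f := by
  fun_prop

namespace CH

variable (h : CH w M R ρ τ)

include h

theorem bp_Z (F₀ : V → ℝ) : BP (Zf w M R τ F₀) := by
  have hc : Continuous (Zf w M R τ F₀) := by
    unfold Zf
    exact (H145.continuous_ZM h.sym2 h.em2).comp (continuous_const.add continuous_mulVec')
  obtain ⟨K, _, hK⟩ := H963.ZM_bdd h.w0 h.wb h.coer2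
  exact ⟨hc.measurable, fun f => H37.ZM_pos h.sym2 h.em2 _, K, fun f => (hK _).2⟩

lemma continuous_Zn2 : Continuous (Zn w (dbM M R τ)) := by
  unfold Zn
  have hc : Continuous (Function.uncurry fun (F : V → ℝ) (c : ℝ) =>
      ZM w (dbM M R τ) fun x => F x + c) := by
    refine (H145.continuous_ZM h.sym2 h.em2).comp ?_
    fun_prop
  exact intervalIntegral.continuous_parametric_intervalIntegral_of_continuous' hc 0 1

theorem bp_N (F₀ : V → ℝ) : BP (Nf w M R τ F₀) := by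
  have hc : Continuous (Nf w M R τ F₀) := by
    unfold Nf
    exact h.continuous_Zn2.comp (continuous_const.add continuous_mulVec')
  obtain ⟨K, _, hK⟩ := H963.Zn_bdd h.w0 h.wb h.coer2
  exact ⟨hc.measurable, fun f => H145.Zn_pos h.sym2 h.em2 _, K, fun f => hK _⟩

/-- **half step, integer model** -/
theorem PA_Z (F₀ : V → ℝ) (f : I → ℝ) : PA (√(1 / (2 * τ))) (Zf w M R τ F₀) f =
    H896.cN (dbM M R τ) (√(1 / (2 * τ)) • Rᵀ) * ZM w M (F₀ + Rᵀ *ᵥ f) := by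
  unfold PA Zf
  simp_rw [vec_half]
  exact H896.chn_ZM h.chn h.em _

/-- **half step, neutral model** -/
theorem PA_N (F₀ : V → ℝ) (f : I → ℝ) : PA (√(1 / (2 * τ))) (Nf w M R τ F₀) f =
    H896.cN (dbM M R τ) (√(1 / (2 * τ)) • Rᵀ) * Zn w M (F₀ + Rᵀ *ᵥ f) := by
  obtain ⟨K, _, hK⟩ := H963.ZM_bdd h.w0 h.wb h.coer2
  set a := √(1 / (2 * τ)) with ha
  unfold PA Nf Zn
  simp_rw [vec_half]
  have hsw : ∫ z, (∫ c in (0 : ℝ)..1, ZM w (dbM M R τ)
        (fun x => (F₀ + Rᵀ *ᵥ f + (a • Rᵀ) *ᵥ z) x + c)) ∂(gau I) =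
      ∫ c in (0 : ℝ)..1, (∫ z, ZM w (dbM M R τ)
        (fun x => (F₀ + Rᵀ *ᵥ f + (a • Rᵀ) *ᵥ z) x + c) ∂(gau I)) := by
    have h1 : ∀ G : ℝ → ℝ, ∫ c in (0 : ℝ)..1, G c = ∫ c in Set.Ioc (0 : ℝ) 1, G c := fun G =>
      intervalIntegral.integral_of_le zero_le_one
    simp_rw [h1]
    rw [integral_integral_swap]
    refine Integrable.mono' (integrable_const K) ?_ (Filter.Eventually.of_forall fun p => ?_)
    · have hc : Continuous fun p : (I → ℝ) × ℝ => ZM w (dbM M R τ)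
          (fun x => (F₀ + Rᵀ *ᵥ f + (a • Rᵀ) *ᵥ p.1) x + p.2) := by
        refine (H145.continuous_ZM h.sym2 h.em2).comp ?_
        fun_prop
      exact hc.measurable.aestronglyMeasurable
    · simp only [Function.uncurry]
      rw [Real.norm_eq_abs, abs_of_nonneg (hK _).1]
      exact (hK _).2
  rw [hsw, ← intervalIntegral.integral_const_mul]
  refine intervalIntegral.integral_congr fun c _ => ?_
  have h2 := H896.chn_ZM h.chn h.em (fun x => (F₀ + Rᵀ *ᵥ f) x + c)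
  refine Eq.trans ?_ h2
  refine integral_congr_ae (Filter.Eventually.of_forall fun z => ?_)
  simp only
  congr 1
  funext x
  simp only [Pi.add_apply]
  ring

end CH

/-! ### derivatives of `- log Z_M` -/

section deriv

lemma log_ZM (hM : Mᵀ = M) (hE : EM (wM w M)) (F : V → ℝ) :
    Real.log (ZM w M F) = -(qf M F / 2) + Lg (wM w M) (M *ᵥ F) := by
  rw [H37.ZM_eq w hM, Real.log_mul (Real.exp_pos _).ne', Real.log_exp]
  · rfl
  · exact (TM.H104.T_one_pos hE _).ne'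

/-- first derivative of `<F, M F> / 2 - log T_μ (M F)` in the direction `u`, `M u = τ u` -/
def DZ (μ : (V → ℤ) → ℝ) (M : Matrix V V ℝ) (τ : ℝ) (F u : V → ℝ) : ℝ :=
  bf M F u - τ * Ex μ (M *ᵥ F) (li u)

lemma mulVec_line {v : V → ℝ} (hv : M *ᵥ v = τ • v) (F : V → ℝ) (s : ℝ) :
    M *ᵥ (F + s • v) = M *ᵥ F + (s * τ) • v := by
  rw [mulVec_add, mulVec_smul, hv, smul_smul]

variable {μ : (V → ℤ) → ℝ}

theorem hasDerivAt_pot (hM : Mᵀ = M) (hE : EM μ) {v : V → ℝ} (hv : M *ᵥ v = τ • v)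
    (F : V → ℝ) (s : ℝ) :
    HasDerivAt (fun s : ℝ => qf M (F + s • v) / 2 - Lg μ (M *ᵥ (F + s • v)))
      (DZ μ M τ (F + s • v) v) s := by
  have e : (fun s : ℝ => qf M (F + s • v) / 2 - Lg μ (M *ᵥ (F + s • v))) = fun s : ℝ =>
      (qf M F + 2 * (s * bf M F v) + s ^ 2 * qf M v) / 2 - Lg μ (M *ᵥ F + (s * τ) • v) := by
    funext s
    rw [mulVec_line hv, H37.qf_add_vec hM, H37.bf_smul_right, H37.qf_smul]
  rw [e]
  have h1 : HasDerivAt (fun s : ℝ => (qf M F + 2 * (s * bf M F v) + s ^ 2 * qf M v) / 2)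
      (bf M F v + s * qf M v) s := by
    have := ((((hasDerivAt_id s).mul_const (bf M F v)).const_mul 2).const_add (qf M F)).add
      ((hasDerivAt_pow 2 s).mul_const (qf M v))
    refine (this.div_const 2).congr_deriv ?_
    simp
    ring
  have h0 : HasDerivAt (fun s : ℝ => s * τ) τ s := by
    simpa using (hasDerivAt_id s).mul_const τ
  have h2 : HasDerivAt (fun s : ℝ => Lg μ (M *ᵥ F + (s * τ) • v))
      (Ex μ (M *ᵥ F + (s * τ) • v) (li v) * τ) s :=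
    HasDerivAt.comp (h := fun s : ℝ => s * τ) s
      (TM.H104.hasDerivAt_Lg hE (M *ᵥ F) v (s * τ)) h0
  refine (h1.sub h2).congr_deriv ?_
  unfold DZ
  rw [mulVec_line hv, H37.bf_add_left, H37.bf_smul_left]
  rw [H37.bf_self]
  ring

theorem hasDerivAt_log (hM : Mᵀ = M) (hE : EM (wM w M)) {v : V → ℝ} (hv : M *ᵥ v = τ • v)
    (F : V → ℝ) (s : ℝ) :
    HasDerivAt (fun s : ℝ => -Real.log (ZM w M (F + s • v)))
      (DZ (wM w M) M τ (F + s • v) v) s := by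
  have e : (fun s : ℝ => -Real.log (ZM w M (F + s • v))) = fun s : ℝ =>
      qf M (F + s • v) / 2 - Lg (wM w M) (M *ᵥ (F + s • v)) := by
    funext s
    rw [log_ZM hM hE]
    ring
  rw [e]
  exact hasDerivAt_pot hM hE hv F s

theorem hasDerivAt_DZ (hE : EM μ) {u v : V → ℝ} (hv : M *ᵥ v = τ • v)
    (F : V → ℝ) (s : ℝ) :
    HasDerivAt (fun s : ℝ => DZ μ M τ (F + s • v) u)
      (bf M v u - τ ^ 2 * Cv μ (M *ᵥ (F + s • v)) (li u) (li v)) s := by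
  have e : (fun s : ℝ => DZ μ M τ (F + s • v) u) = fun s : ℝ =>
      (bf M F u + s * bf M v u) - τ * Ex μ (M *ᵥ F + (s * τ) • v) (li u) := by
    funext s
    unfold DZ
    rw [mulVec_line hv, H37.bf_add_left, H37.bf_smul_left]
  rw [e, mulVec_line hv]
  have h1 : HasDerivAt (fun s : ℝ => bf M F u + s * bf M v u) (bf M v u) s := by
    simpa using ((hasDerivAt_id s).mul_const (bf M v u)).const_add (bf M F u)
  have h0 : HasDerivAt (fun s : ℝ => s * τ) τ s := by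
    simpa using (hasDerivAt_id s).mul_const τ
  have h2 : HasDerivAt (fun s : ℝ => Ex μ (M *ᵥ F + (s * τ) • v) (li u))
      (Cv μ (M *ᵥ F + (s * τ) • v) (li u) (li v) * τ) s :=
    HasDerivAt.comp (h := fun s : ℝ => s * τ) s
      (TM.H104.hasDerivAt_Ex hE (TM.H104.Gr.li u) (M *ᵥ F) v (s * τ)) h0
  refine (h1.sub (h2.const_mul τ)).congr_deriv ?_
  ring

end deriv

namespace CH

variable (h : CH w M R ρ τ)

include h

lemma eig (g : I → ℝ) : M *ᵥ (Rᵀ *ᵥ g) = τ • (Rᵀ *ᵥ g) := by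
  rw [mulVec_mulVec, h.MR, smul_mulVec]

lemma eig1 : M *ᵥ (fun _ => (1 : ℝ)) = τ • (fun _ => (1 : ℝ)) := by
  rw [← h.Rρ]
  exact h.eig ρ

lemma eigr (i : I) : M *ᵥ (R i) = τ • (R i) := by
  have h1 := h.eig (Pi.single i 1)
  have e : Rᵀ *ᵥ (Pi.single i 1) = R i := by
    funext x
    rw [mulVec_single_one]
    rfl
  rwa [e] at h1

lemma bf_eig (g f : I → ℝ) : bf M (Rᵀ *ᵥ g) (Rᵀ *ᵥ f) = τ * ∑ i, g i * f i := by
  rw [H37.bf_eq, h.eig, dotProduct_smul, smul_eq_mul, dotProduct_mulVec, vecMul_transpose,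
    mulVec_mulVec, h.RR, one_mulVec]
  rfl

lemma qf_eig (g : I → ℝ) : qf M (Rᵀ *ᵥ g) = τ * ∑ i, g i ^ 2 := by
  rw [← H37.bf_self, h.bf_eig]
  congr 1
  exact Finset.sum_congr rfl fun i _ => (pow_two _).symm

/-- the second derivative as a variance -/
theorem hs_Z (F₀ : V → ℝ) (f g : I → ℝ) : hs (√(1 / (2 * τ))) (Zf w M R τ F₀) f g =
    τ * (∑ i, g i ^ 2) -
      τ ^ 2 * qf (Cm (wM w M) (M *ᵥ (F₀ + Rᵀ *ᵥ f))) (Rᵀ *ᵥ g) := by
  have hτ := h.τ0
  have ha : √(1 / (2 * τ)) ≠ 0 := (Real.sqrt_pos.2 (by positivity)).ne'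
  have hb := h.bp_Z F₀
  have hv := h.eig g
  set v := Rᵀ *ᵥ g with hvdef
  have hc : 0 < H896.cN (dbM M R τ) (√(1 / (2 * τ)) • Rᵀ) := H896.cN_pos h.nn2
  have line : ∀ s : ℝ, F₀ + Rᵀ *ᵥ (f + s • g) = (F₀ + Rᵀ *ᵥ f) + s • v := by
    intro s
    rw [mulVec_add, mulVec_smul, hvdef, add_assoc]
  have k1 : ∀ s : ℝ, d1 (√(1 / (2 * τ))) (Zf w M R τ F₀) (f + s • g) g =
      DZ (wM w M) M τ ((F₀ + Rᵀ *ᵥ f) + s • v) v := by
    intro s
    have h1 := hasDerivAt_d0 hb ha f g s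
    have h2 := hasDerivAt_log h.sym h.em hv (F₀ + Rᵀ *ᵥ f) s
    have e : (fun s : ℝ => -Real.log (PA (√(1 / (2 * τ))) (Zf w M R τ F₀) (f + s • g))) =
        fun s : ℝ => -Real.log (ZM w M ((F₀ + Rᵀ *ᵥ f) + s • v)) +
          -Real.log (H896.cN (dbM M R τ) (√(1 / (2 * τ)) • Rᵀ)) := by
      funext s
      rw [h.PA_Z, Real.log_mul hc.ne' (H37.ZM_pos h.sym h.em _).ne', line]
      ring
    rw [e] at h1
    exact h1.unique (h2.add_const _)
  have h1 := hasDerivAt_d1 hb ha f g 0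
  have h2 := hasDerivAt_DZ (u := v) h.em hv (F₀ + Rᵀ *ᵥ f) 0
  have e : (fun s : ℝ => d1 (√(1 / (2 * τ))) (Zf w M R τ F₀) (f + s • g) g) =
      fun s : ℝ => DZ (wM w M) M τ ((F₀ + Rᵀ *ᵥ f) + s • v) v := funext k1
  rw [e] at h1
  have h3 := h1.unique h2
  rw [zero_smul, add_zero] at h3
  rw [h3, zero_smul, add_zero, H37.bf_self, H159.Cv_li h.em, H37.bf_self, h.qf_eig]

/-- observed covariances -/
lemma qf_obs (C : Matrix V V ℝ) (g : I → ℝ) :
    qf C (Rᵀ *ᵥ g) = ∑ i, ∑ j, (R * C * Rᵀ) i j * g i * g j := by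
  have : qf C (Rᵀ *ᵥ g) = qf (R * C * Rᵀ) g := by
    rw [H37.qf_eq, H37.qf_eq, ← mulVec_mulVec, ← mulVec_mulVec, dotProduct_comm,
      dotProduct_mulVec, vecMul_transpose, dotProduct_comm]
  rw [this]
  unfold qf
  refine Finset.sum_congr rfl fun i _ => Finset.sum_congr rfl fun j _ => ?_
  ring

lemma obs_nonneg (J : V → ℝ) (i j : I) : 0 ≤ (R * Cm (wM w M) J * Rᵀ) i j := by
  have hC := H159.Cm_nonneg h.em (H159.hol_wM h.w0 h.hol h.fer) J
  rw [Matrix.mul_apply]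
  refine Finset.sum_nonneg fun y _ => mul_nonneg ?_ (h.R0 _ _)
  rw [Matrix.mul_apply]
  exact Finset.sum_nonneg fun x _ => mul_nonneg (h.R0 _ _) (hC _ _)

lemma Cm_symm (J : V → ℝ) : (Cm (wM w M) J)ᵀ = Cm (wM w M) J := by
  ext x y
  simp only [transpose_apply, Cm, Matrix.of_apply]
  exact TM.H104.Cv_comm _ _ _

lemma obs_symm (J : V → ℝ) (i j : I) :
    (R * Cm (wM w M) J * Rᵀ) i j = (R * Cm (wM w M) J * Rᵀ) j i := by
  have : (R * Cm (wM w M) J * Rᵀ)ᵀ = R * Cm (wM w M) J * Rᵀ := by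
    rw [transpose_mul, transpose_mul, transpose_transpose, h.Cm_symm, Matrix.mul_assoc]
  conv_rhs => rw [← this]
  rfl

lemma obs_row (J : V → ℝ) (i : I) : ∑ j, (R * Cm (wM w M) J * Rᵀ) i j * ρ j =
    Cv (wM w M) J (li (R i)) (li fun _ => 1) := by
  rw [H159.Cv_li h.em]
  have h1 : ∑ j, (R * Cm (wM w M) J * Rᵀ) i j * ρ j =
      ((R * Cm (wM w M) J * Rᵀ) *ᵥ ρ) i := rfl
  rw [h1, ← mulVec_mulVec, h.Rρ, ← mulVec_mulVec, H37.bf_eq]
  rfl

lemma row_one (i : I) : bf M (fun _ => 1) (R i) = τ * ρ i := by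
  have e : Rᵀ *ᵥ (Pi.single i 1) = R i := by
    funext x
    rw [mulVec_single_one]
    rfl
  have h1 := h.bf_eig ρ (Pi.single i 1)
  rw [h.Rρ, e] at h1
  rw [h1]
  congr 1
  rw [Finset.sum_eq_single i]
  · simp
  · intro j _ hj
    rw [Pi.single_eq_of_ne hj, mul_zero]
  · intro hi
    exact absurd (Finset.mem_univ i) hi

lemma DZ_per (F : V → ℝ) (i : I) :
    DZ (wM w M) M τ (F + (1 : ℝ) • fun _ => (1 : ℝ)) (R i) = DZ (wM w M) M τ F (R i) := by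
  have h1 := hasDerivAt_log h.sym h.em (h.eigr i) (F + (1 : ℝ) • fun _ => (1 : ℝ)) 0
  have h2 := hasDerivAt_log h.sym h.em (h.eigr i) F 0
  have e : (fun s : ℝ => -Real.log (ZM w M (F + ((1 : ℝ) • fun _ => (1 : ℝ)) + s • R i))) =
      fun s : ℝ => -Real.log (ZM w M (F + s • R i)) := by
    funext s
    have e1 : F + ((1 : ℝ) • fun _ => (1 : ℝ)) + s • R i = cs (F + s • R i) 1 := by
      funext x
      simp only [cs, Pi.add_apply, Pi.smul_apply, smul_eq_mul, mul_one]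
      ring
    rw [e1, H145.ZM_per h.per]
  rw [e] at h1
  have h3 := h1.unique h2
  simpa only [zero_smul, add_zero] using h3

/-- the row sums have mean zero over the constants -/
lemma int_row (F : V → ℝ) (i : I) :
    ∫ c in (0 : ℝ)..1, (τ * ρ i - τ ^ 2 *
      ∑ j, (R * Cm (wM w M) (M *ᵥ (F + c • fun _ => (1 : ℝ))) * Rᵀ) i j * ρ j) = 0 := by
  have h1 : ∀ c : ℝ, HasDerivAt (fun c : ℝ => DZ (wM w M) M τ (F + c • fun _ => (1 : ℝ)) (R i))
      (τ * ρ i - τ ^ 2 *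
        ∑ j, (R * Cm (wM w M) (M *ᵥ (F + c • fun _ => (1 : ℝ))) * Rᵀ) i j * ρ j) c := by
    intro c
    have h2 := hasDerivAt_DZ (u := R i) h.em h.eig1 F c
    rw [h.row_one] at h2
    rw [h.obs_row]
    exact h2
  rw [intervalIntegral.integral_eq_sub_of_hasDerivAt (fun c _ => h1 c)]
  · rw [zero_smul, add_zero, h.DZ_per, sub_self]
  · refine Continuous.intervalIntegrable ?_ _ _
    have h3 : ∀ c : ℝ, ∑ j, (R * Cm (wM w M) (M *ᵥ (F + c • fun _ => (1 : ℝ))) * Rᵀ) i j * ρ j =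
        Cv (wM w M) (M *ᵥ (F + c • fun _ => (1 : ℝ))) (li (R i)) (li fun _ => 1) :=
      fun c => h.obs_row _ i
    simp_rw [h3]
    refine continuous_const.sub (continuous_const.mul ?_)
    refine (TM.H104.continuous_Cv h.em (TM.H104.Gr.li _) (TM.H104.Gr.li _)).comp ?_
    fun_prop

lemma line_rho (F₀ : V → ℝ) (f : I → ℝ) (c : ℝ) :
    F₀ + Rᵀ *ᵥ (f + c • ρ) = (F₀ + Rᵀ *ᵥ f) + c • fun _ => (1 : ℝ) := by
  rw [mulVec_add, mulVec_smul, h.Rρ, add_assoc]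

/-- **the abstract data** -/
theorem na (hω0 : 0 ≤ ω) (hω1 : ω < 1) (hO : OscZ w (dbM M R τ) ω) (F₀ : V → ℝ) :
    NA (√(1 / (2 * τ))) (Zf w M R τ F₀) (Nf w M R τ F₀) ρ ω where
  a0 := Real.sqrt_pos.2 (by have := h.τ0; positivity)
  bz := h.bp_Z F₀
  bn := h.bp_N F₀
  ω0 := hω0
  ω1 := hω1
  cmp f := by
    have h1 := hO (F₀ + Rᵀ *ᵥ f) 0 ⟨le_refl _, zero_le_one⟩
    rw [H145.cs_zero] at h1
    exact h1
  inv f c := by
    unfold Nf
    rw [h.line_rho]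
    have e : (F₀ + Rᵀ *ᵥ f) + (c • fun _ => (1 : ℝ)) = cs (F₀ + Rᵀ *ᵥ f) c := by
      funext x
      simp only [cs, Pi.add_apply, Pi.smul_apply, smul_eq_mul, mul_one]
    rw [e, H145.Zn_cs h.per]
  cont f g := by
    have e : (fun c : ℝ => hs (√(1 / (2 * τ))) (Zf w M R τ F₀) (f + c • ρ) g) = fun c : ℝ =>
        τ * (∑ i, g i ^ 2) - τ ^ 2 * Cv (wM w M)
          (M *ᵥ ((F₀ + Rᵀ *ᵥ f) + c • fun _ => (1 : ℝ))) (li (Rᵀ *ᵥ g)) (li (Rᵀ *ᵥ g)) := by
      funext c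
      rw [h.hs_Z, h.line_rho, H159.Cv_li h.em, H37.bf_self]
    rw [e]
    refine continuous_const.sub (continuous_const.mul ?_)
    refine (TM.H104.continuous_Cv h.em (TM.H104.Gr.li _) (TM.H104.Gr.li _)).comp ?_
    fun_prop
  dir f g := by
    set F := F₀ + Rᵀ *ᵥ f with hF
    have hcont : ∀ i, Continuous fun c : ℝ => (τ * ρ i - τ ^ 2 *
        ∑ j, (R * Cm (wM w M) (M *ᵥ (F + c • fun _ => (1 : ℝ))) * Rᵀ) i j * ρ j) := by
      intro i
      have h3 : ∀ c : ℝ, ∑ j, (R * Cm (wM w M) (M *ᵥ (F + c • fun _ => (1 : ℝ))) * Rᵀ) i j * ρ j =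
          Cv (wM w M) (M *ᵥ (F + c • fun _ => (1 : ℝ))) (li (R i)) (li fun _ => 1) :=
        fun c => h.obs_row _ i
      simp_rw [h3]
      refine continuous_const.sub (continuous_const.mul ?_)
      refine (TM.H104.continuous_Cv h.em (TM.H104.Gr.li _) (TM.H104.Gr.li _)).comp ?_
      fun_prop
    have h2 : ∫ c in (0 : ℝ)..1, ∑ i, g i ^ 2 / ρ i * (τ * ρ i - τ ^ 2 *
        ∑ j, (R * Cm (wM w M) (M *ᵥ (F + c • fun _ => (1 : ℝ))) * Rᵀ) i j * ρ j) = 0 := by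
      have h3 := intervalIntegral.integral_finsetSum (μ := volume) (a := (0 : ℝ)) (b := 1)
        (s := (Finset.univ : Finset I)) (f := fun (i : I) (c : ℝ) => g i ^ 2 / ρ i *
          (τ * ρ i - τ ^ 2 *
            ∑ j, (R * Cm (wM w M) (M *ᵥ (F + c • fun _ => (1 : ℝ))) * Rᵀ) i j * ρ j))
        fun i _ => (continuous_const.mul (hcont i)).intervalIntegrable _ _
      refine h3.trans (Finset.sum_eq_zero fun i _ => ?_)
      rw [intervalIntegral.integral_const_mul, h.int_row F i, mul_zero]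
    refine h2.symm.le.trans ?_
    refine intervalIntegral.integral_mono_on zero_le_one ?_ ?_ fun c _ => ?_
    · exact (continuous_finsetSum _ fun i _ => continuous_const.mul (hcont i)).intervalIntegrable _ _
    · have e : (fun c : ℝ => hs (√(1 / (2 * τ))) (Zf w M R τ F₀) (f + c • ρ) g) = fun c : ℝ =>
          τ * (∑ i, g i ^ 2) - τ ^ 2 * Cv (wM w M)
            (M *ᵥ (F + c • fun _ => (1 : ℝ))) (li (Rᵀ *ᵥ g)) (li (Rᵀ *ᵥ g)) := by
        funext c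
        rw [h.hs_Z, h.line_rho, H159.Cv_li h.em, H37.bf_self]
      rw [e]
      refine Continuous.intervalIntegrable ?_ _ _
      refine continuous_const.sub (continuous_const.mul ?_)
      refine (TM.H104.continuous_Cv h.em (TM.H104.Gr.li _) (TM.H104.Gr.li _)).comp ?_
      fun_prop
    · rw [h.hs_Z, h.line_rho, h.qf_obs]
      exact dir_form_ge (h.obs_symm _) (h.obs_nonneg _) h.ρ0 τ g

/-- **near-convexity of the integer model in every background** -/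
theorem ncI (hω0 : 0 ≤ ω) (hω1 : ω < 1) (hO : OscZ w (dbM M R τ) ω) (F : V → ℝ) (g : I → ℝ) :
    -(8 * ω / (1 - ω) ^ 2 * τ * ∑ i, g i ^ 2) ≤
      τ * (∑ i, g i ^ 2) - τ ^ 2 * qf (Cm (wM w M) (M *ᵥ F)) (Rᵀ *ᵥ g) := by
  have hτ := h.τ0
  have h1 := (h.na hω0 hω1 hO F).hsZ_ge 0 g
  rw [h.hs_Z, mulVec_zero, add_zero, Real.sq_sqrt (by positivity)] at h1
  refine le_trans (le_of_eq ?_) h1
  field_simp
  ring

/-- **near-convexity of the neutral model in every background** -/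
theorem ncN (hω0 : 0 ≤ ω) (hω1 : ω < 1) (hO : OscZ w (dbM M R τ) ω) (F : V → ℝ) (g : I → ℝ) :
    -(4 * ω / (1 - ω) * τ * ∑ i, g i ^ 2) ≤ hs (√(1 / (2 * τ))) (Nf w M R τ F) 0 g := by
  have hτ := h.τ0
  have h1 := (h.na hω0 hω1 hO F).hsN_ge 0 g
  rw [Real.sq_sqrt (by positivity)] at h1
  refine le_trans (le_of_eq ?_) h1
  field_simp
  ring

/-- every source is a background -/
lemma src (J : V → ℝ) : ∃ F : V → ℝ, M *ᵥ F = J := by
  obtain ⟨m0, hm0, hc⟩ := h.coer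
  have hinj : Function.Injective (M.mulVecLin) := by
    rw [← LinearMap.ker_eq_bot, LinearMap.ker_eq_bot']
    intro u hu
    have h1 := hc u
    have h2 : qf M u = 0 := by
      rw [H37.qf_eq]
      have : M *ᵥ u = 0 := hu
      rw [this, dotProduct_zero]
    rw [h2] at h1
    have h3 : ∑ x, u x ^ 2 ≤ 0 := by
      by_contra hn
      push Not at hn
      nlinarith
    have h4 : ∑ x, u x ^ 2 = 0 := le_antisymm h3 (Finset.sum_nonneg fun x _ => sq_nonneg _)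
    funext x
    have h5 := (Finset.sum_eq_zero_iff_of_nonneg fun x _ => sq_nonneg (u x)).1 h4 x
      (Finset.mem_univ x)
    exact pow_eq_zero_iff (two_ne_zero) |>.1 h5
  obtain ⟨F, hF⟩ := (LinearMap.injective_iff_surjective.1 hinj) J
  exact ⟨F, hF⟩

/-- **covariances in every background** -/
theorem Cm_le (hω0 : 0 ≤ ω) (hω1 : ω < 1) (hO : OscZ w (dbM M R τ) ω) (J : V → ℝ)
    (g : I → ℝ) :
    qf (Cm (wM w M) J) (Rᵀ *ᵥ g) ≤ (1 + 8 * ω / (1 - ω) ^ 2) / τ * ∑ i, g i ^ 2 := by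
  obtain ⟨F, rfl⟩ := h.src J
  have h1 := h.ncI hω0 hω1 hO F g
  have hτ := h.τ0
  rw [div_mul_eq_mul_div, le_div_iff₀ hτ]
  have h2 : τ * (qf (Cm (wM w M) (M *ᵥ F)) (Rᵀ *ᵥ g) * τ) ≤
      τ * ((1 + 8 * ω / (1 - ω) ^ 2) * ∑ i, g i ^ 2) := by
    nlinarith [h1]
  exact le_of_mul_le_mul_left h2 hτ

/-- convexity along lines, integer model -/
theorem convexI (hω0 : 0 ≤ ω) (hω1 : ω < 1) (hO : OscZ w (dbM M R τ) ω) (F : V → ℝ)
    (g : I → ℝ) : ConvexOn ℝ Set.univ fun s : ℝ =>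
      -Real.log (ZM w M (F + s • (Rᵀ *ᵥ g))) +
        4 * ω / (1 - ω) ^ 2 * τ * (∑ i, g i ^ 2) * s ^ 2 := by
  have hτ := h.τ0
  have ha : √(1 / (2 * τ)) ≠ 0 := (Real.sqrt_pos.2 (by positivity)).ne'
  have hna := h.na hω0 hω1 hO F
  have h1 := convex_of_hs (κ := 4 * ω / (1 - ω) ^ 2 * τ * ∑ i, g i ^ 2) hna.bz ha 0 g
    fun f => by
      refine le_trans (le_of_eq ?_) (hna.hsZ_ge f g)
      rw [Real.sq_sqrt (by positivity)]
      field_simp
  have hc : 0 < H896.cN (dbM M R τ) (√(1 / (2 * τ)) • Rᵀ) := H896.cN_pos h.nn2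
  have h2 := h1.add (convexOn_const
    (Real.log (H896.cN (dbM M R τ) (√(1 / (2 * τ)) • Rᵀ))) convex_univ)
  refine h2.congr fun s _ => ?_
  simp only [Pi.add_apply]
  rw [h.PA_Z, zero_add, mulVec_smul, Real.log_mul hc.ne' (H37.ZM_pos h.sym h.em _).ne']
  ring

/-- convexity along lines, neutral model -/
theorem convexN (hω0 : 0 ≤ ω) (hω1 : ω < 1) (hO : OscZ w (dbM M R τ) ω) (F : V → ℝ)
    (g : I → ℝ) : ConvexOn ℝ Set.univ fun s : ℝ =>
      -Real.log (Zn w M (F + s • (Rᵀ *ᵥ g))) +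
        2 * ω / (1 - ω) * τ * (∑ i, g i ^ 2) * s ^ 2 := by
  have hτ := h.τ0
  have ha : √(1 / (2 * τ)) ≠ 0 := (Real.sqrt_pos.2 (by positivity)).ne'
  have hna := h.na hω0 hω1 hO F
  have h1 := convex_of_hs (κ := 2 * ω / (1 - ω) * τ * ∑ i, g i ^ 2) hna.bn ha 0 g
    fun f => by
      refine le_trans (le_of_eq ?_) (hna.hsN_ge f g)
      rw [Real.sq_sqrt (by positivity)]
      field_simp
  have hc : 0 < H896.cN (dbM M R τ) (√(1 / (2 * τ)) • Rᵀ) := H896.cN_pos h.nn2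
  have h2 := h1.add (convexOn_const
    (Real.log (H896.cN (dbM M R τ) (√(1 / (2 * τ)) • Rᵀ))) convex_univ)
  refine h2.congr fun s _ => ?_
  simp only [Pi.add_apply]
  rw [h.PA_N, zero_add, mulVec_smul, Real.log_mul hc.ne' (H145.Zn_pos h.sym h.em _).ne']
  ring

end CH

end

end Vale.Agent.P159.H764
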