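import Vale.Agent.P159.H764.NcM
import Vale.Agent.P159.H963.NeuI

/-!
P159 / near-convexity of the neutral model in every background, covariance letters (helper764):
for neutral sources `J` and neutral observed directions `Rᵀ g`
`qf (Cm (nM w M τ x₀) J) (Rᵀ g) ≤ (1 + 4 ω / (1-ω)) / τ * |g|²`.
-/

namespace Vale.Agent.P159.H764

open MeasureTheory ProbabilityTheory Finset Matrix
open Vale.Agent.P159.H37 (gau Zn ZM wM qf bf Cm Zs re)
open Vale.Agent.P159.TM.H104 (EM Ex Cv Lg li nh Gr)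
open Vale.Agent.P159.T1.H897 (Hol)
open Vale.Agent.P159.H159 (Fer)
open Vale.Agent.P159.H145 (cs Per OscZ)
open Vale.Agent.P159.H963 (GrI MF nM ntr Neu pin)

set_option linter.unusedSectionVars false

noncomputable section

variable {V I : Type} [Fintype V] [Fintype I] [DecidableEq V] [DecidableEq I]
variable {w : (V → ℤ) → ℝ} {M : Matrix V V ℝ} {R : Matrix I V ℝ} {ρ : I → ℝ} {τ ω : ℝ}

omit [Fintype V] [DecidableEq V] in
lemma gri_of_per (hw : Per w) : GrI w := by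
  have h1 : ∀ (n : ℕ) (h : V → ℤ), w (fun x => h x + n) = w h := by
    intro n
    induction n with
    | zero => intro h; simp
    | succ n ih =>
      intro h
      have e : (fun x => h x + ((n + 1 : ℕ) : ℤ)) = (fun x => h x + (n : ℤ)) + 1 := by
        funext x
        simp only [Pi.add_apply, Pi.one_apply]
        push_cast
        ring
      rw [e, hw, ih]
  intro h n
  obtain ⟨k, hk | hk⟩ := n.eq_nat_or_neg
  · rw [hk]
    exact h1 k h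
  · have h2 := h1 k fun x => h x + n
    rw [← h2]
    congr 1
    funext x
    rw [hk]
    ring

namespace CH

variable (h : CH w M R ρ τ)

include h

theorem mf : MF M τ where
  symm := h.sym
  row x := by
    have h1 := congrFun h.eig1 x
    simp only [mulVec, dotProduct, mul_one, Pi.smul_apply, smul_eq_mul] at h1
    exact h1
  coer := h.coer

variable [Nonempty V]

theorem em_n (hw : 0 < w 0) (x₀ : V) : EM (nM w M τ x₀) := by
  obtain ⟨Wb, hb⟩ := h.wb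
  obtain ⟨m0, hm0, hc⟩ := h.coer
  exact H963.em_neu h.w0 hb hw h.sym hm0 h.mf.row hc x₀

theorem Zn_eq (hw : 0 < w 0) (x₀ : V) (F : V → ℝ) :
    Zn w M F = Real.sqrt (2 * Real.pi / (τ * Fintype.card V)) *
      (Real.exp (-(qf (ntr M τ) F / 2)) * Zs (nM w M τ x₀) (ntr M τ *ᵥ F)) :=
  H963.Zn_eq (gri_of_per h.per) h.w0 h.sym h.τ0 h.mf.row (h.em_n hw x₀) F

lemma log_Zn (hw : 0 < w 0) (x₀ : V) (F : V → ℝ) :
    Real.log (Zn w M F) = Real.log (Real.sqrt (2 * Real.pi / (τ * Fintype.card V))) -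
      (qf (ntr M τ) F / 2 - Lg (nM w M τ x₀) (ntr M τ *ᵥ F)) := by
  have hN : (0 : ℝ) < Fintype.card V := Nat.cast_pos.2 Fintype.card_pos
  have hτ := h.τ0
  have h1 : 0 < Zs (nM w M τ x₀) (ntr M τ *ᵥ F) := TM.H104.T_one_pos (h.em_n hw x₀) _
  rw [h.Zn_eq hw x₀, Real.log_mul (Real.sqrt_pos.2 (by positivity)).ne'
    (mul_pos (Real.exp_pos _) h1).ne', Real.log_mul (Real.exp_pos _).ne' h1.ne', Real.log_exp]
  unfold Lg Zs
  ring

/-- the second derivative of the neutral free energy as a covariance -/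
theorem hs_N (hw : 0 < w 0) (x₀ : V) (F₀ : V → ℝ) (f g : I → ℝ) (hg : Neu (Rᵀ *ᵥ g)) :
    hs (√(1 / (2 * τ))) (Nf w M R τ F₀) f g = τ * (∑ i, g i ^ 2) -
      τ ^ 2 * qf (Cm (nM w M τ x₀) (ntr M τ *ᵥ (F₀ + Rᵀ *ᵥ f))) (Rᵀ *ᵥ g) := by
  have hτ := h.τ0
  have ha : √(1 / (2 * τ)) ≠ 0 := (Real.sqrt_pos.2 (by positivity)).ne'
  have hb := h.bp_N F₀
  have hE := h.em_n hw x₀
  have hM0 : (ntr M τ)ᵀ = ntr M τ := H963.ntr_transpose h.sym τ
  have hv : ntr M τ *ᵥ (Rᵀ *ᵥ g) = τ • (Rᵀ *ᵥ g) := by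
    rw [H963.ntr_of_neu M τ hg]
    exact h.eig g
  have hq : qf (ntr M τ) (Rᵀ *ᵥ g) = τ * ∑ i, g i ^ 2 := by
    rw [H963.qf_ntr_neu M τ hg, h.qf_eig]
  set v := Rᵀ *ᵥ g with hvdef
  have hc : 0 < H896.cN (dbM M R τ) (√(1 / (2 * τ)) • Rᵀ) := H896.cN_pos h.nn2
  have line : ∀ s : ℝ, F₀ + Rᵀ *ᵥ (f + s • g) = (F₀ + Rᵀ *ᵥ f) + s • v := by
    intro s
    rw [mulVec_add, mulVec_smul, hvdef, add_assoc]
  have k1 : ∀ s : ℝ, d1 (√(1 / (2 * τ))) (Nf w M R τ F₀) (f + s • g) g =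
      DZ (nM w M τ x₀) (ntr M τ) τ ((F₀ + Rᵀ *ᵥ f) + s • v) v := by
    intro s
    have h1 := hasDerivAt_d0 hb ha f g s
    have h2 := hasDerivAt_pot hM0 hE hv (F₀ + Rᵀ *ᵥ f) s
    have e : (fun s : ℝ => -Real.log (PA (√(1 / (2 * τ))) (Nf w M R τ F₀) (f + s • g))) =
        fun s : ℝ => (qf (ntr M τ) ((F₀ + Rᵀ *ᵥ f) + s • v) / 2 -
          Lg (nM w M τ x₀) (ntr M τ *ᵥ ((F₀ + Rᵀ *ᵥ f) + s • v))) +
          (-Real.log (Real.sqrt (2 * Real.pi / (τ * Fintype.card V))) -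
            Real.log (H896.cN (dbM M R τ) (√(1 / (2 * τ)) • Rᵀ))) := by
      funext s
      rw [h.PA_N, Real.log_mul hc.ne' (H145.Zn_pos h.sym h.em _).ne', line,
        h.log_Zn hw x₀]
      ring
    rw [e] at h1
    exact h1.unique (h2.add_const _)
  have h1 := hasDerivAt_d1 hb ha f g 0
  have h2 := hasDerivAt_DZ (u := v) hE hv (F₀ + Rᵀ *ᵥ f) 0
  have e : (fun s : ℝ => d1 (√(1 / (2 * τ))) (Nf w M R τ F₀) (f + s • g) g) =
      fun s : ℝ => DZ (nM w M τ x₀) (ntr M τ) τ ((F₀ + Rᵀ *ᵥ f) + s • v) v := funext k1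
  rw [e] at h1
  have h3 := h1.unique h2
  rw [zero_smul, add_zero] at h3
  rw [h3, zero_smul, add_zero, H37.bf_self, H159.Cv_li hE, H37.bf_self, hq]

/-- **covariances of the neutral model in every background** -/
theorem Cm_n_le (hω0 : 0 ≤ ω) (hω1 : ω < 1) (hO : OscZ w (dbM M R τ) ω) (hw : 0 < w 0)
    (x₀ : V) {J : V → ℝ} (hJ : Neu J) {g : I → ℝ} (hg : Neu (Rᵀ *ᵥ g)) :
    qf (Cm (nM w M τ x₀) J) (Rᵀ *ᵥ g) ≤ (1 + 4 * ω / (1 - ω)) / τ * ∑ i, g i ^ 2 := by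
  have hτ := h.τ0
  have hF : ntr M τ *ᵥ (M⁻¹ *ᵥ J) = J := by
    rw [H963.ntr_of_neu M τ (h.mf.neu_inv hJ), h.mf.mulVec_inv]
  have h1 := h.ncN hω0 hω1 hO (M⁻¹ *ᵥ J) g
  rw [h.hs_N hw x₀ _ _ _ hg, mulVec_zero, add_zero, hF] at h1
  rw [div_mul_eq_mul_div, le_div_iff₀ hτ]
  have h2 : τ * (qf (Cm (nM w M τ x₀) J) (Rᵀ *ᵥ g) * τ) ≤
      τ * ((1 + 4 * ω / (1 - ω)) * ∑ i, g i ^ 2) := by
    nlinarith [h1]
  exact le_of_mul_le_mul_left h2 hτ

end CH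

end

end Vale.Agent.P159.H764
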