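import Vale.Agent.P159.H764.Half
import Vale.Agent.P159.TM.H215.C3

/-!
P159 / **near-convexity in every real background** (helper764).

`w` a bounded nonnegative weight with `w (h + 1) = w h`, mass `t` at every site, positively
correlated heights in every background (FKG), and `ω < 1` such that at the mass `2 t`
`|Z(F) - Z⁰(F)| ≤ ω Z⁰(F)` for every real `F` (`Z⁰` = average over constants). Then for all `F, g`
* `U_t''(F)[g,g] ≥ - 8 ω t / (1-ω)² |g|²`,
* `U⁰_t''(F)[g,g] ≥ - 4 ω t / (1-ω) |g|²`.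
-/

namespace Vale.Agent.P159.H764

open MeasureTheory ProbabilityTheory Finset
open Vale.Agent.P159.H37 (gau Zn Un ZM)
open Vale.Agent.P159.TM.H870 (gr Zr lin)
open Vale.Agent.P159.TM.H104 (EM Ex Cv Lg li nh Gr ddU dU U Cf)
open Vale.Agent.P159.TM.H215 (Dg Hs)

noncomputable section

section model

variable {V : Type*} [Fintype V] {w : (V → ℤ) → ℝ} {Wb : ℝ}

/-- the background shifted by a constant -/
def shc (F : V → ℝ) (c : ℝ) : V → ℝ := fun x => F x + c

omit [Fintype V] in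
lemma shc_eq (F : V → ℝ) (c : ℝ) : shc F c = F + c • (fun _ => (1 : ℝ)) := by
  funext x; simp [shc]

omit [Fintype V] in
lemma shc_shc (F : V → ℝ) (c d : ℝ) : shc (shc F c) d = shc F (c + d) := by
  funext x; simp [shc]; ring

omit [Fintype V] in
lemma shc_zero (F : V → ℝ) : shc F 0 = F := by
  funext x; simp [shc]

omit [Fintype V] in
lemma shc_add (F G : V → ℝ) (c : ℝ) : shc (F + G) c = shc F c + G := by
  funext x; simp [shc]; ring

omit [Fintype V] in
lemma continuous_shc (F : V → ℝ) : Continuous fun c : ℝ => shc F c := by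
  unfold shc
  fun_prop

/-- the mass matrix `t` and the mass function `t` -/
lemma ZM_cm [DecidableEq V] (w : (V → ℤ) → ℝ) (t : ℝ) (F : V → ℝ) :
    ZM w (t • (1 : Matrix V V ℝ)) F = Zr w (cm t) F := by
  unfold ZM Zr gr
  refine tsum_congr fun h => ?_
  rw [H37.qf_smul_one]
  congr 3
  rw [Finset.mul_sum, Finset.sum_div]
  refine Finset.sum_congr rfl fun x _ => ?_
  simp only [Pi.sub_apply, H37.re, cm]
  ring

/-- neutral partition function of mass `t` -/
def Nt (w : (V → ℤ) → ℝ) (t : ℝ) (F : V → ℝ) : ℝ := ∫ c in (0 : ℝ)..1, Zr w (cm t) (shc F c)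

lemma Zn_cm [DecidableEq V] (w : (V → ℤ) → ℝ) (t : ℝ) (F : V → ℝ) :
    Zn w (t • (1 : Matrix V V ℝ)) F = Nt w t F := by
  unfold Zn Nt
  refine intervalIntegral.integral_congr fun c _ => ?_
  simp only [ZM_cm]
  rfl

variable (hw0 : ∀ h, 0 ≤ w h) (hwb : ∀ h, w h ≤ Wb) (hp : ∃ h, 0 < w h)
  (hs : ∀ h, w (h + 1) = w h)

include hs in
lemma Zr_per (t : ℝ) (F : V → ℝ) : Function.Periodic (fun c : ℝ => Zr w (cm t) (shc F c)) 1 := by
  intro c
  have := TM.H215.Zr_one hs (cm t) (shc F c)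
  simp only
  rw [← this]
  congr 1
  funext x
  simp only [shc]
  ring

include hs in
/-- the neutral partition function does not see constants -/
lemma Nt_shc (t : ℝ) (F : V → ℝ) (d : ℝ) : Nt w t (shc F d) = Nt w t F := by
  unfold Nt
  have h1 : ∀ c : ℝ, Zr w (cm t) (shc (shc F d) c) = (fun c => Zr w (cm t) (shc F c)) (c + d) := by
    intro c
    simp only [shc_shc, add_comm]
  simp_rw [h1]
  rw [intervalIntegral.integral_comp_add_right (fun c => Zr w (cm t) (shc F c)), zero_add,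
    add_comm 1 d]
  have h2 := (Zr_per hs t F).intervalIntegral_add_eq d 0
  rw [zero_add] at h2
  exact h2

include hw0 hwb hp

lemma cont_c {t : ℝ} (ht : 0 < t) (F : V → ℝ) : Continuous fun c : ℝ => Zr w (cm t) (shc F c) :=
  (continuous_Zr hw0 hwb hp ht).comp (continuous_shc F)

lemma bp_Nt {t : ℝ} (ht : 0 < t) : BP fun F : V → ℝ => Nt w t F := by
  have hZ := bp_Zr hw0 hwb hp ht
  obtain ⟨B, hB⟩ := hZ.bdd
  refine ⟨?_, fun F => ?_, B, fun F => ?_⟩
  · unfold Nt
    have h1 : ∀ F : V → ℝ, ∫ c in (0 : ℝ)..1, Zr w (cm t) (shc F c) =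
        ∫ c in Set.Ioc (0 : ℝ) 1, Zr w (cm t) (shc F c) := fun F =>
      intervalIntegral.integral_of_le zero_le_one
    simp_rw [h1]
    have h2 : Measurable fun p : (V → ℝ) × ℝ => Zr w (cm t) (shc p.1 p.2) := by
      refine hZ.meas.comp ?_
      unfold shc
      fun_prop
    exact (h2.stronglyMeasurable.integral_prod_right
      (ν := (volume.restrict (Set.Ioc (0 : ℝ) 1)))).measurable
  · exact intervalIntegral.intervalIntegral_pos_of_pos_on
      ((cont_c hw0 hwb hp ht F).intervalIntegrable _ _) (fun c _ => hZ.pos _) zero_lt_one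
  · have h1 : Nt w t F ≤ ∫ c in (0 : ℝ)..1, B :=
      intervalIntegral.integral_mono_on zero_le_one ((cont_c hw0 hwb hp ht F).intervalIntegrable _ _)
        (by simp) fun c _ => hB _
    simpa using h1

/-- **the half step of the neutral model** -/
theorem PA_Nt {t : ℝ} (ht : 0 < t) (F : V → ℝ) :
    PA (Real.sqrt (1 / (2 * t))) (fun F => Nt w (2 * t) F) F =
      ((Real.sqrt 2)⁻¹) ^ (Fintype.card V) * Nt w t F := by
  have h2t : 0 < 2 * t := by linarith
  have hZ := bp_Zr hw0 hwb hp h2t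
  obtain ⟨B, hB⟩ := hZ.bdd
  set a := Real.sqrt (1 / (2 * t)) with ha
  unfold PA Nt
  have h1 : ∀ F : V → ℝ, ∫ c in (0 : ℝ)..1, Zr w (cm (2 * t)) (shc F c) =
      ∫ c in Set.Ioc (0 : ℝ) 1, Zr w (cm (2 * t)) (shc F c) := fun F =>
    intervalIntegral.integral_of_le zero_le_one
  have h1' : ∫ c in (0 : ℝ)..1, Zr w (cm t) (shc F c) =
      ∫ c in Set.Ioc (0 : ℝ) 1, Zr w (cm t) (shc F c) :=
    intervalIntegral.integral_of_le zero_le_one
  simp_rw [h1]
  rw [h1', ← integral_const_mul, integral_integral_swap]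
  · refine integral_congr_ae (Filter.Eventually.of_forall fun c => ?_)
    simp only
    rw [← PA_Zr hw0 hwb ht (shc F c)]
    unfold PA
    refine integral_congr_ae (Filter.Eventually.of_forall fun z => ?_)
    simp only
    rw [shc_add]
  · refine Integrable.mono' (integrable_const B) ?_ (Filter.Eventually.of_forall fun p => ?_)
    · refine Measurable.aestronglyMeasurable ?_
      refine hZ.meas.comp ?_
      unfold shc
      fun_prop
    · simp only [Function.uncurry]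
      rw [Real.norm_eq_abs, abs_of_pos (hZ.pos _)]
      exact hB _

/-! ### second derivatives as variances -/

/-- variance of `<g, z>` in the half step of the integer model -/
def vI (w : (V → ℤ) → ℝ) (t : ℝ) (F g : V → ℝ) : ℝ :=
  vrW (gau V) (fun z => Zr w (cm (2 * t)) (F + Real.sqrt (1 / (2 * t)) • z)) (lz g)

/-- variance of `<g, z>` in the half step of the neutral model -/
def vN (w : (V → ℤ) → ℝ) (t : ℝ) (F g : V → ℝ) : ℝ :=
  vrW (gau V) (fun z => Nt w (2 * t) (F + Real.sqrt (1 / (2 * t)) • z)) (lz g)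

omit hw0 hwb hp in
lemma sqrt_pos' {t : ℝ} (ht : 0 < t) : 0 < Real.sqrt (1 / (2 * t)) :=
  Real.sqrt_pos.2 (by positivity)

omit hw0 hwb hp in
lemma sqrt_sq' {t : ℝ} (ht : 0 < t) : Real.sqrt (1 / (2 * t)) ^ 2 = 1 / (2 * t) :=
  Real.sq_sqrt (by positivity)

/-- first derivative, integer model -/
lemma dU_eq {t : ℝ} (ht : 0 < t) (F g : V → ℝ) :
    dU w (cm t) F g = -dP (Real.sqrt (1 / (2 * t))) (fun F => Zr w (cm (2 * t)) F) F g := by
  have h2t : 0 < 2 * t := by linarith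
  have h1 := TM.H104.hasDerivAt_U (m := cm t) (fun _ => ht) hw0 hwb hp F g 0
  have h2 := (hasDerivAt_logPA (bp_Zr hw0 hwb hp h2t) (sqrt_pos' ht).ne' F g 0).neg
  rw [zero_smul, add_zero] at h1 h2
  set K := ((Real.sqrt 2)⁻¹) ^ (Fintype.card V) with hK
  have hKp : 0 < K := by positivity
  have hZ : ∀ F, 0 < Zr w (cm t) F := fun F => TM.H104.Zr_pos (m := cm t) (fun _ => ht) hw0 hwb hp F
  have e : (fun s : ℝ => U w (cm t) (F + s • g)) = fun s : ℝ =>
      -Real.log (PA (Real.sqrt (1 / (2 * t))) (fun F => Zr w (cm (2 * t)) F) (F + s • g)) +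
        (Real.log K + Real.log (Zr w (cm t) 0)) := by
    funext s
    rw [PA_Zr hw0 hwb ht, Real.log_mul hKp.ne' (hZ _).ne']
    unfold U
    rw [Real.log_div (hZ _).ne' (hZ _).ne']
    ring
  rw [e] at h1
  exact h1.unique (h2.add_const _)

/-- **second derivative, integer model** -/
theorem ddU_eq {t : ℝ} (ht : 0 < t) (F g : V → ℝ) :
    ddU w (cm t) F g g = 2 * t * ((∑ x, g x ^ 2) - vI w t F g) := by
  have h2t : 0 < 2 * t := by linarith
  have h1 := TM.H104.hasDerivAt_dU (m := cm t) (fun _ => ht) hw0 hwb hp F g g 0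
  have h2 := (hasDerivAt_dP (bp_Zr hw0 hwb hp h2t) (sqrt_pos' ht).ne' F g).neg
  rw [zero_smul, add_zero] at h1
  have e : (fun s : ℝ => dU w (cm t) (F + s • g) g) = fun s : ℝ =>
      -dP (Real.sqrt (1 / (2 * t))) (fun F => Zr w (cm (2 * t)) F) (F + s • g) g := by
    funext s
    exact dU_eq hw0 hwb hp ht _ g
  rw [e] at h1
  have h3 := h1.unique h2
  rw [h3, sqrt_sq' ht]
  unfold vI
  field_simp
  ring

/-- first derivative of the neutral free energy -/
def dN (w : (V → ℤ) → ℝ) (t : ℝ) (F g : V → ℝ) : ℝ :=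
  -dP (Real.sqrt (1 / (2 * t))) (fun F => Nt w (2 * t) F) F g

/-- second derivative of the neutral free energy -/
def ddN (w : (V → ℤ) → ℝ) (t : ℝ) (F g : V → ℝ) : ℝ :=
  2 * t * ((∑ x, g x ^ 2) - vN w t F g)

/-- neutral free energy (`Un` of `H37/Spec0` for the mass `t`) -/
def UN (w : (V → ℤ) → ℝ) (t : ℝ) (F : V → ℝ) : ℝ := -Real.log (Nt w t F / Nt w t 0)

omit hw0 hwb hp in
lemma Un_cm [DecidableEq V] (w : (V → ℤ) → ℝ) (t : ℝ) (F : V → ℝ) :
    Un w (t • (1 : Matrix V V ℝ)) F = UN w t F := by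
  unfold Un UN
  rw [Zn_cm, Zn_cm]

theorem hasDerivAt_UN {t : ℝ} (ht : 0 < t) (F g : V → ℝ) (τ : ℝ) :
    HasDerivAt (fun τ : ℝ => UN w t (F + τ • g)) (dN w t (F + τ • g) g) τ := by
  have h2t : 0 < 2 * t := by linarith
  have h2 := (hasDerivAt_logPA (bp_Nt hw0 hwb hp h2t) (sqrt_pos' ht).ne' F g τ).neg
  set K := ((Real.sqrt 2)⁻¹) ^ (Fintype.card V) with hK
  have hKp : 0 < K := by positivity
  have hZ : ∀ F, 0 < Nt w t F := (bp_Nt hw0 hwb hp ht).pos
  have e : (fun s : ℝ => UN w t (F + s • g)) = fun s : ℝ =>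
      -Real.log (PA (Real.sqrt (1 / (2 * t))) (fun F => Nt w (2 * t) F) (F + s • g)) +
        (Real.log K + Real.log (Nt w t 0)) := by
    funext s
    rw [PA_Nt hw0 hwb hp ht, Real.log_mul hKp.ne' (hZ _).ne']
    unfold UN
    rw [Real.log_div (hZ _).ne' (hZ _).ne']
    ring
  rw [e]
  exact h2.add_const _

theorem hasDerivAt_dN {t : ℝ} (ht : 0 < t) (F g : V → ℝ) (τ : ℝ) :
    HasDerivAt (fun τ : ℝ => dN w t (F + τ • g) g) (ddN w t (F + τ • g) g) τ := by
  have h2t : 0 < 2 * t := by linarith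
  have h2 := (hasDerivAt_dP (bp_Nt hw0 hwb hp h2t) (sqrt_pos' ht).ne' (F + τ • g) g).neg
  have h1 : HasDerivAt (fun σ : ℝ => σ - τ) 1 τ := (hasDerivAt_id τ).sub_const τ
  rw [← sub_self τ] at h2
  have h3 := HasDerivAt.comp (h := fun σ : ℝ => σ - τ) τ h2 h1
  refine (h3.congr_of_eventuallyEq (Filter.Eventually.of_forall fun σ => ?_)).congr_deriv ?_
  · simp only [Function.comp_apply, dN]
    congr 2
    rw [add_assoc, ← add_smul]
    congr 2
    ring
  · rw [sqrt_sq' ht]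
    unfold ddN vN
    field_simp
    ring

/-! ### the Dirichlet form -/

/-- row sums of the Hessian -/
def RS (w : (V → ℤ) → ℝ) (t : ℝ) (F : V → ℝ) (x : V) : ℝ :=
  t - ∑ y, t * t * Cf w (cm t) F (fun h => (h x : ℝ)) (fun h => (h y : ℝ))

lemma Cf_lin_lin {t : ℝ} (ht : 0 < t) (F g k : V → ℝ) :
    Cf w (cm t) F (lin (cm t) g) (lin (cm t) k) =
      ∑ x, ∑ y, t * t * g x * k y * Cf w (cm t) F (fun h => (h x : ℝ)) (fun h => (h y : ℝ)) := by
  have hm : ∀ x : V, 0 < cm t x := fun _ => ht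
  unfold Cf
  rw [TM.H215.ex_lin hm hw0 hwb hp, TM.H215.ex_lin hm hw0 hwb hp]
  have h1 := TM.H215.ex_sum (m := cm t) hm hw0 hwb hp (univ : Finset (V × V))
    (fun p => t * t * g p.1 * k p.2) (fun p h => (h p.1 : ℝ) * (h p.2 : ℝ))
    (fun p => (TM.H215.gr_site p.1).mul (TM.H215.gr_site p.2)) F
  have e : (fun h : V → ℤ => lin (cm t) g h * lin (cm t) k h)
      = fun h : V → ℤ => ∑ p : V × V, t * t * g p.1 * k p.2 * ((h p.1 : ℝ) * (h p.2 : ℝ)) := by
    funext h
    unfold lin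
    rw [Finset.sum_mul_sum, Fintype.sum_prod_type]
    refine Finset.sum_congr rfl fun x _ => Finset.sum_congr rfl fun y _ => ?_
    simp only [cm]
    ring
  rw [e, h1, Fintype.sum_prod_type, Finset.sum_mul_sum, ← Finset.sum_sub_distrib]
  refine Finset.sum_congr rfl fun x _ => ?_
  rw [← Finset.sum_sub_distrib]
  refine Finset.sum_congr rfl fun y _ => ?_
  simp only [cm]
  ring

/-- the Hessian is the sum of the row sums and a Dirichlet form -/
theorem ddU_dir {t : ℝ} (ht : 0 < t) (F g : V → ℝ) :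
    ddU w (cm t) F g g = ∑ x, g x ^ 2 * RS w t F x +
      (1 / 2) * ∑ x, ∑ y, t * t * Cf w (cm t) F (fun h => (h x : ℝ)) (fun h => (h y : ℝ)) *
        (g x - g y) ^ 2 := by
  have hsymm : ∀ x y : V, Cf w (cm t) F (fun h => (h x : ℝ)) (fun h => (h y : ℝ)) =
      Cf w (cm t) F (fun h => (h y : ℝ)) (fun h => (h x : ℝ)) := by
    intro x y
    unfold Cf
    simp only [mul_comm]
  unfold ddU
  rw [Cf_lin_lin hw0 hwb hp ht]
  unfold RS
  set C : V → V → ℝ := fun x y => Cf w (cm t) F (fun h => (h x : ℝ)) (fun h => (h y : ℝ)) with hC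
  have e1 : ∑ x, ∑ y, t * t * C x y * (g x - g y) ^ 2 =
      2 * (∑ x, ∑ y, t * t * C x y * g x ^ 2) - 2 * ∑ x, ∑ y, t * t * g x * g y * C x y := by
    have e2 : ∑ x, ∑ y, t * t * C x y * g y ^ 2 = ∑ x, ∑ y, t * t * C x y * g x ^ 2 := by
      rw [Finset.sum_comm]
      refine Finset.sum_congr rfl fun x _ => Finset.sum_congr rfl fun y _ => ?_
      rw [hC]
      simp only
      rw [hsymm y x]
    have e3 : ∑ x, ∑ y, t * t * C x y * (g x - g y) ^ 2 =
        (∑ x, ∑ y, t * t * C x y * g x ^ 2) + (∑ x, ∑ y, t * t * C x y * g y ^ 2) -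
          2 * ∑ x, ∑ y, t * t * g x * g y * C x y := by
      rw [Finset.mul_sum, ← Finset.sum_add_distrib, ← Finset.sum_sub_distrib]
      refine Finset.sum_congr rfl fun x _ => ?_
      rw [Finset.mul_sum, ← Finset.sum_add_distrib, ← Finset.sum_sub_distrib]
      refine Finset.sum_congr rfl fun y _ => ?_
      ring
    rw [e3, e2]
    ring
  change ∑ x, cm t x * g x * g x - ∑ x, ∑ y, t * t * g x * g y * C x y =
    ∑ x, g x ^ 2 * (t - ∑ y, t * t * C x y) + 1 / 2 * ∑ x, ∑ y, t * t * C x y * (g x - g y) ^ 2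
  rw [e1]
  have e4 : ∑ x, g x ^ 2 * (t - ∑ y, t * t * C x y) =
      (∑ x, cm t x * g x * g x) - ∑ x, ∑ y, t * t * C x y * g x ^ 2 := by
    rw [← Finset.sum_sub_distrib]
    refine Finset.sum_congr rfl fun x _ => ?_
    rw [mul_sub, Finset.mul_sum]
    congr 1
    · simp only [cm]; ring
    · refine Finset.sum_congr rfl fun y _ => ?_
      ring
  rw [e4]
  ring

lemma continuous_RS {t : ℝ} (ht : 0 < t) (x : V) : Continuous fun F : V → ℝ => RS w t F x := by
  unfold RS
  refine continuous_const.sub (continuous_finsetSum _ fun y _ => continuous_const.mul ?_)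
  exact TM.H104.continuous_C (m := cm t) (fun _ => ht) hw0 hwb hp (TM.H215.gr_site x)
    (TM.H215.gr_site y)

include hs in
/-- the row sums have mean zero over the constants -/
theorem int_RS {t : ℝ} (ht : 0 < t) (F : V → ℝ) (x : V) :
    ∫ c in (0 : ℝ)..1, RS w t (shc F c) x = 0 := by
  classical
  have hm : ∀ x : V, 0 < cm t x := fun _ => ht
  have h1 : ∀ c : ℝ, HasDerivAt (fun c : ℝ => Dg w (cm t) (shc F c) x) (RS w t (shc F c) x) c := by
    intro c
    have h2 := TM.H215.hasDerivAt_Dg (m := cm t) hm hw0 hwb hp F (fun _ => 1) c x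
    have e : (fun c : ℝ => Dg w (cm t) (fun x => F x + c * 1) x) =
        fun c : ℝ => Dg w (cm t) (shc F c) x := by
      funext c
      simp only [mul_one]
      rfl
    rw [e] at h2
    refine h2.congr_deriv ?_
    unfold RS Hs
    simp only [mul_one]
    rw [Finset.sum_sub_distrib, Finset.sum_ite_eq, if_pos (Finset.mem_univ x)]
    rfl
  rw [intervalIntegral.integral_eq_sub_of_hasDerivAt (fun c _ => h1 c)]
  · have h3 := TM.H215.Dg_one (m := cm t) hm hw0 hwb hp hs F
    have h4 : Dg w (cm t) (shc F 1) x = Dg w (cm t) F x := congrFun h3 x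
    rw [h4, shc_zero, sub_self]
  · exact ((continuous_RS hw0 hwb hp ht x).comp (continuous_shc F)).intervalIntegrable _ _

lemma continuous_ddU {t : ℝ} (ht : 0 < t) (g : V → ℝ) :
    Continuous fun F : V → ℝ => ddU w (cm t) F g g := by
  unfold ddU
  refine continuous_const.sub ?_
  have hg : Gr (lin (cm t) g) := by rw [TM.H104.lin_li]; exact Gr.li _
  exact TM.H104.continuous_C (m := cm t) (fun _ => ht) hw0 hwb hp hg hg

include hs in
/-- **the averaged Hessian is a Dirichlet form** -/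
theorem int_ddU_nonneg {t : ℝ} (ht : 0 < t)
    (hfkg : ∀ (F : V → ℝ) (x y : V), 0 ≤ Cf w (cm t) F (fun h => (h x : ℝ)) (fun h => (h y : ℝ)))
    (F g : V → ℝ) : 0 ≤ ∫ c in (0 : ℝ)..1, ddU w (cm t) (shc F c) g g := by
  have h1 : ∀ F : V → ℝ, ∑ x, g x ^ 2 * RS w t F x ≤ ddU w (cm t) F g g := by
    intro F
    rw [ddU_dir hw0 hwb hp ht F g]
    have : 0 ≤ ∑ x, ∑ y, t * t * Cf w (cm t) F (fun h => (h x : ℝ)) (fun h => (h y : ℝ)) *
        (g x - g y) ^ 2 := Finset.sum_nonneg fun x _ => Finset.sum_nonneg fun y _ =>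
      mul_nonneg (mul_nonneg (by positivity) (hfkg F x y)) (sq_nonneg _)
    linarith
  have hc : ∀ x, Continuous fun c : ℝ => g x ^ 2 * RS w t (shc F c) x := fun x =>
    continuous_const.mul ((continuous_RS hw0 hwb hp ht x).comp (continuous_shc F))
  have h2 : ∫ c in (0 : ℝ)..1, ∑ x, g x ^ 2 * RS w t (shc F c) x = 0 := by
    rw [intervalIntegral.integral_finsetSum fun x _ => (hc x).intervalIntegrable _ _]
    refine Finset.sum_eq_zero fun x _ => ?_
    rw [intervalIntegral.integral_const_mul, int_RS hw0 hwb hp hs ht F x, mul_zero]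
  refine h2.symm.le.trans ?_
  refine intervalIntegral.integral_mono_on zero_le_one ?_ ?_ fun c _ => h1 _
  · exact (continuous_finsetSum _ fun x _ => hc x).intervalIntegrable _ _
  · exact ((continuous_ddU hw0 hwb hp ht g).comp (continuous_shc F)).intervalIntegrable _ _

/-! ### the result -/

/-- the hypotheses on the second derivatives of the two models -/
structure NC (w : (V → ℤ) → ℝ) (t ω : ℝ) : Prop where
  ω0 : 0 ≤ ω
  ω1 : ω < 1
  fkg : ∀ (F : V → ℝ) (x y : V), 0 ≤ Cf w (cm t) F (fun h => (h x : ℝ)) (fun h => (h y : ℝ))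
  chg : ∀ F : V → ℝ, |Zr w (cm (2 * t)) F - Nt w (2 * t) F| ≤ ω * Nt w (2 * t) F

variable {t ω : ℝ}

/-- the two variances are comparable -/
lemma vI_le_vN (ht : 0 < t) (h : NC w t ω) (F g : V → ℝ) :
    vI w t F g ≤ (1 + ω) / (1 - ω) * vN w t F g := by
  have h2t : 0 < 2 * t := by linarith
  have hZ := bp_Zr hw0 hwb hp h2t
  have hN := bp_Nt hw0 hwb hp h2t
  refine vrW_comp (by linarith [h.ω1]) (hZ.int0 _ F) (hZ.int1 _ F g) (hZ.int2 _ F g)
    (hN.int0 _ F) (hN.int1 _ F g) (hN.int2 _ F g) (hN.PA_pos _ F) (fun z => (hN.pos _).le)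
    (fun z => ?_) fun z => ?_
  · have := abs_le.1 (h.chg (F + Real.sqrt (1 / (2 * t)) • z))
    linarith [this.1]
  · have := abs_le.1 (h.chg (F + Real.sqrt (1 / (2 * t)) • z))
    linarith [this.2]

lemma vN_le_vI (ht : 0 < t) (h : NC w t ω) (F g : V → ℝ) :
    vN w t F g ≤ (1 + ω) / (1 - ω) * vI w t F g := by
  have h2t : 0 < 2 * t := by linarith
  have hZ := bp_Zr hw0 hwb hp h2t
  have hN := bp_Nt hw0 hwb hp h2t
  have h1 : 0 < 1 - ω := by linarith [h.ω1]
  have h2 : 0 < 1 + ω := by linarith [h.ω0]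
  have key := vrW_comp (P := gau V) (a := (1 + ω)⁻¹) (b := (1 - ω)⁻¹) (inv_pos.2 h2)
    (hN.int0 (Real.sqrt (1 / (2 * t))) F) (hN.int1 _ F g) (hN.int2 _ F g)
    (hZ.int0 (Real.sqrt (1 / (2 * t))) F) (hZ.int1 _ F g) (hZ.int2 _ F g) (hZ.PA_pos _ F)
    (fun z => (hZ.pos _).le) (fun z => ?_) fun z => ?_
  · have e : (1 - ω)⁻¹ / (1 + ω)⁻¹ = (1 + ω) / (1 - ω) := by
      field_simp
    rw [e] at key
    exact key
  · have := abs_le.1 (h.chg (F + Real.sqrt (1 / (2 * t)) • z))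
    rw [inv_mul_le_iff₀ h2]
    linarith [this.2]
  · have := abs_le.1 (h.chg (F + Real.sqrt (1 / (2 * t)) • z))
    rw [le_inv_mul_iff₀ h1]
    linarith [this.1]

include hs in
omit hw0 hwb hp in
lemma vN_shc (F g : V → ℝ) (c : ℝ) : vN w t (shc F c) g = vN w t F g := by
  unfold vN
  congr 1
  funext z
  rw [← shc_add, Nt_shc hs]

include hs

/-- **uniform bound of the variance of the neutral half step** -/
theorem vN_le (ht : 0 < t) (h : NC w t ω) (F g : V → ℝ) :
    vN w t F g ≤ (1 + ω) / (1 - ω) * ∑ x, g x ^ 2 := by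
  have hr : 0 ≤ (1 + ω) / (1 - ω) := div_nonneg (by linarith [h.ω0]) (by linarith [h.ω1])
  have h1 := int_ddU_nonneg hw0 hwb hp hs ht h.fkg F g
  have hcont : Continuous fun c : ℝ => ddU w (cm t) (shc F c) g g :=
    (continuous_ddU hw0 hwb hp ht g).comp (continuous_shc F)
  -- pointwise
  have h2 : ∀ c : ℝ, (1 + ω) / (1 - ω) * ddU w (cm t) (shc F c) g g ≤
      2 * t * ((1 + ω) / (1 - ω) * (∑ x, g x ^ 2) - vN w t F g) := by
    intro c
    have h3 := vN_le_vI hw0 hwb hp ht h (shc F c) g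
    rw [vN_shc hs] at h3
    rw [ddU_eq hw0 hwb hp ht]
    have h4 := mul_le_mul_of_nonneg_left h3 (by positivity : (0 : ℝ) ≤ 2 * t)
    nlinarith [h4]
  have h5 : ∫ c in (0 : ℝ)..1, (1 + ω) / (1 - ω) * ddU w (cm t) (shc F c) g g ≤
      ∫ _c in (0 : ℝ)..1, 2 * t * ((1 + ω) / (1 - ω) * (∑ x, g x ^ 2) - vN w t F g) :=
    intervalIntegral.integral_mono_on zero_le_one
      ((continuous_const.mul hcont).intervalIntegrable _ _) (by simp) fun c _ => h2 c
  rw [intervalIntegral.integral_const_mul] at h5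
  simp only [intervalIntegral.integral_const, sub_zero, one_smul] at h5
  have h6 : 0 ≤ 2 * t * ((1 + ω) / (1 - ω) * (∑ x, g x ^ 2) - vN w t F g) :=
    (mul_nonneg hr h1).trans h5
  have h7 : 0 < 2 * t := by linarith
  nlinarith [(mul_nonneg_iff_of_pos_left h7).1 h6]

theorem vI_le (ht : 0 < t) (h : NC w t ω) (F g : V → ℝ) :
    vI w t F g ≤ ((1 + ω) / (1 - ω)) ^ 2 * ∑ x, g x ^ 2 := by
  have hr : 0 ≤ (1 + ω) / (1 - ω) := div_nonneg (by linarith [h.ω0]) (by linarith [h.ω1])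
  have h1 := vI_le_vN hw0 hwb hp ht h F g
  have h2 := mul_le_mul_of_nonneg_left (vN_le hw0 hwb hp hs ht h F g) hr
  calc vI w t F g ≤ _ := h1
    _ ≤ _ := h2
    _ = _ := by ring

/-- **near-convexity of the neutral free energy in every background** -/
theorem ddN_ge (ht : 0 < t) (h : NC w t ω) (F g : V → ℝ) :
    -(4 * ω / (1 - ω) * t * ∑ x, g x ^ 2) ≤ ddN w t F g := by
  have h1 := vN_le hw0 hwb hp hs ht h F g
  have h0 : 0 < 1 - ω := by linarith [h.ω1]
  have h2 := mul_le_mul_of_nonneg_left h1 (by positivity : (0 : ℝ) ≤ 2 * t)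
  unfold ddN
  have e : 2 * t * ((1 + ω) / (1 - ω) * ∑ x, g x ^ 2) =
      2 * t * (∑ x, g x ^ 2) + 4 * ω / (1 - ω) * t * ∑ x, g x ^ 2 := by
    field_simp
    ring
  rw [e] at h2
  linarith

/-- **near-convexity of the free energy in every background** -/
theorem ddU_ge (ht : 0 < t) (h : NC w t ω) (F g : V → ℝ) :
    -(8 * ω / (1 - ω) ^ 2 * t * ∑ x, g x ^ 2) ≤ ddU w (cm t) F g g := by
  have h1 := vI_le hw0 hwb hp hs ht h F g
  have h0 : 0 < 1 - ω := by linarith [h.ω1]
  have h2 := mul_le_mul_of_nonneg_left h1 (by positivity : (0 : ℝ) ≤ 2 * t)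
  rw [ddU_eq hw0 hwb hp ht]
  have e : 2 * t * (((1 + ω) / (1 - ω)) ^ 2 * ∑ x, g x ^ 2) =
      2 * t * (∑ x, g x ^ 2) + 8 * ω / (1 - ω) ^ 2 * t * ∑ x, g x ^ 2 := by
    field_simp
    ring
  rw [e] at h2
  linarith

/-- **the covariance of the heights in every background** -/
theorem Cf_le (ht : 0 < t) (h : NC w t ω) (F g : V → ℝ) :
    Cf w (cm t) F (li g) (li g) ≤ (1 + 8 * ω / (1 - ω) ^ 2) / t * ∑ x, g x ^ 2 := by
  have h1 := ddU_ge hw0 hwb hp hs ht h F g
  unfold ddU at h1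
  have e1 : lin (cm t) g = fun k => t * li g k := by
    funext k
    unfold lin li
    rw [Finset.mul_sum]
    refine Finset.sum_congr rfl fun x _ => ?_
    simp only [cm]
    ring
  have hμ := TM.H104.em_bw (m := cm t) (fun _ => ht) hw0 hwb hp
  have e2 : Cf w (cm t) F (lin (cm t) g) (lin (cm t) g) = t * t * Cf w (cm t) F (li g) (li g) := by
    rw [e1, TM.H104.Cf_eq, TM.H104.Cf_eq]
    unfold Cv
    rw [TM.H104.Ex_cmul]
    have : (fun k => t * li g k * (t * li g k)) = fun k => t * t * (li g k * li g k) := by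
      funext k; ring
    rw [this, TM.H104.Ex_cmul]
    ring
  rw [e2] at h1
  have e3 : ∑ x, cm t x * g x * g x = t * ∑ x, g x ^ 2 := by
    rw [Finset.mul_sum]
    refine Finset.sum_congr rfl fun x _ => ?_
    simp only [cm]
    ring
  rw [e3] at h1
  rw [div_mul_eq_mul_div, le_div_iff₀ ht]
  have h2 : t * (Cf w (cm t) F (li g) (li g) * t) ≤
      t * ((1 + 8 * ω / (1 - ω) ^ 2) * ∑ x, g x ^ 2) := by
    nlinarith [h1]
  exact le_of_mul_le_mul_left h2 ht

/-- convexity along lines, neutral model -/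
theorem convex_UN (ht : 0 < t) (h : NC w t ω) (F g : V → ℝ) :
    ConvexOn ℝ Set.univ fun τ : ℝ =>
      UN w t (F + τ • g) + 2 * ω / (1 - ω) * t * (∑ x, g x ^ 2) * τ ^ 2 := by
  set κ := 2 * ω / (1 - ω) * t * ∑ x, g x ^ 2 with hκ
  have hd1 : ∀ τ : ℝ, HasDerivAt (fun τ : ℝ => UN w t (F + τ • g) + κ * τ ^ 2)
      (dN w t (F + τ • g) g + κ * (2 * τ)) τ := by
    intro τ
    have h1 := hasDerivAt_UN hw0 hwb hp ht F g τ
    have h2 : HasDerivAt (fun τ : ℝ => κ * τ ^ 2) (κ * (2 * τ)) τ := by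
      have := (hasDerivAt_pow 2 τ).const_mul κ
      simpa using this
    exact h1.add h2
  have hd2 : ∀ τ : ℝ, HasDerivAt (fun τ : ℝ => dN w t (F + τ • g) g + κ * (2 * τ))
      (ddN w t (F + τ • g) g + κ * 2) τ := by
    intro τ
    have h1 := hasDerivAt_dN hw0 hwb hp ht F g τ
    have h2 : HasDerivAt (fun τ : ℝ => κ * (2 * τ)) (κ * 2) τ := by
      have := ((hasDerivAt_id τ).const_mul 2).const_mul κ
      simpa using this
    exact h1.add h2
  have hmono : Monotone fun τ : ℝ => dN w t (F + τ • g) g + κ * (2 * τ) := by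
    refine monotone_of_deriv_nonneg (fun τ => (hd2 τ).differentiableAt) fun τ => ?_
    rw [(hd2 τ).deriv]
    have := ddN_ge hw0 hwb hp hs ht h (F + τ • g) g
    have e : 4 * ω / (1 - ω) * t * ∑ x, g x ^ 2 = κ * 2 := by rw [hκ]; ring
    rw [e] at this
    linarith
  have hderiv : deriv (fun τ : ℝ => UN w t (F + τ • g) + κ * τ ^ 2) =
      fun τ => dN w t (F + τ • g) g + κ * (2 * τ) := by
    funext τ
    exact (hd1 τ).deriv
  refine (Monotone.convexOn_univ_of_deriv (fun τ => (hd1 τ).differentiableAt) ?_)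
  rw [hderiv]
  exact hmono

/-- convexity along lines, integer model -/
theorem convex_U (ht : 0 < t) (h : NC w t ω) (F g : V → ℝ) :
    ConvexOn ℝ Set.univ fun τ : ℝ =>
      U w (cm t) (F + τ • g) + 4 * ω / (1 - ω) ^ 2 * t * (∑ x, g x ^ 2) * τ ^ 2 := by
  set κ := 4 * ω / (1 - ω) ^ 2 * t * ∑ x, g x ^ 2 with hκ
  have hm : ∀ x : V, 0 < cm t x := fun _ => ht
  have hd1 : ∀ τ : ℝ, HasDerivAt (fun τ : ℝ => U w (cm t) (F + τ • g) + κ * τ ^ 2)
      (dU w (cm t) (F + τ • g) g + κ * (2 * τ)) τ := by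
    intro τ
    have h1 := TM.H104.hasDerivAt_U (m := cm t) hm hw0 hwb hp F g τ
    have h2 : HasDerivAt (fun τ : ℝ => κ * τ ^ 2) (κ * (2 * τ)) τ := by
      have := (hasDerivAt_pow 2 τ).const_mul κ
      simpa using this
    exact h1.add h2
  have hd2 : ∀ τ : ℝ, HasDerivAt (fun τ : ℝ => dU w (cm t) (F + τ • g) g + κ * (2 * τ))
      (ddU w (cm t) (F + τ • g) g g + κ * 2) τ := by
    intro τ
    have h1 := TM.H104.hasDerivAt_dU (m := cm t) hm hw0 hwb hp F g g τ
    have h2 : HasDerivAt (fun τ : ℝ => κ * (2 * τ)) (κ * 2) τ := by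
      have := ((hasDerivAt_id τ).const_mul 2).const_mul κ
      simpa using this
    exact h1.add h2
  have hmono : Monotone fun τ : ℝ => dU w (cm t) (F + τ • g) g + κ * (2 * τ) := by
    refine monotone_of_deriv_nonneg (fun τ => (hd2 τ).differentiableAt) fun τ => ?_
    rw [(hd2 τ).deriv]
    have := ddU_ge hw0 hwb hp hs ht h (F + τ • g) g
    have e : 8 * ω / (1 - ω) ^ 2 * t * ∑ x, g x ^ 2 = κ * 2 := by rw [hκ]; ring
    rw [e] at this
    linarith
  have hderiv : deriv (fun τ : ℝ => U w (cm t) (F + τ • g) + κ * τ ^ 2) =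
      fun τ => dU w (cm t) (F + τ • g) g + κ * (2 * τ) := by
    funext τ
    exact (hd1 τ).deriv
  refine (Monotone.convexOn_univ_of_deriv (fun τ => (hd1 τ).differentiableAt) ?_)
  rw [hderiv]
  exact hmono

end model

end

end Vale.Agent.P159.H764
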