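import Vale.Agent.P159.H764.NcD
import Vale.Agent.P159.H764.Ncx

/-!
P159 / SL4 (helper764): the structure `NC` of `Ncx.lean` on the torus, every dislocation.
-/

namespace Vale.Agent.P159.H764

open MeasureTheory ProbabilityTheory Finset Matrix
open Vale.Agent.P159.H37 (gau Zn ZM wM qf bf Cm Gm Zs re)
open Vale.Agent.P159.H770 (wTD Ed)
open Vale.Agent.P159.H612 (om0)
open Vale.Agent.P159.TM.SpecC (Tor wT)

noncomputable section

variable {N : ℕ} [NeZero N] {b t : ℝ}

/-- the structure `NC` of `Ncx.lean` for every dislocation -/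
theorem nc_torus (hb : 0 < b) (ht : 0 < t)
    (hω : om0 N b ((2 * t) • (1 : Matrix (Tor N) (Tor N) ℝ)) < 1) (η : Ed N → ℤ) :
    NC (wTD N b η) t (om0 N b ((2 * t) • (1 : Matrix (Tor N) (Tor N) ℝ))) := by
  have h1 := ch_t (b := b) hb ht η
  have h2 := om0_nonneg hb h1
  have h3 := oscD hb h1
  rw [dbM_t] at h2 h3
  refine ⟨h2, hω, fun F x y => ?_, fun F => ?_⟩
  · have h4 := H159.Cm_nonneg h1.em (H159.hol_wM h1.w0 h1.hol h1.fer)
      ((t • (1 : Matrix (Tor N) (Tor N) ℝ)) *ᵥ F) x y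
    have e : TM.H104.bw (wTD N b η) (cm t) = wM (wTD N b η) (t • (1 : Matrix (Tor N) (Tor N) ℝ)) := by
      funext k
      unfold TM.H104.bw wM TM.H870.gr
      rw [H37.qf_smul_one]
      congr 2
      rw [Finset.mul_sum, Finset.sum_div]
      congr 1
      refine Finset.sum_congr rfl fun x _ => ?_
      simp only [Pi.zero_apply, sub_zero, cm, re]
      ring
    rw [TM.H104.Cf_eq, e]
    have e2 : TM.H104.mf (cm t) F = (t • (1 : Matrix (Tor N) (Tor N) ℝ)) *ᵥ F := by
      funext x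
      rw [smul_mulVec, one_mulVec]
      rfl
    rw [e2]
    exact h4
  · have h4 := h3 F 0 ⟨le_refl _, zero_le_one⟩
    rw [H145.cs_zero, ZM_cm, Zn_cm] at h4
    exact h4

end

end Vale.Agent.P159.H764
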