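import Vale.Agent.P159.H474.Cb4

/-!
P159, helper764, module QT (1): transport of the local arm functional `qa` between systems.

`φ : V → V'`, `ψ : E → E'` injective; on the edges which touch `Λ` the map `ψ` respects end points
and weights, and every edge of the second system which touches `φ(Λ)` comes from such an edge. Then
`qa σ' (φ B) (φ Λ) x' = qa σ B Λ (x' ∘ φ)` (`qa_transport`).
-/

set_option linter.unusedSectionVars false
set_option linter.unusedDecidableInType false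

namespace Vale.Agent.P159.H764

open scoped ENNReal
open Finset Vale.Agent.P159.TM.H60 Vale.Agent.P159.TM.H576
open Vale.Agent.P159.H145.Dz (touch mem_touch Arm)
open Vale.Agent.P159.H474.Cb (qa)

variable {V E V' E' S : Type*} [Fintype V] [DecidableEq V] [Fintype E] [DecidableEq E]
  [Fintype V'] [DecidableEq V'] [Fintype E'] [DecidableEq E']

/-- the maps respect the edges which touch `Λ` -/
structure Tr (σ : Sys V E S) (σ' : Sys V' E' S) (φ : V → V') (ψ : E → E') (Λ : Finset V) : Prop where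
  injV : Function.Injective φ
  injE : Function.Injective ψ
  s : ∀ e ∈ touch σ Λ, σ'.s (ψ e) = φ (σ.s e)
  t : ∀ e ∈ touch σ Λ, σ'.t (ψ e) = φ (σ.t e)
  sw : σ'.sw = σ.sw
  d : σ'.d = σ.d
  fl : ∀ e ∈ touch σ Λ, σ'.fl (ψ e) = σ.fl e
  cov : ∀ e' ∈ touch σ' (Λ.image φ), ∃ e ∈ touch σ Λ, ψ e = e'

variable {σ : Sys V E S} {σ' : Sys V' E' S} {φ : V → V'} {ψ : E → E'} {Λ : Finset V}

lemma Tr.touch_eq (h : Tr σ σ' φ ψ Λ) : touch σ' (Λ.image φ) = (touch σ Λ).image ψ := by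
  ext e'
  rw [Finset.mem_image]
  constructor
  · intro he
    exact h.cov e' he
  · rintro ⟨e, he, rfl⟩
    rw [mem_touch, h.s e he, h.t e he]
    rcases (mem_touch σ).1 he with h1 | h1
    · exact Or.inl (Finset.mem_image_of_mem φ h1)
    · exact Or.inr (Finset.mem_image_of_mem φ h1)

lemma Tr.conn_map (h : Tr σ σ' φ ψ Λ) {T : Finset E} (hT : T ⊆ touch σ Λ) {u z : V}
    (hc : Conn σ.s σ.t T u z) : Conn σ'.s σ'.t (T.image ψ) (φ u) (φ z) := by
  induction hc with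
  | refl => exact Conn.refl _
  | @tail y z _ h2 ih =>
    refine Relation.ReflTransGen.tail ih ?_
    obtain ⟨e, he, h3⟩ := h2
    refine ⟨ψ e, Finset.mem_image_of_mem ψ he, ?_⟩
    rw [h.s e (hT he), h.t e (hT he)]
    rcases h3 with ⟨h3, h4⟩ | ⟨h3, h4⟩
    · left; rw [h3, h4]; exact ⟨rfl, rfl⟩
    · right; rw [h3, h4]; exact ⟨rfl, rfl⟩

lemma Tr.conn_back (h : Tr σ σ' φ ψ Λ) {T : Finset E} (hT : T ⊆ touch σ Λ) {u : V} {z' : V'}
    (hc : Conn σ'.s σ'.t (T.image ψ) (φ u) z') : ∃ z, z' = φ z ∧ Conn σ.s σ.t T u z := by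
  induction hc with
  | refl => exact ⟨u, rfl, Conn.refl u⟩
  | @tail y' z' _ h2 ih =>
    obtain ⟨y, rfl, hy⟩ := ih
    obtain ⟨e', he', h3⟩ := h2
    obtain ⟨e, he, rfl⟩ := Finset.mem_image.1 he'
    rw [h.s e (hT he), h.t e (hT he)] at h3
    rcases h3 with ⟨h3, h4⟩ | ⟨h3, h4⟩
    · have h5 := h.injV h3
      exact ⟨σ.t e, h4.symm, hy.tail ⟨e, he, Or.inl ⟨h5, rfl⟩⟩⟩
    · have h5 := h.injV h4
      exact ⟨σ.s e, h3.symm, hy.tail ⟨e, he, Or.inr ⟨rfl, h5⟩⟩⟩

lemma Tr.arm (h : Tr σ σ' φ ψ Λ) (B : Finset V) {T : Finset E} (hT : T ⊆ touch σ Λ)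
    (x' : V' → S) : Arm σ' (B.image φ) (Λ.image φ) x' (T.image ψ) ↔ Arm σ B Λ (x' ∘ φ) T := by
  have hΛ : ∀ z, φ z ∉ Λ.image φ ↔ z ∉ Λ := by
    intro z
    rw [not_iff_not, Finset.mem_image]
    constructor
    · rintro ⟨w, hw, he⟩
      rwa [← h.injV he]
    · intro hz
      exact ⟨z, hz, rfl⟩
  constructor
  · rintro ⟨u', hu', hd, z', hz', hzΛ⟩
    obtain ⟨u, hu, rfl⟩ := Finset.mem_image.1 hu'
    obtain ⟨z, rfl, hc⟩ := h.conn_back hT (mem_clus.1 hz')
    rw [h.d] at hd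
    exact ⟨u, hu, hd, z, mem_clus.2 hc, (hΛ z).1 hzΛ⟩
  · rintro ⟨u, hu, hd, z, hz, hzΛ⟩
    refine ⟨φ u, Finset.mem_image_of_mem φ hu, ?_, φ z, ?_, (hΛ z).2 hzΛ⟩
    · rw [h.d]
      exact hd
    · exact mem_clus.2 (h.conn_map hT (mem_clus.1 hz))

lemma Tr.op (h : Tr σ σ' φ ψ Λ) {e : E} (he : e ∈ touch σ Λ) (x y : S) :
    σ'.op (ψ e) x y = σ.op e x y := by
  unfold Sys.op
  rw [h.fl e he, h.sw]

lemma Tr.cl (h : Tr σ σ' φ ψ Λ) {e : E} (he : e ∈ touch σ Λ) (x y : S) :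
    σ'.cl (ψ e) x y = σ.cl e x y := by
  unfold Sys.cl
  rw [h.fl e he, h.sw]

/-- **transport of the arm functional** -/
theorem qa_transport (h : Tr σ σ' φ ψ Λ) (B : Finset V) (x' : V' → S) :
    qa σ' (B.image φ) (Λ.image φ) x' = qa σ B Λ (x' ∘ φ) := by
  unfold qa H145.Dz.cp
  rw [h.touch_eq, Finset.powerset_image, Finset.sum_image (by
    intro T _ T' _ hTT
    exact Finset.image_injective h.injE hTT)]
  refine Finset.sum_congr rfl fun T hT => ?_
  rw [Finset.mem_powerset] at hT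
  have e1 : (touch σ Λ).image ψ \ T.image ψ = (touch σ Λ \ T).image ψ :=
    (Finset.image_sdiff _ _ h.injE).symm
  dsimp only
  rw [e1, Finset.prod_image (fun _ _ _ _ he => h.injE he),
    Finset.prod_image (fun _ _ _ _ he => h.injE he), ind_congr (h.arm B hT x')]
  congr 1
  congr 1
  · refine Finset.prod_congr rfl fun e he => ?_
    unfold H145.Dz.pe
    rw [h.op (hT he), h.fl e (hT he), h.s e (hT he), h.t e (hT he)]
    rfl
  · refine Finset.prod_congr rfl fun e he => ?_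
    have he' := (Finset.mem_sdiff.1 he).1
    unfold H145.Dz.qe
    rw [h.cl he', h.fl e he', h.s e he', h.t e he']
    rfl

/-- `qa` depends only on the end points of the edges which touch `Λ` and on the points of `B` -/
lemma qa_local {B Λ : Finset V} {x x' : V → S} (hB : ∀ v ∈ B, x v = x' v)
    (h : ∀ e ∈ touch σ Λ, x (σ.s e) = x' (σ.s e) ∧ x (σ.t e) = x' (σ.t e)) :
    qa σ B Λ x = qa σ B Λ x' := by
  unfold qa H145.Dz.cp
  refine Finset.sum_congr rfl fun T hT => ?_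
  rw [Finset.mem_powerset] at hT
  have h3 : Arm σ B Λ x T ↔ Arm σ B Λ x' T := by
    unfold Arm
    constructor
    · rintro ⟨u, hu, hd, h4⟩
      exact ⟨u, hu, by rwa [← hB u hu], h4⟩
    · rintro ⟨u, hu, hd, h4⟩
      exact ⟨u, hu, by rwa [hB u hu], h4⟩
  dsimp only
  rw [ind_congr h3]
  congr 2
  · refine Finset.prod_congr rfl fun e he => ?_
    rw [(h e (hT he)).1, (h e (hT he)).2]
  · refine Finset.prod_congr rfl fun e he => ?_
    have h1 := (Finset.mem_sdiff.1 he).1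
    rw [(h e h1).1, (h e h1).2]

end Vale.Agent.P159.H764
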