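import Vale.Agent.P159.H764.Rdc1
import Vale.Agent.P159.H764.Ctg
import Vale.Agent.P159.H191.Ct3
import Vale.Agent.P159.H474.Cb14

/-!
P159 (helper764), S, module CUT: **the number `RdN` of helper191 as a theorem**.

The torus `N = (m + 1) (n + 2)`, the mass `1 / ξ²`, the inputs `LN` (arms at zero background, volume
number) and `Geo` (geometry) of helper474, the local geometry `Cut` of the step.

* `num_le` : the counting constant;
* `zg_low`, `zg_up` : the partition functions of the cut field `W` from those of `(η, fx)`;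
* `Qc_cut` : the wired correlations of `W` are those of `η`;
* `nx_cut` : `NX(W; t f) ≤ KR (t ∑ f²) (N/ξ)² exp (2 Δ + Ev + pr/2 - c κ / (8 ξ))`;
* `rdN_cut` : **`RdN N b t W f τ (exp ((τ + 16 ω)/2) √(...) + 8 ω²)`**.
-/

set_option linter.unusedSectionVars false

open scoped Matrix
open Finset

namespace Vale.Agent.P159.H764.Rd

open Vale.Agent.P159.H474.Cb
open Vale.Agent.P159.H764.Ctg
open Vale.Agent.P159.TM.H459 (ball mem_ball sd sd_symm sd_tri)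
open Vale.Agent.P159.H770 (Ed eS eT eW wTD wTD_zero)
open Vale.Agent.P159.H353 (wI)
open Vale.Agent.P159.TM.SpecC (Tor wT)
open Vale.Agent.P159.TM.Spec (V)
open Vale.Agent.P159.H37 (ZM Zn qf bf wM)
open Vale.Agent.P159.H612 (zn zc Tp0 NX omE)
open Vale.Agent.P159.H191 (LT iT BT RdN GT mixL low_le sb_BT eng_T iT_apply)
open Vale.Agent.P159.H513 (cuZ)

noncomputable section

/-- the constant -/
def KR (A : ℕ) (c C : ℝ) : ℝ := 48 * ((2 * A + 1) * √(KL A c C))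

section num

variable {m n : ℕ} [NeZero ((m + 1) * (n + 2))] [NeZero ((m + 1) * 2)]

/-- **the counting constant** -/
theorem num_le {ξ A K κ l : ℕ} {c C QW : ℝ} (g : Geo m n ξ A K κ l c) (hc : 0 < c) (hC : 0 < C)
    (hQW : 0 ≤ QW) :
    ((((m + 1) * (n + 2)) / (ξ / A) + 1 : ℕ) : ℝ) ^ 2 *
      √((C * Real.exp (-(c * ((κ - 1 : ℕ) : ℝ) / ξ))) ^ (1 / 4 : ℝ) * QW *
      Real.exp (2 * (((n : ℝ) + 2) ^ 2 / 4 * (C * Real.exp (-(c * (2 * ((m : ℝ) + 1)) / ξ)))))) ≤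
      (2 * A + 1) * √(KL A c C) * ((((m + 1) * (n + 2) : ℕ) : ℝ) / ξ) ^ 2 *
        Real.exp (-(c * κ / (8 * ξ))) * √QW := by
  have h1 := g.num hc hC
  have hN : ξ ≤ (m + 1) * (n + 2) := by
    obtain ⟨hA, hAξ, hκ, hK, hl, hv⟩ := g
    have h1 : ξ ≤ m + 1 := by nlinarith [Nat.zero_le (K * κ)]
    nlinarith [Nat.zero_le n, Nat.zero_le (m * n)]
  have h2 := cst_N (N := (m + 1) * (n + 2)) (A := A) (ξ := ξ) (by have := g.hA; omega) g.hAξ hN
  set x : ℝ := ((((m + 1) * (n + 2)) / (ξ / A) + 1 : ℕ) : ℝ) with hx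
  set e1 : ℝ := (C * Real.exp (-(c * ((κ - 1 : ℕ) : ℝ) / ξ))) ^ (1 / 4 : ℝ) with he1
  set e2 : ℝ := Real.exp (2 * (((n : ℝ) + 2) ^ 2 / 4 *
    (C * Real.exp (-(c * (2 * ((m : ℝ) + 1)) / ξ))))) with he2
  set u : ℝ := (((m + 1) * (n + 2) : ℕ) : ℝ) / ξ with hu
  have hx0 : 0 ≤ x := Nat.cast_nonneg _
  have hu0 : 0 ≤ u := div_nonneg (Nat.cast_nonneg _) (Nat.cast_nonneg _)
  have he10 : 0 ≤ e1 := Real.rpow_nonneg (by positivity) _
  have he20 : 0 < e2 := Real.exp_pos _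
  have hKL := KL_pos A (c := c) hC
  refine (pow_le_pow_iff_left₀ (by positivity) (by positivity) two_ne_zero).1 ?_
  have l1 : (x ^ 2 * √(e1 * QW * e2)) ^ 2 = x ^ 2 * (x ^ 2 * (e1 * e2)) * QW := by
    rw [mul_pow, Real.sq_sqrt (by positivity)]
    ring
  have l2 : ((2 * A + 1) * √(KL A c C) * u ^ 2 * Real.exp (-(c * κ / (8 * ξ))) * √QW) ^ 2 =
      ((2 * A + 1) * u) ^ 2 * (KL A c C * u ^ 2 * Real.exp (-(c * κ / (4 * ξ)))) * QW := by
    have h3 : Real.exp (-(c * κ / (8 * ξ))) ^ 2 = Real.exp (-(c * κ / (4 * ξ))) := by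
      rw [← Real.exp_nat_mul]
      congr 1
      push_cast
      ring
    rw [mul_pow, Real.sq_sqrt hQW, mul_pow, h3, mul_pow, mul_pow, Real.sq_sqrt hKL.le]
    ring
  rw [l1, l2]
  refine mul_le_mul_of_nonneg_right ?_ hQW
  exact mul_le_mul (pow_le_pow_left₀ hx0 h2 2) h1 (by positivity) (by positivity)

end num

/-- the final number -/
lemma fin_le {S ra x QW A1 s u g lc Δ Ev pr : ℝ} (hS : 0 ≤ S)
    (h1 : ra ≤ 16 / 3 * Real.exp (2 * Δ + Ev - lc / 2)) (hx0 : 0 ≤ x)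
    (hx : x ≤ A1 * s * u ^ 2 * Real.exp (-g) * √QW) (hA : 0 ≤ A1) (hs : 0 ≤ s)
    (hQ : QW ≤ Real.exp (lc + pr)) :
    9 * S * ra * x ≤ 48 * (A1 * s) * S * u ^ 2 * Real.exp (2 * Δ + Ev + pr / 2 - g) := by
  have hQ2 : √QW ≤ Real.exp ((lc + pr) / 2) := by
    rw [Real.sqrt_le_left (Real.exp_pos _).le, ← Real.exp_nat_mul]
    refine hQ.trans (le_of_eq ?_)
    congr 1
    push_cast
    ring
  have hexp : Real.exp (2 * Δ + Ev - lc / 2) * (Real.exp (-g) * Real.exp ((lc + pr) / 2)) =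
      Real.exp (2 * Δ + Ev + pr / 2 - g) := by
    rw [← Real.exp_add, ← Real.exp_add]
    congr 1
    ring
  have hx2 : x ≤ A1 * s * u ^ 2 * Real.exp (-g) * Real.exp ((lc + pr) / 2) :=
    hx.trans (mul_le_mul_of_nonneg_left hQ2 (by positivity))
  calc 9 * S * ra * x ≤ 9 * S * (16 / 3 * Real.exp (2 * Δ + Ev - lc / 2)) *
        (A1 * s * u ^ 2 * Real.exp (-g) * Real.exp ((lc + pr) / 2)) :=
        mul_le_mul (mul_le_mul_of_nonneg_left h1 (by positivity)) hx2 hx0 (by positivity)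
    _ = 48 * (A1 * s) * S * u ^ 2 * (Real.exp (2 * Δ + Ev - lc / 2) *
        (Real.exp (-g) * Real.exp ((lc + pr) / 2))) := by ring
    _ = _ := by rw [hexp]

/-! ### the partition functions of the cut field -/

section part

variable {N : ℕ} [NeZero N] {b t : ℝ}

/-- the oscillation constant -/
def om (N : ℕ) [NeZero N] (b t : ℝ) : ℝ :=
  omE (eS N) (eT N) (fun _ => wI b) (t • (1 : Matrix (Tor N) (Tor N) ℝ))

lemma ZG_zc (X : GE N) : ZG N b t X =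
    zc (eS N) (eT N) (fun _ => wI b) (t • (1 : Matrix (Tor N) (Tor N) ℝ)) X 0 := by
  rw [H612.zc_torus, H145.cs_zero]
  rfl

lemma edM (hb : 0 < b) (ht : 0 < t) :
    H612.EdM (fun _ : Ed N => wI b) (t • (1 : Matrix (Tor N) (Tor N) ℝ)) t :=
  H612.edM_torus (N := N) hb (by rw [Matrix.transpose_smul, Matrix.transpose_one]) ht
    (H789.coer_smul _)

lemma ZG_le_zn (hb : 0 < b) (ht : 0 < t) (hω : om N b t ≤ 1 / 2) (X : GE N) :
    ZG N b t X ≤ 3 / 2 * zn (eS N) (eT N) (fun _ => wI b)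
      (t • (1 : Matrix (Tor N) (Tor N) ℝ)) X := by
  have h1 := (edM (N := N) hb ht).zc_osc (s := eS N) (t := eT N) X 0
  have h2 := (edM (N := N) hb ht).zn_pos (s := eS N) (t := eT N) X
  rw [← ZG_zc] at h1
  have h3 := (abs_le.1 h1).2
  have h4 := mul_le_mul_of_nonneg_right hω h2.le
  unfold om at h4
  linarith

lemma zn_le_ZG (hb : 0 < b) (ht : 0 < t) (hω : om N b t ≤ 1 / 2) (X : GE N) :
    zn (eS N) (eT N) (fun _ => wI b) (t • (1 : Matrix (Tor N) (Tor N) ℝ)) X ≤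
      2 * ZG N b t X := by
  have h1 := (edM (N := N) hb ht).zc_osc (s := eS N) (t := eT N) X 0
  have h2 := (edM (N := N) hb ht).zn_pos (s := eS N) (t := eT N) X
  rw [← ZG_zc] at h1
  have h3 := (abs_le.1 h1).1
  have h4 := mul_le_mul_of_nonneg_right hω h2.le
  unfold om at h4
  linarith

lemma zn_exp (hb : 0 < b) (ht : 0 < t) (X : GE N) :
    zn (eS N) (eT N) (fun _ => wI b) (t • (1 : Matrix (Tor N) (Tor N) ℝ)) X =
      Real.exp (LT N b t X) := by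
  unfold H191.LT
  rw [Real.exp_log ((edM (N := N) hb ht).zn_pos (s := eS N) (t := eT N) X)]

variable {w : V N} {l : ℕ} {η : V N × Bool → ℤ} {fx v : V N → ℝ} {W : GE N} {c0 : ℝ}

/-- the cut field with a real background -/
lemma LT_cut (hb : 0 < b) (h : Cut w l η fx v W c0) (F : V N → ℝ) :
    LT N b t ((η, fx) + iT N F) = LT N b t (W + ((0 : V N × Bool → ℤ), fun x => v x + F x)) := by
  have h1 := h.zn_eq hb (t • (1 : Matrix (V N) (V N) ℝ)) F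
  have h2 : ((η, fx) : GE N) + iT N F = (η, fun x => fx x + F x) := by
    rw [iT_apply, Prod.mk_add_mk, add_zero]
    rfl
  unfold H191.LT
  rw [h2, h1]

lemma BT_neg (v : V N → ℝ) : BT N b t (-v) (-v) = BT N b t v v := by
  unfold BT bf
  refine Finset.sum_congr rfl fun x _ => Finset.sum_congr rfl fun y _ => ?_
  simp only [Pi.neg_apply]
  ring

/-- **lower bound** -/
theorem zg_low (hb : 0 < b) (ht : 0 < t) (hω : om N b t ≤ 1 / 2) (h : Cut w l η fx v W c0)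
    {lc Δ Ev : ℝ} (hU : ∀ F, LT N b t ((η, fx) + iT N F) - LT N b t 0 ≤ lc)
    (hΔ : lc - Δ ≤ LT N b t (η, fx) - LT N b t 0) (hEv : BT N b t v v ≤ Ev) :
    Z0 N b t ≤ 3 * Real.exp (2 * Δ - lc + Ev) * ZG N b t W := by
  have h1 := low_le (sb_BT (N := N) hb.le ht) (eng_T (N := N) hb ht) hU hΔ (-v)
  rw [BT_neg, LT_cut hb h] at h1
  have e0 : W + ((0 : V N × Bool → ℤ), fun x => v x + (-v) x) = W := by
    have e : (fun x => v x + (-v) x) = (0 : V N → ℝ) := by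
      funext x
      simp
    rw [e]
    exact add_zero W
  rw [e0] at h1
  have h2 := ZG_le_zn hb ht hω (0 : GE N)
  have h3 := zn_le_ZG hb ht hω W
  rw [ZG_zero, zn_exp hb ht] at h2
  rw [zn_exp hb ht] at h3
  have h4 : Real.exp (LT N b t 0) ≤ Real.exp (2 * Δ - lc + Ev) * Real.exp (LT N b t W) := by
    rw [← Real.exp_add]
    refine Real.exp_le_exp.2 ?_
    linarith
  have h5 := mul_le_mul_of_nonneg_left h3 (Real.exp_pos (2 * Δ - lc + Ev)).le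
  linarith

/-- **upper bound** at every real background -/
theorem zg_up (hb : 0 < b) (ht : 0 < t) (hω : om N b t ≤ 1 / 2) (h : Cut w l η fx v W c0)
    {lc : ℝ} (hU : ∀ F, LT N b t ((η, fx) + iT N F) - LT N b t 0 ≤ lc) (F' : V N → ℝ) :
    ZG N b t (W.1, F') ≤ 3 * Real.exp lc * Z0 N b t := by
  have h1 := hU (fun x => F' x - W.2 x - v x)
  rw [LT_cut hb h] at h1
  have e0 : W + ((0 : V N × Bool → ℤ), fun x => v x + (F' x - W.2 x - v x)) = (W.1, F') := by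
    refine Prod.ext ?_ ?_
    · show W.1 + 0 = W.1
      rw [add_zero]
    · funext x
      show W.2 x + (v x + (F' x - W.2 x - v x)) = F' x
      ring
  rw [e0] at h1
  have h2 := ZG_le_zn hb ht hω ((W.1, F') : GE N)
  have h3 := zn_le_ZG hb ht hω (0 : GE N)
  rw [zn_exp hb ht] at h2
  rw [ZG_zero, zn_exp hb ht] at h3
  have h4 : Real.exp (LT N b t (W.1, F')) ≤ Real.exp lc * Real.exp (LT N b t 0) := by
    rw [← Real.exp_add]
    refine Real.exp_le_exp.2 ?_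
    linarith
  have h5 := mul_le_mul_of_nonneg_left h3 (Real.exp_pos lc).le
  linarith

/-- the ratio of the partition functions -/
theorem rat_le (hb : 0 < b) (ht : 0 < t) (hω : om N b t ≤ 1 / 2) (h : Cut w l η fx v W c0)
    {lc Δ Ev : ℝ} (hU : ∀ F, LT N b t ((η, fx) + iT N F) - LT N b t 0 ≤ lc)
    (hΔ : lc - Δ ≤ LT N b t (η, fx) - LT N b t 0) (hEv : BT N b t v v ≤ Ev) :
    √(Z0 N b t * (3 * Real.exp lc * Z0 N b t)) / ZG N b t W ≤
      16 / 3 * Real.exp (2 * Δ + Ev - lc / 2) := by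
  have hlow := zg_low hb ht hω h hU hΔ hEv
  have hZ0 := Z0_pos (N := N) hb ht
  have hZW : 0 < ZG N b t W := ZG_pos hb ht W
  rw [div_le_iff₀ hZW]
  have e3 : Real.exp (lc / 2) ^ 2 = Real.exp lc := by
    rw [← Real.exp_nat_mul]
    congr 1
    push_cast
    ring
  have e1 : √(Z0 N b t * (3 * Real.exp lc * Z0 N b t)) ≤ 16 / 9 * Real.exp (lc / 2) * Z0 N b t := by
    rw [Real.sqrt_le_left (by positivity), mul_pow, mul_pow, e3]
    have h0 : 0 ≤ Real.exp lc * Z0 N b t ^ 2 := by positivity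
    nlinarith
  refine e1.trans ?_
  calc 16 / 9 * Real.exp (lc / 2) * Z0 N b t
      ≤ 16 / 9 * Real.exp (lc / 2) * (3 * Real.exp (2 * Δ - lc + Ev) * ZG N b t W) :=
        mul_le_mul_of_nonneg_left hlow (by positivity)
    _ = 16 / 3 * (Real.exp (lc / 2) * Real.exp (2 * Δ - lc + Ev)) * ZG N b t W := by ring
    _ = _ := by
      rw [← Real.exp_add]
      congr 3
      ring

/-- the charges of the cut field -/
lemma cuZ_cut (h : Cut w l η fx v W c0) (x : V N) : cuZ W.1 x = cuZ η x := by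
  have h1 := h.cu_eq x
  have e : ∀ ζ : V N × Bool → ℤ, H817.cu (fun e => (ζ e : ℝ)) x = ((cuZ ζ x : ℤ) : ℝ) := by
    intro ζ
    unfold H817.cu cuZ
    push_cast
    rfl
  rw [e, e] at h1
  exact_mod_cast h1

/-- **the wired correlations of the cut field** -/
theorem Qc_cut (h : Cut w l η fx v W c0) (z : Tor N) (ρ : ℕ) :
    Qc b W z ρ = Qc b (η, fx) z ρ := by
  unfold Qc
  congr 1
  funext u
  unfold chg
  exact cuZ_cut h _

end part

section main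

variable {m n : ℕ} [NeZero ((m + 1) * (n + 2))] [NeZero ((m + 1) * 2)] {b : ℝ}

/-- **the excess second moment of the cut field** -/
theorem nx_cut (hb : 0 < b) {ξ A K κ L : ℕ} {L₀ c C : ℝ} (hL₀ : 0 ≤ L₀) (hc : 0 < c)
    (hC : 0 < C) (H : LN m n b hb ξ A L₀ c C) (g : Geo m n ξ A K κ L c)
    (hω : om ((m + 1) * (n + 2)) b (1 / (ξ : ℝ) ^ 2) ≤ 1 / 2)
    {w : Tor ((m + 1) * (n + 2))} {l R0 : ℕ} (hl : 1 ≤ l) (hR : R0 + L ≤ 2 * l + 1)
    {η : Ed ((m + 1) * (n + 2)) → ℤ} {fx v : Tor ((m + 1) * (n + 2)) → ℝ}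
    {W : GE ((m + 1) * (n + 2))} {c0 : ℝ} (h : Cut w l η fx v W c0)
    (Pc : Finset (Tor ((m + 1) * (n + 2)))) (hPc : Pc.card ≤ K)
    (hPg : ∀ p ∈ Pc, sd w p ≤ R0 ∨ R0 + L ≤ sd w p) (r : Tor ((m + 1) * (n + 2)) → ℕ)
    (hr : ∀ z ∈ Pc, r z + 1 ≤ κ)
    (hsep : ∀ z ∈ Pc, ∀ z' ∈ Pc, z ≠ z' → r z + r z' + 2 ≤ sd z z')
    {lc Δ Ev pr : ℝ}
    (hU : ∀ F, LT ((m + 1) * (n + 2)) b (1 / (ξ : ℝ) ^ 2) ((η, fx) + iT ((m + 1) * (n + 2)) F) -
      LT ((m + 1) * (n + 2)) b (1 / (ξ : ℝ) ^ 2) 0 ≤ lc)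
    (hΔ : lc - Δ ≤ LT ((m + 1) * (n + 2)) b (1 / (ξ : ℝ) ^ 2) (η, fx) -
      LT ((m + 1) * (n + 2)) b (1 / (ξ : ℝ) ^ 2) 0)
    (hEv : BT ((m + 1) * (n + 2)) b (1 / (ξ : ℝ) ^ 2) v v ≤ Ev)
    (hQ : ∏ z ∈ Pc, Qc b ((η, fx) : GE ((m + 1) * (n + 2))) z (r z) ≤ Real.exp (lc + pr))
    {f : Tor ((m + 1) * (n + 2)) → ℝ} (hf : ∀ x, R0 < sd w x → f x = 0) :
    NX (fun η : Ed ((m + 1) * (n + 2)) → ℤ => wM (eW (eS _) (eT _) (fun _ => wI b) η)
        ((1 / (ξ : ℝ) ^ 2) • (1 : Matrix _ _ ℝ))) W.1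
        (((1 / (ξ : ℝ) ^ 2) • (1 : Matrix _ _ ℝ)).mulVec W.2)
        (((1 / (ξ : ℝ) ^ 2) • (1 : Matrix _ _ ℝ)).mulVec f) ≤
      KR A c C * (1 / (ξ : ℝ) ^ 2 * ∑ x, f x ^ 2) *
        ((((m + 1) * (n + 2) : ℕ) : ℝ) / ξ) ^ 2 *
        Real.exp (2 * Δ + Ev + pr / 2 - c * κ / (8 * ξ)) := by
  have g' := g
  obtain ⟨hA, hAξ, hκ, hK, hLm, hv⟩ := g'
  have hξ : 0 < ξ := by omega
  have ht : 0 < 1 / (ξ : ℝ) ^ 2 := by positivity
  have hA0 : 1 ≤ ξ / A := (Nat.one_le_div_iff (by omega)).2 hAξ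
  have hA1 : ξ / A ≤ ξ / 2 := Nat.div_le_div_left hA (by norm_num)
  have hcard : (Pc.card + 1) * (2 * κ) < m + 1 :=
    lt_of_le_of_lt (Nat.mul_le_mul_right _ (by omega)) hK
  have hκm : 2 * κ < m + 1 := by nlinarith [Nat.zero_le (K * (2 * κ))]
  have hρ : ξ / A ≤ κ - 1 := by omega
  have hε : 0 ≤ C * Real.exp (-(c * ((κ - 1 : ℕ) : ℝ) / ξ)) := by positivity
  have hW : Sup W (Far w (R0 + L)) := by
    have h1 := h.sup hl
    refine ⟨fun e he => h1.e e ?_, fun x hx => h1.f x ?_⟩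
    · rcases he with he | he
      · left
        rw [mem_Far] at he
        rw [Finset.mem_filter]
        rintro ⟨-, h2⟩
        omega
      · right
        rw [mem_Far] at he
        rw [Finset.mem_filter]
        rintro ⟨-, h2⟩
        omega
    · rw [mem_Far] at hx
      rw [Finset.mem_filter]
      rintro ⟨-, h2⟩
      omega
  set QW : ℝ := ∏ z ∈ Pc, Qc b W z (r z) with hQWd
  have hQW0 : 0 ≤ QW := Finset.prod_nonneg fun z _ => H529.Qf.EQ_nonneg hb.le _ _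
  have hQWe : QW = ∏ z ∈ Pc, Qc b ((η, fx) : GE ((m + 1) * (n + 2))) z (r z) :=
    Finset.prod_congr rfl fun z _ => Qc_cut h z _
  have harm : ∀ p : VB m m, Dp p (κ - 1) → ArmLe ((m + 1) * 2) b hb.le ξ 0
      (H474.Cb.pt 0 p.1 p.2) (ξ / A)
      (κ - 1) (C * Real.exp (-(c * ((κ - 1 : ℕ) : ℝ) / ξ))) := fun p _ =>
    H.arm 0 (fun z w => by
      simp only [Pi.zero_apply, sub_zero, abs_zero]
      positivity) _ _
  have key := nx_two2 hb hξ w hA0 hρ (by omega) (by omega) hW hf Pc hcard hPg hε harm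
    (QW := QW) (fun s hs => QB_EQ hb ht W hs r hr hsep) hQW0 H.vol
    (Zu := 3 * Real.exp lc * Z0 _ b (1 / (ξ : ℝ) ^ 2)) (zg_up hb ht hω h hU)
  have hZW : 0 < ZG ((m + 1) * (n + 2)) b (1 / (ξ : ℝ) ^ 2) W := ZG_pos hb ht W
  have hnum := num_le g hc hC hQW0
  have hS : 0 ≤ 1 / (ξ : ℝ) ^ 2 * ∑ x, f x ^ 2 :=
    mul_nonneg ht.le (Finset.sum_nonneg fun _ _ => sq_nonneg _)
  have hrat := rat_le hb ht hω h hU hΔ hEv
  have hKL := KL_pos A (c := c) hC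
  refine key.trans (fin_le hS hrat (by positivity) hnum (by positivity) (by positivity) ?_)
  rw [hQWe]
  exact hQ

/-- **the number of the cut step** -/
theorem rdN_cut (hb : 0 < b) {ξ A K κ L : ℕ} {L₀ c C : ℝ} (hL₀ : 0 ≤ L₀) (hc : 0 < c)
    (hC : 0 < C) (H : LN m n b hb ξ A L₀ c C) (g : Geo m n ξ A K κ L c)
    (hω : om ((m + 1) * (n + 2)) b (1 / (ξ : ℝ) ^ 2) ≤ 1 / 2)
    {w : Tor ((m + 1) * (n + 2))} {l R0 : ℕ} (hl : 1 ≤ l) (hR : R0 + L ≤ 2 * l + 1)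
    {η : Ed ((m + 1) * (n + 2)) → ℤ} {fx v : Tor ((m + 1) * (n + 2)) → ℝ}
    {W : GE ((m + 1) * (n + 2))} {c0 : ℝ} (h : Cut w l η fx v W c0)
    (Pc : Finset (Tor ((m + 1) * (n + 2)))) (hPc : Pc.card ≤ K)
    (hPg : ∀ p ∈ Pc, sd w p ≤ R0 ∨ R0 + L ≤ sd w p) (r : Tor ((m + 1) * (n + 2)) → ℕ)
    (hr : ∀ z ∈ Pc, r z + 1 ≤ κ)
    (hsep : ∀ z ∈ Pc, ∀ z' ∈ Pc, z ≠ z' → r z + r z' + 2 ≤ sd z z')
    {lc Δ Ev pr : ℝ}
    (hU : ∀ F, LT ((m + 1) * (n + 2)) b (1 / (ξ : ℝ) ^ 2) ((η, fx) + iT ((m + 1) * (n + 2)) F) -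
      LT ((m + 1) * (n + 2)) b (1 / (ξ : ℝ) ^ 2) 0 ≤ lc)
    (hΔ : lc - Δ ≤ LT ((m + 1) * (n + 2)) b (1 / (ξ : ℝ) ^ 2) (η, fx) -
      LT ((m + 1) * (n + 2)) b (1 / (ξ : ℝ) ^ 2) 0)
    (hEv : BT ((m + 1) * (n + 2)) b (1 / (ξ : ℝ) ^ 2) v v ≤ Ev)
    (hQ : ∏ z ∈ Pc, Qc b ((η, fx) : GE ((m + 1) * (n + 2))) z (r z) ≤ Real.exp (lc + pr))
    {f : Tor ((m + 1) * (n + 2)) → ℝ} (hf : ∀ x, R0 < sd w x → f x = 0) (τ : ℝ) :
    RdN ((m + 1) * (n + 2)) b (1 / (ξ : ℝ) ^ 2) W f τ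
      (Real.exp ((τ + 16 * om ((m + 1) * (n + 2)) b (1 / (ξ : ℝ) ^ 2)) / 2) *
        √(KR A c C * (1 / (ξ : ℝ) ^ 2 * ∑ x, f x ^ 2) *
        ((((m + 1) * (n + 2) : ℕ) : ℝ) / ξ) ^ 2 *
        Real.exp (2 * Δ + Ev + pr / 2 - c * κ / (8 * ξ))) +
      8 * om ((m + 1) * (n + 2)) b (1 / (ξ : ℝ) ^ 2) ^ 2) := by
  intro X hX
  have hξ : 0 < ξ := by
    obtain ⟨hA, hAξ, -, -, -, -⟩ := g
    omega
  have ht : 0 < 1 / (ξ : ℝ) ^ 2 := by positivity
  have hW2 : ∀ x, sd w x ≤ 2 * l → W.2 x = 0 := fun x hx => (h.sup hl).f x (by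
    rw [Finset.mem_filter]
    rintro ⟨-, h2⟩
    omega)
  have hLpos : 4 * (m + 1) ≤ L := g.hl
  have hbf : bf ((1 / (ξ : ℝ) ^ 2) • (1 : Matrix (Tor ((m + 1) * (n + 2)))
      (Tor ((m + 1) * (n + 2))) ℝ)) f W.2 = 0 := by
    unfold bf
    refine Finset.sum_eq_zero fun x _ => Finset.sum_eq_zero fun y _ => ?_
    by_cases hxy : x = y
    · subst hxy
      by_cases hx : R0 < sd w x
      · rw [hf x hx]
        ring
      · rw [hW2 x (by omega)]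
        ring
    · rw [Matrix.smul_apply, Matrix.one_apply_ne hxy]
      simp
  have h5 := (edM (N := (m + 1) * (n + 2)) hb ht).neu_rd hω X W f hbf hX
  refine h5.trans (add_le_add (mul_le_mul_of_nonneg_left (Real.sqrt_le_sqrt ?_)
    (Real.exp_pos _).le) le_rfl)
  exact nx_cut hb hL₀ hc hC H g hω hl hR h Pc hPc hPg r hr hsep hU hΔ hEv hQ hf

end main

end

end Vale.Agent.P159.H764.Rd
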