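import Vale.Agent.P159.H764.Qt5

/-!
P159 (helper764), S, module CUT: the number of `NX` with the upper bound of the dislocated model.

`nx_le2` : `nx_le` with two constants: `ZM (W.1, F') ≤ Zu` for every real background `F'`,
`Z₀` at zero background: `NX(W; τ f) ≤ 9 (τ ∑ f²) (√(Z₀ Zu) / Z(W)) ∑_i √(a_i)`;
`nx_two2` : the torus instance.
(`nx_two` has `Zu = Z₀`: it loses the square root of the correlation of the cores.)
-/

set_option linter.unusedSectionVars false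
set_option linter.unusedDecidableInType false

namespace Vale.Agent.P159.H764

open scoped ENNReal
open Finset Vale.Agent.P159.TM.H60 Vale.Agent.P159.TM.H576
open Vale.Agent.P159.H474.Cb
open Vale.Agent.P159.T1.H897 (LogC logC_wI)
open Vale.Agent.P159.TM.H459 (ball mem_ball sd sd_symm sd_tri)
open Vale.Agent.P159.H770 (Ed eS eT eW eWF wTD wTD_zero wI_pos EdW edW_wI)
open Vale.Agent.P159.H353 (wI)
open Vale.Agent.P159.TM.SpecC (Tor wT)
open Vale.Agent.P159.H37 (ZM qf bf re wM)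
open Vale.Agent.P159.TM.H104 (EM Ex li nh Gr)
open Vale.Agent.P159.H612 (NX)
open Vale.Agent.P159.TM

section graph

variable {V E : Type} [Fintype V] [DecidableEq V] [Fintype E] [DecidableEq E]
variable {s t : E → V} {I : E → ℤ → ℝ} {τ : ℝ}

/-- **the number of `NX`**, two constants -/
theorem nx_le2 (hE : EdW I) (hτ : 0 < τ) (hL : ∀ e, LogC (I e)) {E0 : Finset E}
    {VP VW : Finset V} {W : (E → ℤ) × (V → ℝ)} (h0 : ∀ e ∈ E0, W.1 e = 0)
    (he : ∀ e, e ∉ E0 → (s e ∈ VP ∧ t e ∈ VP ∧ W.1 e = 0) ∨ (s e ∈ VW ∧ t e ∈ VW))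
    (hv : ∀ v, v ∉ VW → W.2 v = 0) {f : V → ℝ} (hf : ∀ v, v ∉ VP → f v = 0)
    {ι : Type*} (J : Finset ι) (B Λ : ι → Finset V) {δ : V → ℕ}
    (hδ : ∀ e, δ (s e) ≤ δ (t e) + 1 ∧ δ (t e) ≤ δ (s e) + 1) {k : ℕ}
    (hP : ∀ v ∈ VP, δ v < k) (hW : ∀ v ∈ VW, k ≤ δ v)
    (hB : ∀ z, δ z = k → ∃ i ∈ J, z ∈ B i) (hΛ : ∀ i ∈ J, ∀ v ∈ VP, v ∉ Λ i)
    {a : ι → ℝ} (ha : ∀ i ∈ J, 0 ≤ a i) {Z0 Zu : ℝ}
    (hZ : ∀ F' : V → ℝ, ZM (eW s t I W.1) (τ • (1 : Matrix V V ℝ)) F' ≤ Zu)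
    (hZ00 : ZM (eW s t I 0) (τ • (1 : Matrix V V ℝ)) 0 = Z0)
    (hA : ∀ i ∈ J, AB s t hE.pos hL E0 W.1 τ W 0 (B i) (Λ i) ≤ ENNReal.ofReal (a i * Z0 ^ 2)) :
    NX (fun η : E → ℤ => wM (eW s t I η) (τ • (1 : Matrix V V ℝ))) W.1
        ((τ • (1 : Matrix V V ℝ)).mulVec W.2) ((τ • (1 : Matrix V V ℝ)).mulVec f) ≤
      9 * (τ * ∑ x, f x ^ 2) *
        (√(Z0 * Zu) / ZM (eW s t I W.1) (τ • (1 : Matrix V V ℝ)) W.2) * ∑ i ∈ J, √(a i) := by
  have hMt : (τ • (1 : Matrix V V ℝ)).transpose = τ • (1 : Matrix V V ℝ) := by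
    rw [Matrix.transpose_smul, Matrix.transpose_one]
  set u : V → ℝ := (τ • (1 : Matrix V V ℝ)).mulVec f with hu
  have hux : ∀ x, u x = τ * f x := by
    intro x
    rw [hu, Matrix.smul_mulVec, Matrix.one_mulVec]
    rfl
  set ZW := ZM (eW s t I W.1) (τ • (1 : Matrix V V ℝ)) W.2 with hZW
  have hT : ∀ X : (E → ℤ) × (V → ℝ),
      TM.H104.T (eWF s t I (τ • (1 : Matrix V V ℝ)) X) 0 (fun _ => 1) =
      ZM (eW s t I X.1) (τ • (1 : Matrix V V ℝ)) X.2 := by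
    intro X
    have h := T_shift (s := s) (t := t) (I := I) hτ X (0 : V → ℝ)
    simp only [Pi.zero_apply, zero_mul, Finset.sum_const_zero, ne_eq, OfNat.ofNat_ne_zero,
      not_false_eq_true, zero_pow, zero_div, add_zero, Real.exp_zero, one_mul, smul_zero] at h
    exact h
  have hpos : ∀ X : (E → ℤ) × (V → ℝ), 0 < ZM (eW s t I X.1) (τ • (1 : Matrix V V ℝ)) X.2 := by
    intro X
    rw [← hT]
    exact TM.H104.T_one_pos (em_eWF (s := s) (t := t) hE hτ X) 0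
  have hZWp : 0 < ZW := hpos W
  have hZup : 0 < Zu := hZWp.trans_le (hZ _)
  have hZ0p : 0 < Z0 := by
    rw [← hZ00]
    exact hpos 0
  have hzW : ZE s t I τ W = ENNReal.ofReal ZW := by rw [ZE_real hE hτ, hT]
  have hz0 : ZE s t I τ 0 = ENNReal.ofReal Z0 := by
    rw [ZE_real hE hτ, hT]
    exact congrArg _ hZ00
  -- disjoint supports
  have hdis : ∀ v, f v * W.2 v = 0 := by
    intro v
    by_cases h1 : v ∈ VP
    · have h2 : v ∉ VW := fun h => absurd (hP v h1) (not_lt.2 (hW v h))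
      rw [hv v h2, mul_zero]
    · rw [hf v h1, zero_mul]
  have huW : ∑ x, u x * W.2 x = 0 :=
    Finset.sum_eq_zero fun x _ => by rw [hux, mul_assoc, hdis, mul_zero]
  have hG2 : Gr fun h : V → ℤ => li u h ^ 2 := by
    have h1 := (Gr.li u).mul (Gr.li u)
    simpa only [pow_two] using h1
  have h1 := swn_ex (s := s) (t := t) hE hτ hL (swD_W h0 he hv) (mul_comm _ _)
    (f := fun h => li u h ^ 2) (fun h => sq_nonneg _) hG2 (fun h h' hh => by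
      congr 1
      unfold li
      refine Finset.sum_congr rfl fun x _ => ?_
      by_cases hx : x ∈ VP
      · rw [hh x hx]
      · rw [hux, hf x hx, mul_zero, zero_mul, zero_mul]) J B Λ hδ hP hW hB hΛ
    (ε := fun i => a i * Z0 / ZW) (fun i hi => by
      refine (hA i hi).trans (le_of_eq ?_)
      rw [hzW, hz0, ← ENNReal.ofReal_mul hZWp.le,
        ← ENNReal.ofReal_mul (div_nonneg (mul_nonneg (ha i hi) hZ0p.le) hZWp.le)]
      congr 1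
      field_simp)
  have h4 := m4_le (s := s) (t := t) hE hτ W huW hZ
  have e1 : ∑ x, u x ^ 2 = τ ^ 2 * ∑ x, f x ^ 2 := by
    rw [Finset.mul_sum]
    exact Finset.sum_congr rfl fun x _ => by rw [hux]; ring
  set Q := τ * ∑ x, f x ^ 2 with hQ
  have hQ0 : 0 ≤ Q := mul_nonneg hτ.le (Finset.sum_nonneg fun _ _ => sq_nonneg _)
  have e2 : (∑ x, u x ^ 2) / τ = Q := by
    rw [e1, hQ]
    field_simp
  rw [e2, ← hZW] at h4
  have h5 : ∀ i ∈ J, √(a i * Z0 / ZW * Ex (eWF s t I (τ • (1 : Matrix V V ℝ)) W) 0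
      fun h => (li u h ^ 2) ^ 2) ≤ 9 * Q * (√(Z0 * Zu) / ZW) * √(a i) := by
    intro i hi
    have e3 : (fun h : V → ℤ => (li u h ^ 2) ^ 2) = fun h => li u h ^ 4 := by
      funext h
      ring
    rw [e3]
    have h6 : a i * Z0 / ZW * Ex (eWF s t I (τ • (1 : Matrix V V ℝ)) W) 0 (fun h => li u h ^ 4) ≤
        (9 * Q * (√(Z0 * Zu) / ZW) * √(a i)) ^ 2 := by
      have h7 : 48 * Real.exp (1 / 2) ≤ 81 := by
        have h8 : Real.exp (1 / 2) ≤ 27 / 16 := by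
          have h9 : Real.exp (1 / 2) ^ 2 ≤ (27 / 16) ^ 2 := by
            rw [← Real.exp_nat_mul]
            have := Real.exp_one_lt_d9
            norm_num
            linarith
          exact le_of_sq_le_sq h9 (by norm_num)
        linarith
      have h10 : 0 ≤ a i * Z0 / ZW := div_nonneg (mul_nonneg (ha i hi) hZ0p.le) hZWp.le
      calc a i * Z0 / ZW * Ex (eWF s t I (τ • (1 : Matrix V V ℝ)) W) 0 (fun h => li u h ^ 4)
          ≤ a i * Z0 / ZW * (48 * Real.exp (1 / 2) * Q ^ 2 * (Zu / ZW)) :=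
            mul_le_mul_of_nonneg_left h4 h10
        _ = 48 * Real.exp (1 / 2) * (a i * Q ^ 2 * (Z0 * Zu / ZW ^ 2)) := by ring
        _ ≤ 81 * (a i * Q ^ 2 * (Z0 * Zu / ZW ^ 2)) := by
            refine mul_le_mul_of_nonneg_right h7 ?_
            have := ha i hi
            positivity
        _ = _ := by
            rw [mul_pow _ (√(a i)), Real.sq_sqrt (ha i hi), mul_pow _ (√(Z0 * Zu) / ZW), div_pow,
              Real.sq_sqrt (by positivity)]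
            ring
    rw [← Real.sqrt_sq (show 0 ≤ 9 * Q * (√(Z0 * Zu) / ZW) * √(a i) by positivity)]
    exact Real.sqrt_le_sqrt h6
  have h6 := h1.trans (add_le_add_right (Finset.sum_le_sum h5) _)
  rw [← Finset.mul_sum] at h6
  unfold NX
  rw [Ex_eWF hMt, Ex_eWF hMt] at h6
  simp only [add_zero, Prod.fst_zero, Prod.snd_zero, Matrix.mulVec_zero] at h6
  linarith

end graph

section main

variable {m n : ℕ} [NeZero ((m + 1) * (n + 2))] [NeZero ((m + 1) * 2)] {b : ℝ}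

/-- **the number of `NX` on the torus**, two constants -/
theorem nx_two2 (hb : 0 < b) {ξ : ℕ} (hξ : 0 < ξ) (w : Tor ((m + 1) * (n + 2)))
    {R0 l ρ0 ρ κ : ℕ} (h0 : 1 ≤ ρ0) (h1 : ρ0 ≤ ρ) (h2 : ρ + 1 ≤ κ) (h3 : 2 * (ρ0 + m + 3) ≤ l)
    {W : GE ((m + 1) * (n + 2))} (hW : Sup W (Far w (R0 + l)))
    {f : Tor ((m + 1) * (n + 2)) → ℝ} (hf : ∀ v, R0 < sd w v → f v = 0)
    (Pc : Finset (Tor ((m + 1) * (n + 2)))) (hPc : (Pc.card + 1) * (2 * κ) < m + 1)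
    (hPg : ∀ p ∈ Pc, sd w p ≤ R0 ∨ R0 + l ≤ sd w p)
    {ε : ℝ} (hε : 0 ≤ ε)
    (harm : ∀ p : VB m m, Dp p ρ → ArmLe ((m + 1) * 2) b hb.le ξ 0 (pt 0 p.1 p.2) ρ0 ρ ε)
    {QW dl : ℝ} (qW : ∀ s, GOK m n κ Pc s → QB m n b (1 / (ξ : ℝ) ^ 2) W s QW) (hQW : 0 ≤ QW)
    (hV : Vol m n b (1 / (ξ : ℝ) ^ 2) dl) {Zu : ℝ}
    (hZu : ∀ F', ZG ((m + 1) * (n + 2)) b (1 / (ξ : ℝ) ^ 2) (W.1, F') ≤ Zu) :
    NX (fun η : Ed ((m + 1) * (n + 2)) → ℤ => wM (eW (eS _) (eT _) (fun _ => wI b) η)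
        ((1 / (ξ : ℝ) ^ 2) • (1 : Matrix _ _ ℝ))) W.1
        (((1 / (ξ : ℝ) ^ 2) • (1 : Matrix _ _ ℝ)).mulVec W.2)
        (((1 / (ξ : ℝ) ^ 2) • (1 : Matrix _ _ ℝ)).mulVec f) ≤
      9 * (1 / (ξ : ℝ) ^ 2 * ∑ x, f x ^ 2) *
        (√(Z0 ((m + 1) * (n + 2)) b (1 / (ξ : ℝ) ^ 2) * Zu) / ZG _ b (1 / (ξ : ℝ) ^ 2) W) *
        ((((m + 1) * (n + 2) / ρ0 + 1 : ℕ) : ℝ) ^ 2 *
          √(ε ^ (1 / 4 : ℝ) * QW * Real.exp (2 * dl))) := by
  classical
  have ht : 0 < 1 / (ξ : ℝ) ^ 2 := by positivity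
  have h4 : κ ≤ m := by nlinarith [Nat.zero_le (Pc.card * (2 * κ))]
  obtain ⟨C, hC, hCn⟩ := net (N := (m + 1) * (n + 2)) ρ0 h0
  set k : ℕ := R0 + l / 2 with hk
  set J : Finset (Tor ((m + 1) * (n + 2))) :=
    C.filter fun c => ∃ z, sd w z = k ∧ z ∈ ball c ρ0 with hJ
  have hJc : (J.card : ℝ) ≤ (((m + 1) * (n + 2) / ρ0 + 1 : ℕ) : ℝ) ^ 2 := by
    have : J.card ≤ ((m + 1) * (n + 2) / ρ0 + 1) ^ 2 := (Finset.card_filter_le _ _).trans hC
    exact_mod_cast this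
  have hreg : ∀ c ∈ J, ∀ v, sd c v ≤ m + 1 → R0 < sd w v ∧ sd w v < R0 + l := by
    intro c hc v hv
    rw [hJ, Finset.mem_filter] at hc
    obtain ⟨_, z, hz, hzc⟩ := hc
    rw [mem_ball] at hzc
    have t1 := sd_tri w z c
    have t2 := sd_tri w c z
    rw [sd_symm z c] at t1
    have t3 := sd_tri w c v
    have t4 := sd_tri w v c
    rw [sd_symm v c] at t4
    omega
  have hdis : ∀ v, v ∈ ball w R0 → v ∉ Far w (R0 + l) := by
    intro v a1 a2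
    rw [mem_ball] at a1
    rw [mem_Far] at a2
    omega
  have g0 : ∀ e ∈ Efr (ball w R0) (Far w (R0 + l)), W.1 e = 0 := by
    intro e he
    unfold Efr at he
    rw [Finset.mem_filter] at he
    exact hW.e e (by tauto)
  have g1 : ∀ e, e ∉ Efr (ball w R0) (Far w (R0 + l)) →
      (eS _ e ∈ ball w R0 ∧ eT _ e ∈ ball w R0 ∧ W.1 e = 0) ∨
        (eS _ e ∈ Far w (R0 + l) ∧ eT _ e ∈ Far w (R0 + l)) := by
    intro e he
    unfold Efr at he
    rw [Finset.mem_filter] at he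
    have he' : (eS _ e ∈ ball w R0 ∧ eT _ e ∈ ball w R0) ∨
        (eS _ e ∈ Far w (R0 + l) ∧ eT _ e ∈ Far w (R0 + l)) := by
      by_contra hcon
      push Not at hcon
      exact he ⟨Finset.mem_univ _, fun h => hcon.1 h.1 h.2, fun h => hcon.2 h.1 h.2⟩
    rcases he' with ⟨k1, k2⟩ | ⟨k1, k2⟩
    · exact Or.inl ⟨k1, k2, hW.e e (Or.inl (hdis _ k1))⟩
    · exact Or.inr ⟨k1, k2⟩
  have g2 : ∀ v, v ∉ ball w R0 → f v = 0 := by
    intro v hv
    rw [mem_ball] at hv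
    exact hf v (by omega)
  have g3 : ∀ e : Ed ((m + 1) * (n + 2)), sd w (eS _ e) ≤ sd w (eT _ e) + 1 ∧
      sd w (eT _ e) ≤ sd w (eS _ e) + 1 := by
    intro e
    have t0 := sd_eS_eT e
    have t1 := sd_tri w (eT _ e) (eS _ e)
    have t2 := sd_tri w (eS _ e) (eT _ e)
    rw [sd_symm (eT _ e) (eS _ e)] at t1
    omega
  have g4 : ∀ v ∈ ball w R0, sd w v < k := by
    intro v hv
    rw [mem_ball] at hv
    omega
  have g5 : ∀ v ∈ Far w (R0 + l), k ≤ sd w v := by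
    intro v hv
    rw [mem_Far] at hv
    omega
  have g6 : ∀ z, sd w z = k → ∃ c ∈ J, z ∈ ball c ρ0 := by
    intro z hz
    obtain ⟨c, hc, hzc⟩ := hCn z
    exact ⟨c, Finset.mem_filter.2 ⟨hc, z, hz, hzc⟩, hzc⟩
  have g7 : ∀ c ∈ J, ∀ v ∈ ball w R0, v ∉ ball c ρ := by
    intro c hc v hv hv'
    rw [mem_ball] at hv hv'
    have := hreg c hc v (by omega)
    omega
  have hZ0' : Z0 ((m + 1) * (n + 2)) b (1 / (ξ : ℝ) ^ 2) =
      ZM (eW (eS _) (eT _) (fun _ => wI b) 0) ((1 / (ξ : ℝ) ^ 2) • (1 : Matrix _ _ ℝ)) 0 :=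
    (ZG_zero _ _ _).symm
  have key := nx_le2 (s := eS ((m + 1) * (n + 2))) (t := eT ((m + 1) * (n + 2)))
    (I := fun _ => wI b) (edW_wI hb) ht
    (fun _ => logC_wI hb.le) (E0 := Efr (ball w R0) (Far w (R0 + l))) (VP := ball w R0)
    (VW := Far w (R0 + l)) (W := W) g0 g1 hW.f g2 J (fun c => ball c ρ0) (fun c => ball c ρ)
    g3 g4 g5 g6 g7 (a := fun _ => ε ^ (1 / 4 : ℝ) * QW * Real.exp (2 * dl))
    (fun _ _ => by positivity) (Z0 := Z0 ((m + 1) * (n + 2)) b (1 / (ξ : ℝ) ^ 2))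
    (Zu := Zu) hZu hZ0'.symm
    (fun c hc => AB_W hb hξ w h1 h2 hW Pc hPc hPg hε harm qW hV c (hreg c hc))
  refine key.trans ?_
  rw [Finset.sum_const, nsmul_eq_mul]
  have hZW : 0 < ZG ((m + 1) * (n + 2)) b (1 / (ξ : ℝ) ^ 2) W := ZG_pos hb ht W
  have hS : 0 ≤ ∑ x, f x ^ 2 := Finset.sum_nonneg fun _ _ => sq_nonneg _
  refine mul_le_mul_of_nonneg_left (mul_le_mul_of_nonneg_right hJc (Real.sqrt_nonneg _)) ?_
  have e1 : ZM (eW (eS _) (eT _) (fun _ => wI b) W.1) ((1 / (ξ : ℝ) ^ 2) • (1 : Matrix _ _ ℝ)) W.2 =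
      ZG ((m + 1) * (n + 2)) b (1 / (ξ : ℝ) ^ 2) W := rfl
  rw [e1]
  positivity

end main

end Vale.Agent.P159.H764
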