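import Vale.Agent.P159.H145.Dz5

/-!
P159, helper764, module SWAP (1): the swap of two copies with DIFFERENT data, abstract form.

`σ : Sys V E S` carries the common edge weights, `GA`, `GB : (V → S) → ℝ≥0∞` everything else
(site weights, edges with data, spectators already summed).  If `GB (flip A x) = GA x` for every
vertex set `A ⊇ VW` which does not meet `VP`, then `∑ GA` and `∑ GB` differ at most by the weight
of the open sets in which `VW` is joined to `VP`; these are bounded by one-arm events at the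
points of a separating set `M` (`swap_le`, `swap_ge`).  `Arm1 σ Λ z` is the conditional
probability, given the configuration, that `z` is joined to the outside of `Λ`: a local function
with values in `[0,1]` (`Arm1_le_one`, `Arm1_local`).
-/

set_option linter.unusedSectionVars false
set_option linter.unusedDecidableInType false

namespace Vale.Agent.P159.H764

open scoped ENNReal
open Finset Vale.Agent.P159.TM.H60 Vale.Agent.P159.TM.H576
open Vale.Agent.P159.H145.Dz (I0 I0_eq touch sum_wt_cp exit cp_le_one cp_mono)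

variable {V E S : Type*} [Fintype V] [DecidableEq V] [Fintype E] [DecidableEq E]
variable (σ : Sys V E S)

/-- `z` is joined to the outside of `Λ` by open edges -/
def Out (Λ : Finset V) (z : V) (om : Finset E) : Prop := ∃ z', z' ∉ Λ ∧ Conn σ.s σ.t om z z'

/-- conditional probability, given the configuration, that `z` is joined to the outside of `Λ` -/
noncomputable def Arm1 (Λ : Finset V) (z : V) (x : V → S) : ℝ≥0∞ :=
  H145.Dz.cp σ (touch σ Λ) (fun T => ind (Out σ Λ z T)) x

lemma Arm1_le_one (hfl : ∀ e x y, 0 < σ.fl e x y) (Λ : Finset V) (z : V) (x : V → S) :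
    Arm1 σ Λ z x ≤ 1 :=
  cp_le_one σ hfl (fun _ => ind_le_one _) x

lemma out_touch (Λ : Finset V) (z : V) (om : Finset E) :
    Out σ Λ z om ↔ Out σ Λ z (om ∩ touch σ Λ) := by
  constructor
  · rintro ⟨z', h1, h2⟩
    exact exit σ h2 h1
  · rintro ⟨z', h1, h2⟩
    exact ⟨z', h1, h2.mono Finset.inter_subset_left⟩

/-- the arm function depends only on the end points of the edges which touch `Λ` -/
lemma Arm1_local {Λ : Finset V} {z : V} {x x' : V → S}
    (h : ∀ e ∈ touch σ Λ, x (σ.s e) = x' (σ.s e) ∧ x (σ.t e) = x' (σ.t e)) :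
    Arm1 σ Λ z x = Arm1 σ Λ z x' := by
  unfold Arm1 H145.Dz.cp
  refine Finset.sum_congr rfl fun T hT => ?_
  rw [Finset.mem_powerset] at hT
  congr 2
  · refine Finset.prod_congr rfl fun e he => ?_
    rw [(h e (hT he)).1, (h e (hT he)).2]
  · refine Finset.prod_congr rfl fun e he => ?_
    have h1 := (Finset.mem_sdiff.1 he).1
    rw [(h e h1).1, (h e h1).2]

/-- the sum of `G` over the configurations and the open sets with an arm at `z` -/
lemma arm_sum (hfl : ∀ e x y, 0 < σ.fl e x y) (G : (V → S) → ℝ≥0∞) (Λ : Finset V) (z : V) :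
    ∑ om : Finset E, ∑' x : V → S, ENNReal.ofReal (σ.wt om x) * G x * ind (Out σ Λ z om) =
      I0 σ fun x => G x * Arm1 σ Λ z x := by
  unfold I0
  rw [← Summable.tsum_finsetSum fun _ _ => ENNReal.summable]
  refine tsum_congr fun x => ?_
  have h1 := sum_wt_cp σ (x := x) (fun e => hfl _ _ _) (touch σ Λ) fun T => ind (Out σ Λ z T)
  have h2 : ∀ om : Finset E, ENNReal.ofReal (σ.wt om x) * G x * ind (Out σ Λ z om) =
      G x * (ENNReal.ofReal (σ.wt om x) * ind (Out σ Λ z (om ∩ touch σ Λ))) := by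
    intro om
    rw [ind_congr (out_touch σ Λ z om)]
    ring
  simp only [h2]
  rw [← Finset.mul_sum, h1]
  unfold Arm1
  ring

open Classical in
/-- the union of the clusters of `VW` -/
noncomputable def clW (VW : Finset V) (om : Finset E) : Finset V :=
  univ.filter fun v => ∃ u ∈ VW, Conn σ.s σ.t om u v

lemma mem_clW {VW : Finset V} {om : Finset E} {v : V} :
    v ∈ clW σ VW om ↔ ∃ u ∈ VW, Conn σ.s σ.t om u v := by
  unfold clW
  simp

lemma sub_clW {VW : Finset V} {om : Finset E} : VW ⊆ clW σ VW om := fun v hv =>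
  (mem_clW σ).2 ⟨v, hv, Conn.refl v⟩

lemma disj_bd {VW : Finset V} {om : Finset E} :
    Disjoint om (bdE σ.s σ.t (clW σ VW om)) := by
  rw [Finset.disjoint_left]
  intro e he hb
  rw [mem_bdE] at hb
  apply hb
  rw [mem_clW, mem_clW]
  constructor
  · rintro ⟨u, hu, hc⟩
    exact ⟨u, hu, hc.trans (Conn.edge he)⟩
  · rintro ⟨u, hu, hc⟩
    exact ⟨u, hu, hc.trans (Conn.edge he).symm⟩

/-- **swap, untwisted side**: `∑ GA ≤ ∑ GB + ∑_{z ∈ M} ∑ GA * arm_z` -/
theorem swap_le {GA GB : (V → S) → ℝ≥0∞} {VW VP : Finset V}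
    (hG : ∀ A : Finset V, VW ⊆ A → Disjoint A VP → ∀ x, GB (σ.flip A x) = GA x)
    (hfl : ∀ e x y, 0 < σ.fl e x y) {M : Finset V} {Λ : V → Finset V}
    (hM : ∀ om : Finset E, (∃ u ∈ VW, ∃ v ∈ VP, Conn σ.s σ.t om u v) →
      ∃ z ∈ M, Out σ (Λ z) z om) :
    I0 σ GA ≤ I0 σ GB + ∑ z ∈ M, I0 σ fun x => GA x * Arm1 σ (Λ z) z x := by
  rw [I0_eq, I0_eq]
  have e1 : ∑ z ∈ M, I0 σ (fun x => GA x * Arm1 σ (Λ z) z x) =
      ∑ om : Finset E, ∑' x : V → S, ∑ z ∈ M,
        ENNReal.ofReal (σ.wt om x) * GA x * ind (Out σ (Λ z) z om) := by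
    rw [Finset.sum_congr rfl fun z _ => (arm_sum σ hfl GA (Λ z) z).symm, Finset.sum_comm]
    refine Finset.sum_congr rfl fun om _ => ?_
    rw [Summable.tsum_finsetSum fun _ _ => ENNReal.summable]
  rw [e1, ← Finset.sum_add_distrib]
  refine Finset.sum_le_sum fun om _ => ?_
  by_cases hb : ∃ u ∈ VW, ∃ v ∈ VP, Conn σ.s σ.t om u v
  · obtain ⟨z, hz, ho⟩ := hM om hb
    refine le_add_left (ENNReal.tsum_le_tsum fun x => ?_)
    refine le_trans (le_of_eq ?_)
      (Finset.single_le_sum (f := fun z => ENNReal.ofReal (σ.wt om x) * GA x *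
        ind (Out σ (Λ z) z om)) (fun _ _ => zero_le) hz)
    rw [ind_true ho, mul_one]
  · push Not at hb
    refine le_add_right ?_
    have hd : Disjoint (clW σ VW om) VP := by
      rw [Finset.disjoint_left]
      intro v h1 h2
      obtain ⟨u, hu, hc⟩ := (mem_clW σ).1 h1
      exact hb u hu v h2 hc
    rw [← (σ.flipE (clW σ VW om)).tsum_eq (fun x => ENNReal.ofReal (σ.wt om x) * GB x)]
    refine (tsum_congr fun x => ?_).le
    show _ = ENNReal.ofReal (σ.wt om (σ.flip (clW σ VW om) x)) * GB (σ.flip (clW σ VW om) x)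
    rw [σ.wt_flip (disj_bd σ), hG _ (sub_clW σ) hd]

/-- **swap, the other side**: `∑ GB ≤ ∑ GA + ∑_{z ∈ M} ∑ GB * arm_z` -/
theorem swap_ge {GA GB : (V → S) → ℝ≥0∞} {VW VP : Finset V}
    (hG : ∀ A : Finset V, VW ⊆ A → Disjoint A VP → ∀ x, GB (σ.flip A x) = GA x)
    (hfl : ∀ e x y, 0 < σ.fl e x y) {M : Finset V} {Λ : V → Finset V}
    (hM : ∀ om : Finset E, (∃ u ∈ VW, ∃ v ∈ VP, Conn σ.s σ.t om u v) →
      ∃ z ∈ M, Out σ (Λ z) z om) :
    I0 σ GB ≤ I0 σ GA + ∑ z ∈ M, I0 σ fun x => GB x * Arm1 σ (Λ z) z x := by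
  refine swap_le σ (GA := GB) (GB := GA) (VW := VW) (VP := VP) (fun A h1 h2 x => ?_) hfl hM
  rw [← hG A h1 h2 (σ.flip A x), σ.flip_flip]

end Vale.Agent.P159.H764
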