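import Vale.Agent.P159.H764.Sw0
import Vale.Agent.P159.H770.DisT

/-!
P159, helper764, module SWAP (2): two copies on a finite graph with the data `X = (η, F)`
(dislocation and real background, letters `eWF` of helper770, scalar mass `t`).

`SwD E0 VP VW A1 A2 B1 B2` : the four data agree on the free edges `E0` and on the vertices outside
`VP ∪ VW`; on `VP` the pair `(B1, B2)` is `(A1, A2)`, on `VW` it is `(A2, A1)`.
`ZE X = ∑_h w_X(h)` in `[0,∞]`, `AZ X1 X2 Λ z = ∑_{h,h'} w_X1(h) w_X2(h') Arm1 Λ z (h,h')`.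
`sw1_le`, `sw1_ge` : `Z(A1) Z(A2)` and `Z(B1) Z(B2)` differ at most by the arms on `M`.
-/

set_option linter.unusedSectionVars false
set_option linter.unusedDecidableInType false

namespace Vale.Agent.P159.H764

open scoped ENNReal
open Finset Vale.Agent.P159.TM.H60 Vale.Agent.P159.TM.H576
open Vale.Agent.P159.H145.Dz (I0)
open Vale.Agent.P159.H770 (eW eWF)
open Vale.Agent.P159.H37 (ZM qf re)
open Vale.Agent.P159.T1.H897 (LogC)

/-- a shifted log-concave weight is log-concave -/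
lemma logC_shift_sw {w : ℤ → ℝ} (h : LogC w) (k : ℤ) : LogC fun n => w (n + k) := by
  intro a b c d h1 h2 h3
  exact h (a + k) (b + k) (c + k) (d + k) (by omega) (by omega) (by omega)

section graph

variable {V E : Type} [Fintype V] [DecidableEq V] [Fintype E] [DecidableEq E]

/-- edge weight of the free part: `I` shifted by the common dislocation on `E0`, `1` elsewhere -/
noncomputable def wF (I : E → ℤ → ℝ) (E0 : Finset E) (η0 : E → ℤ) (e : E) (n : ℤ) : ℝ :=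
  if e ∈ E0 then I e (n + η0 e) else 1

lemma wF_pos {I : E → ℤ → ℝ} (hI : ∀ e n, 0 < I e n) (E0 : Finset E) (η0 : E → ℤ) (e : E) (n : ℤ) :
    0 < wF I E0 η0 e n := by
  unfold wF
  split_ifs
  · exact hI _ _
  · exact one_pos

lemma wF_logC {I : E → ℤ → ℝ} (hL : ∀ e, LogC (I e)) (E0 : Finset E) (η0 : E → ℤ) (e : E) :
    LogC (wF I E0 η0 e) := by
  unfold wF
  by_cases he : e ∈ E0
  · simp only [he, if_true]
    exact logC_shift_sw (hL e) _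
  · simp only [he, if_false]
    exact T1.H897.logC_const 1

/-- the system of the free edges (no site weight) -/
noncomputable def sgF (s t : E → V) {I : E → ℤ → ℝ} (hI : ∀ e n, 0 < I e n)
    (hL : ∀ e, LogC (I e)) (E0 : Finset E) (η0 : E → ℤ) : Sys V E (ℤ × ℤ) :=
  two s t (wF I E0 η0) (fun e n => (wF_pos hI E0 η0 e n).le) (wF_logC hL E0 η0) (fun _ _ => 1)
    fun _ _ => zero_le_one

variable {s t : E → V} {I : E → ℤ → ℝ} (hI : ∀ e n, 0 < I e n) (hL : ∀ e, LogC (I e))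
  (E0 : Finset E) (η0 : E → ℤ)

lemma sgF_fl_pos (e : E) (x y : ℤ × ℤ) : 0 < (sgF s t hI hL E0 η0).fl e x y :=
  mul_pos (wF_pos hI E0 η0 e _) (wF_pos hI E0 η0 e _)

/-- site weight -/
noncomputable def gS (τ : ℝ) (F : V → ℝ) (v : V) (n : ℤ) : ℝ :=
  Real.exp (-(τ * ((n : ℝ) - F v) ^ 2 / 2))

/-- the part of the one copy weight which is not in the system -/
noncomputable def wR (s t : E → V) (I : E → ℤ → ℝ) (E0 : Finset E) (τ : ℝ)
    (X : (E → ℤ) × (V → ℝ)) (h : V → ℤ) : ℝ :=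
  (∏ e ∈ E0ᶜ, I e (h (t e) - h (s e) + X.1 e)) * ∏ v, gS τ X.2 v (h v)

/-- the one copy weight in product form -/
lemma eWF_prod (τ : ℝ) (X : (E → ℤ) × (V → ℝ)) (h : V → ℤ) :
    eWF s t I (τ • (1 : Matrix V V ℝ)) X h =
      (∏ e, I e (h (t e) - h (s e) + X.1 e)) * ∏ v, gS τ X.2 v (h v) := by
  unfold eWF eW gS
  congr 1
  rw [← Real.exp_sum]
  congr 1
  unfold qf
  rw [Finset.sum_neg_distrib, neg_inj, Finset.sum_div]
  refine Finset.sum_congr rfl fun v _ => ?_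
  rw [Finset.sum_eq_single v]
  · simp only [Matrix.smul_apply, Matrix.one_apply_eq, Pi.sub_apply, re, smul_eq_mul, mul_one]
    ring
  · intro y _ hy
    simp [Matrix.one_apply_ne hy.symm]
  · intro hv
    exact absurd (Finset.mem_univ v) hv

lemma eWF_split (τ : ℝ) {X : (E → ℤ) × (V → ℝ)} (hX : ∀ e ∈ E0, X.1 e = η0 e) (h : V → ℤ) :
    eWF s t I (τ • (1 : Matrix V V ℝ)) X h =
      (∏ e, wF I E0 η0 e (h (t e) - h (s e))) * wR s t I E0 τ X h := by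
  rw [eWF_prod]
  unfold wR
  rw [← mul_assoc]
  congr 1
  have h1 : ∏ e, wF I E0 η0 e (h (t e) - h (s e)) =
      ∏ e ∈ E0, I e (h (t e) - h (s e) + X.1 e) := by
    rw [← Finset.prod_mul_prod_compl E0]
    rw [Finset.prod_congr rfl (g := fun e => I e (h (t e) - h (s e) + X.1 e)) fun e he => by
      unfold wF
      rw [if_pos he, hX e he]]
    rw [Finset.prod_congr (s₁ := E0ᶜ) rfl (g := fun _ => (1 : ℝ)) fun e he => by
      unfold wF
      rw [if_neg (Finset.mem_compl.1 he)]]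
    rw [Finset.prod_const_one, mul_one]
  rw [h1, Finset.prod_mul_prod_compl]

/-- partition function in `[0,∞]` -/
noncomputable def ZE (s t : E → V) (I : E → ℤ → ℝ) (τ : ℝ) (X : (E → ℤ) × (V → ℝ)) : ℝ≥0∞ :=
  ∑' h : V → ℤ, ENNReal.ofReal (eWF s t I (τ • (1 : Matrix V V ℝ)) X h)

/-- the arm integral of the pair of data `(X1, X2)` -/
noncomputable def AZ (s t : E → V) {I : E → ℤ → ℝ} (hI : ∀ e n, 0 < I e n)
    (hL : ∀ e, LogC (I e)) (E0 : Finset E) (η0 : E → ℤ) (τ : ℝ) (X1 X2 : (E → ℤ) × (V → ℝ)) (Λ : Finset V) (z : V) : ℝ≥0∞ :=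
  ∑' h : V → ℤ, ∑' h' : V → ℤ, ENNReal.ofReal (eWF s t I (τ • (1 : Matrix V V ℝ)) X1 h) *
    (ENNReal.ofReal (eWF s t I (τ • (1 : Matrix V V ℝ)) X2 h') *
      Arm1 (sgF s t hI hL E0 η0) Λ z fun v => (h v, h' v))

/-- the remaining part of the two copy weight -/
noncomputable def wG (s t : E → V) (I : E → ℤ → ℝ) (E0 : Finset E) (τ : ℝ)
    (X1 X2 : (E → ℤ) × (V → ℝ)) (x : V → ℤ × ℤ) : ℝ≥0∞ :=
  ENNReal.ofReal (wR s t I E0 τ X1 (fun v => (x v).1)) *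
    ENNReal.ofReal (wR s t I E0 τ X2 fun v => (x v).2)

lemma wR_nonneg (hI : ∀ e n, 0 < I e n) (τ : ℝ) (X : (E → ℤ) × (V → ℝ)) (h : V → ℤ) :
    0 ≤ wR s t I E0 τ X h :=
  mul_nonneg (Finset.prod_nonneg fun _ _ => (hI _ _).le)
    (Finset.prod_nonneg fun _ _ => (Real.exp_pos _).le)

lemma tot_sgF (x : V → ℤ × ℤ) : (sgF s t hI hL E0 η0).tot x =
    (∏ e, wF I E0 η0 e ((x (t e)).1 - (x (s e)).1)) *
      ∏ e, wF I E0 η0 e ((x (t e)).2 - (x (s e)).2) := by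
  have h1 : (sgF s t hI hL E0 η0).tot x = (∏ e, wF I E0 η0 e ((x (t e)).1 - (x (s e)).1) *
      wF I E0 η0 e ((x (t e)).2 - (x (s e)).2)) * ∏ v : V, (1 : ℝ) * 1 := rfl
  rw [h1, Finset.prod_mul_distrib]
  simp

/-- the two copy sum of a function -/
lemma I0_wG (τ : ℝ) {X1 X2 : (E → ℤ) × (V → ℝ)} (h1 : ∀ e ∈ E0, X1.1 e = η0 e)
    (h2 : ∀ e ∈ E0, X2.1 e = η0 e) (f : (V → ℤ × ℤ) → ℝ≥0∞) :
    I0 (sgF s t hI hL E0 η0) (fun x => wG s t I E0 τ X1 X2 x * f x) =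
      ∑' h : V → ℤ, ∑' h' : V → ℤ, ENNReal.ofReal (eWF s t I (τ • (1 : Matrix V V ℝ)) X1 h) *
        (ENNReal.ofReal (eWF s t I (τ • (1 : Matrix V V ℝ)) X2 h') * f fun v => (h v, h' v)) := by
  unfold I0
  rw [← (H145.Dz.prE V).symm.tsum_eq, ENNReal.tsum_prod']
  refine tsum_congr fun h => tsum_congr fun h' => ?_
  have hp : ∀ k : V → ℤ, 0 ≤ ∏ e, wF I E0 η0 e (k (t e) - k (s e)) := fun k =>
    Finset.prod_nonneg fun e _ => (wF_pos hI E0 η0 e _).le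
  rw [eWF_split E0 η0 τ h1, eWF_split E0 η0 τ h2, ENNReal.ofReal_mul (hp h),
    ENNReal.ofReal_mul (hp h'), tot_sgF]
  have e1 : (H145.Dz.prE V).symm (h, h') = fun v => (h v, h' v) := rfl
  rw [e1]
  simp only
  rw [ENNReal.ofReal_mul (hp h)]
  unfold wG
  ring

lemma I0_wG_one (τ : ℝ) {X1 X2 : (E → ℤ) × (V → ℝ)} (h1 : ∀ e ∈ E0, X1.1 e = η0 e)
    (h2 : ∀ e ∈ E0, X2.1 e = η0 e) :
    I0 (sgF s t hI hL E0 η0) (wG s t I E0 τ X1 X2) = ZE s t I τ X1 * ZE s t I τ X2 := by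
  have h := I0_wG (s := s) (t := t) hI hL E0 η0 τ h1 h2 fun _ => 1
  simp only [mul_one] at h
  have e : (fun x => wG s t I E0 τ X1 X2 x) = wG s t I E0 τ X1 X2 := rfl
  rw [e] at h
  rw [h]
  unfold ZE
  rw [← ENNReal.tsum_mul_right]
  exact tsum_congr fun h => ENNReal.tsum_mul_left

/-- the data of the swap -/
structure SwD (s t : E → V) (E0 : Finset E) (VP VW : Finset V)
    (A1 A2 B1 B2 : (E → ℤ) × (V → ℝ)) : Prop where
  /-- free edges: the same data in all four -/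
  free : ∀ e ∈ E0, A2.1 e = A1.1 e ∧ B1.1 e = A1.1 e ∧ B2.1 e = A1.1 e
  /-- the other edges are in `VP` (same pair) or in `VW` (exchanged pair) -/
  edge : ∀ e, e ∉ E0 → (s e ∈ VP ∧ t e ∈ VP ∧ B1.1 e = A1.1 e ∧ B2.1 e = A2.1 e) ∨
    (s e ∈ VW ∧ t e ∈ VW ∧ B1.1 e = A2.1 e ∧ B2.1 e = A1.1 e)
  /-- sites -/
  site : ∀ v, (v ∈ VP ∧ B1.2 v = A1.2 v ∧ B2.2 v = A2.2 v) ∨
    (v ∈ VW ∧ B1.2 v = A2.2 v ∧ B2.2 v = A1.2 v) ∨
    (A2.2 v = A1.2 v ∧ B1.2 v = A1.2 v ∧ B2.2 v = A1.2 v)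

variable {E0} {VP VW : Finset V} {A1 A2 B1 B2 : (E → ℤ) × (V → ℝ)}

/-- the flip of a set `A ⊇ VW` disjoint from `VP` carries the pair `A` to the pair `B` -/
lemma SwD.flip_eq (D : SwD s t E0 VP VW A1 A2 B1 B2) (τ : ℝ) {A : Finset V} (hW : VW ⊆ A)
    (hP : Disjoint A VP) (x : V → ℤ × ℤ) :
    wG s t I E0 τ B1 B2 ((sgF s t hI hL E0 η0).flip A x) = wG s t I E0 τ A1 A2 x := by
  unfold wG
  rw [← ENNReal.ofReal_mul (wR_nonneg E0 hI τ _ _), ← ENNReal.ofReal_mul (wR_nonneg E0 hI τ _ _)]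
  congr 1
  set y := (sgF s t hI hL E0 η0).flip A x with hy
  have hin : ∀ v ∈ A, y v = ((x v).2, (x v).1) := fun v hv =>
    (sgF s t hI hL E0 η0).flip_mem hv
  have hout : ∀ v, v ∉ A → y v = x v := fun v hv => (sgF s t hI hL E0 η0).flip_not_mem hv
  have hPA : ∀ v ∈ VP, v ∉ A := fun v hv => Finset.disjoint_right.1 hP hv
  unfold wR
  have e1 : (∏ e ∈ E0ᶜ, I e ((y (t e)).1 - (y (s e)).1 + B1.1 e)) *
      ∏ e ∈ E0ᶜ, I e ((y (t e)).2 - (y (s e)).2 + B2.1 e) =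
      (∏ e ∈ E0ᶜ, I e ((x (t e)).1 - (x (s e)).1 + A1.1 e)) *
      ∏ e ∈ E0ᶜ, I e ((x (t e)).2 - (x (s e)).2 + A2.1 e) := by
    rw [← Finset.prod_mul_distrib, ← Finset.prod_mul_distrib]
    refine Finset.prod_congr rfl fun e he => ?_
    rcases D.edge e (Finset.mem_compl.1 he) with ⟨hs, ht, h1, h2⟩ | ⟨hs, ht, h1, h2⟩
    · rw [hout _ (hPA _ hs), hout _ (hPA _ ht), h1, h2]
    · rw [hin _ (hW hs), hin _ (hW ht), h1, h2]
      ring
  have e2 : (∏ v, gS τ B1.2 v (y v).1) * ∏ v, gS τ B2.2 v (y v).2 =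
      (∏ v, gS τ A1.2 v (x v).1) * ∏ v, gS τ A2.2 v (x v).2 := by
    rw [← Finset.prod_mul_distrib, ← Finset.prod_mul_distrib]
    refine Finset.prod_congr rfl fun v _ => ?_
    unfold gS
    rcases D.site v with ⟨hv, h1, h2⟩ | ⟨hv, h1, h2⟩ | ⟨h0, h1, h2⟩
    · rw [hout _ (hPA _ hv), h1, h2]
    · rw [hin _ (hW hv), h1, h2]
      ring
    · rw [h0, h1, h2]
      by_cases hA : v ∈ A
      · rw [hin _ hA]
        ring
      · rw [hout _ hA]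
  calc _ = ((∏ e ∈ E0ᶜ, I e ((y (t e)).1 - (y (s e)).1 + B1.1 e)) *
      ∏ e ∈ E0ᶜ, I e ((y (t e)).2 - (y (s e)).2 + B2.1 e)) *
      ((∏ v, gS τ B1.2 v (y v).1) * ∏ v, gS τ B2.2 v (y v).2) := by ring
    _ = _ := by
      rw [e1, e2]
      ring

/-- **(SW1), first direction** -/
theorem sw1_le (D : SwD s t E0 VP VW A1 A2 B1 B2) (τ : ℝ) {M : Finset V} {Λ : V → Finset V}
    (hM : ∀ om : Finset E, (∃ u ∈ VW, ∃ v ∈ VP, Conn s t om u v) →
      ∃ z ∈ M, ∃ z', z' ∉ Λ z ∧ Conn s t om z z') :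
    ZE s t I τ A1 * ZE s t I τ A2 ≤ ZE s t I τ B1 * ZE s t I τ B2 +
      ∑ z ∈ M, AZ s t hI hL E0 A1.1 τ A1 A2 (Λ z) z := by
  have h1 : ∀ e ∈ E0, A1.1 e = A1.1 e := fun _ _ => rfl
  have h2 : ∀ e ∈ E0, A2.1 e = A1.1 e := fun e he => (D.free e he).1
  have h3 : ∀ e ∈ E0, B1.1 e = A1.1 e := fun e he => (D.free e he).2.1
  have h4 : ∀ e ∈ E0, B2.1 e = A1.1 e := fun e he => (D.free e he).2.2
  rw [← I0_wG_one hI hL E0 A1.1 τ h1 h2, ← I0_wG_one hI hL E0 A1.1 τ h3 h4]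
  refine (swap_le (sgF s t hI hL E0 A1.1) (GA := wG s t I E0 τ A1 A2)
    (GB := wG s t I E0 τ B1 B2) (VW := VW) (VP := VP)
    (fun A hA hP x => D.flip_eq hI hL A1.1 τ hA hP x) (sgF_fl_pos hI hL E0 A1.1)
    (M := M) (Λ := Λ) hM).trans (le_of_eq ?_)
  congr 1
  refine Finset.sum_congr rfl fun z _ => ?_
  rw [I0_wG hI hL E0 A1.1 τ h1 h2]
  rfl

/-- **(SW1), second direction** -/
theorem sw1_ge (D : SwD s t E0 VP VW A1 A2 B1 B2) (τ : ℝ) {M : Finset V} {Λ : V → Finset V}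
    (hM : ∀ om : Finset E, (∃ u ∈ VW, ∃ v ∈ VP, Conn s t om u v) →
      ∃ z ∈ M, ∃ z', z' ∉ Λ z ∧ Conn s t om z z') :
    ZE s t I τ B1 * ZE s t I τ B2 ≤ ZE s t I τ A1 * ZE s t I τ A2 +
      ∑ z ∈ M, AZ s t hI hL E0 A1.1 τ B1 B2 (Λ z) z := by
  have h1 : ∀ e ∈ E0, A1.1 e = A1.1 e := fun _ _ => rfl
  have h2 : ∀ e ∈ E0, A2.1 e = A1.1 e := fun e he => (D.free e he).1
  have h3 : ∀ e ∈ E0, B1.1 e = A1.1 e := fun e he => (D.free e he).2.1
  have h4 : ∀ e ∈ E0, B2.1 e = A1.1 e := fun e he => (D.free e he).2.2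
  rw [← I0_wG_one hI hL E0 A1.1 τ h1 h2, ← I0_wG_one hI hL E0 A1.1 τ h3 h4]
  refine (swap_ge (sgF s t hI hL E0 A1.1) (GA := wG s t I E0 τ A1 A2)
    (GB := wG s t I E0 τ B1 B2) (VW := VW) (VP := VP)
    (fun A hA hP x => D.flip_eq hI hL A1.1 τ hA hP x) (sgF_fl_pos hI hL E0 A1.1)
    (M := M) (Λ := Λ) hM).trans (le_of_eq ?_)
  congr 1
  refine Finset.sum_congr rfl fun z _ => ?_
  rw [I0_wG hI hL E0 A1.1 τ h3 h4]
  rfl

end graph

end Vale.Agent.P159.H764
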