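import Vale.Agent.P159.H764.Sw2

/-!
P159, helper764, module SWAP (4): the swap with a functional `f ≥ 0` of the heights on `VP`.

`SE X f = ∑_h w_X(h) f(h)`.  `swn_le` : `SE A1 f * Z(A2) ≤ SE B1 f * Z(B2) + ∑_i (...)`,
`swn_ex` : if `A_i(A1, A2) ≤ ε_i Z(A1) Z(A2)` and `Z(A1) Z(A2) = Z(B1) Z(B2)` then
`E^{A1} f ≤ E^{B1} f + ∑_i (ε_i E^{A1} f²)^{1/2}` (normalised expectations in real letters).
With `A = (W, 0)`, `B = (0, W)` : `E^W f - E^0 f` for `f` supported away from `W` (`nwu`).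
-/

set_option linter.unusedSectionVars false
set_option linter.unusedDecidableInType false

namespace Vale.Agent.P159.H764

open scoped ENNReal
open Finset Vale.Agent.P159.TM.H60 Vale.Agent.P159.TM.H576
open Vale.Agent.P159.H145.Dz (I0 cp_le_one)
open Vale.Agent.P159.H474.Cb (qa qa_le_one)
open Vale.Agent.P159.H770 (eW eWF EdW)
open Vale.Agent.P159.H37 (ZM qf re wM)
open Vale.Agent.P159.TM.H104 (EM T Ex li nh Gr)
open Vale.Agent.P159.T1.H897 (LogC)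

section graph

variable {V E : Type} [Fintype V] [DecidableEq V] [Fintype E] [DecidableEq E]
variable {s t : E → V} {I : E → ℤ → ℝ} (hI : ∀ e n, 0 < I e n) (hL : ∀ e, LogC (I e))

/-- weighted sum of a functional -/
noncomputable def SE (s t : E → V) (I : E → ℤ → ℝ) (τ : ℝ) (X : (E → ℤ) × (V → ℝ))
    (f : (V → ℤ) → ℝ≥0∞) : ℝ≥0∞ :=
  ∑' h : V → ℤ, ENNReal.ofReal (eWF s t I (τ • (1 : Matrix V V ℝ)) X h) * f h

lemma SE_one (τ : ℝ) (X : (E → ℤ) × (V → ℝ)) : SE s t I τ X (fun _ => 1) = ZE s t I τ X := by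
  unfold SE ZE
  simp only [mul_one]

/-- block arm integral with a functional of the first copy -/
noncomputable def ABf (s t : E → V) {I : E → ℤ → ℝ} (hI : ∀ e n, 0 < I e n)
    (hL : ∀ e, LogC (I e)) (E0 : Finset E) (η0 : E → ℤ) (τ : ℝ) (X1 X2 : (E → ℤ) × (V → ℝ))
    (f : (V → ℤ) → ℝ≥0∞) (B Λ : Finset V) : ℝ≥0∞ :=
  ∑' h : V → ℤ, ∑' h' : V → ℤ, ENNReal.ofReal (eWF s t I (τ • (1 : Matrix V V ℝ)) X1 h) *
    (ENNReal.ofReal (eWF s t I (τ • (1 : Matrix V V ℝ)) X2 h') *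
      (f h * qa (sgF s t hI hL E0 η0) B Λ fun v => (h v, h' v)))

/-- Cauchy-Schwarz -/
lemma ABf_sq (E0 : Finset E) (η0 : E → ℤ) (τ : ℝ) (X1 X2 : (E → ℤ) × (V → ℝ))
    (f : (V → ℤ) → ℝ≥0∞) (B Λ : Finset V) :
    ABf s t hI hL E0 η0 τ X1 X2 f B Λ ^ 2 ≤
      (SE s t I τ X1 (fun h => f h ^ 2) * ZE s t I τ X2) *
        AB s t hI hL E0 η0 τ X1 X2 B Λ := by
  have h := TM.H821.cs_tsum (K := (V → ℤ) × (V → ℤ))
    (fun p => ENNReal.ofReal (eWF s t I (τ • (1 : Matrix V V ℝ)) X1 p.1) *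
      ENNReal.ofReal (eWF s t I (τ • (1 : Matrix V V ℝ)) X2 p.2))
    (fun p => f p.1) (fun p => qa (sgF s t hI hL E0 η0) B Λ fun v => (p.1 v, p.2 v))
  have e1 : ∑' p : (V → ℤ) × (V → ℤ),
      ENNReal.ofReal (eWF s t I (τ • (1 : Matrix V V ℝ)) X1 p.1) *
      ENNReal.ofReal (eWF s t I (τ • (1 : Matrix V V ℝ)) X2 p.2) *
      (f p.1 * qa (sgF s t hI hL E0 η0) B Λ fun v => (p.1 v, p.2 v)) =
      ABf s t hI hL E0 η0 τ X1 X2 f B Λ := by
    rw [ENNReal.tsum_prod']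
    unfold ABf
    refine tsum_congr fun h => tsum_congr fun h' => ?_
    ring
  have e2 : ∑' p : (V → ℤ) × (V → ℤ),
      ENNReal.ofReal (eWF s t I (τ • (1 : Matrix V V ℝ)) X1 p.1) *
      ENNReal.ofReal (eWF s t I (τ • (1 : Matrix V V ℝ)) X2 p.2) * (f p.1 * f p.1) =
      SE s t I τ X1 (fun h => f h ^ 2) * ZE s t I τ X2 := by
    rw [ENNReal.tsum_prod']
    unfold SE ZE
    rw [← ENNReal.tsum_mul_right]
    refine tsum_congr fun h => ?_
    rw [← ENNReal.tsum_mul_left]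
    refine tsum_congr fun h' => ?_
    ring
  have e3 : ∑' p : (V → ℤ) × (V → ℤ),
      ENNReal.ofReal (eWF s t I (τ • (1 : Matrix V V ℝ)) X1 p.1) *
      ENNReal.ofReal (eWF s t I (τ • (1 : Matrix V V ℝ)) X2 p.2) *
      (qa (sgF s t hI hL E0 η0) B Λ (fun v => (p.1 v, p.2 v)) *
        qa (sgF s t hI hL E0 η0) B Λ fun v => (p.1 v, p.2 v)) ≤
      AB s t hI hL E0 η0 τ X1 X2 B Λ := by
    rw [ENNReal.tsum_prod']
    unfold AB
    refine ENNReal.tsum_le_tsum fun h => ENNReal.tsum_le_tsum fun h' => ?_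
    rw [mul_assoc]
    refine mul_le_mul' le_rfl (mul_le_mul' le_rfl ?_)
    refine (mul_le_mul' (qa_le_one _ (sgF_fl_pos hI hL E0 η0) _ _ _) le_rfl).trans ?_
    rw [one_mul]
  rw [e1, e2] at h
  exact h.trans (mul_le_mul' le_rfl e3)

variable {E0 : Finset E} {VP VW : Finset V} {A1 A2 B1 B2 : (E → ℤ) × (V → ℝ)}

/-- **the swap with a functional of the heights on `VP`** -/
theorem swn_le (D : SwD s t E0 VP VW A1 A2 B1 B2) (τ : ℝ) {f : (V → ℤ) → ℝ≥0∞}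
    (hf : ∀ h h' : V → ℤ, (∀ v ∈ VP, h v = h' v) → f h = f h') {ι : Type*} (J : Finset ι)
    (B Λ : ι → Finset V) {δ : V → ℕ} (hδ : ∀ e, δ (s e) ≤ δ (t e) + 1 ∧ δ (t e) ≤ δ (s e) + 1)
    {k : ℕ} (hP : ∀ v ∈ VP, δ v < k) (hW : ∀ v ∈ VW, k ≤ δ v)
    (hB : ∀ z, δ z = k → ∃ i ∈ J, z ∈ B i) (hΛ : ∀ i ∈ J, ∀ v ∈ VP, v ∉ Λ i) :
    SE s t I τ A1 f * ZE s t I τ A2 ≤ SE s t I τ B1 f * ZE s t I τ B2 +
      ∑ i ∈ J, ABf s t hI hL E0 A1.1 τ A1 A2 f (B i) (Λ i) := by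
  have h1 : ∀ e ∈ E0, A1.1 e = A1.1 e := fun _ _ => rfl
  have h2 : ∀ e ∈ E0, A2.1 e = A1.1 e := fun e he => (D.free e he).1
  have h3 : ∀ e ∈ E0, B1.1 e = A1.1 e := fun e he => (D.free e he).2.1
  have h4 : ∀ e ∈ E0, B2.1 e = A1.1 e := fun e he => (D.free e he).2.2
  have key : ∀ {X1 X2 : (E → ℤ) × (V → ℝ)}, (∀ e ∈ E0, X1.1 e = A1.1 e) →
      (∀ e ∈ E0, X2.1 e = A1.1 e) →
      I0 (sgF s t hI hL E0 A1.1) (fun x => wG s t I E0 τ X1 X2 x * f fun v => (x v).1) =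
        SE s t I τ X1 f * ZE s t I τ X2 := by
    intro X1 X2 k1 k2
    rw [I0_wG hI hL E0 A1.1 τ k1 k2 (fun x => f fun v => (x v).1)]
    unfold SE ZE
    rw [← ENNReal.tsum_mul_right]
    refine tsum_congr fun h => ?_
    rw [← ENNReal.tsum_mul_left]
    refine tsum_congr fun h' => ?_
    ring
  rw [← key h1 h2, ← key h3 h4]
  refine (swapB_le (sgF s t hI hL E0 A1.1)
    (GA := fun x => wG s t I E0 τ A1 A2 x * f fun v => (x v).1)
    (GB := fun x => wG s t I E0 τ B1 B2 x * f fun v => (x v).1) (VW := VW) (VP := VP)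
    (fun A hA hP' x => ?_) (sgF_fl_pos hI hL E0 A1.1)
    J B Λ hδ hP hW hB hΛ).trans (le_of_eq ?_)
  · rw [D.flip_eq hI hL A1.1 τ hA hP' x]
    congr 1
    refine hf _ _ fun v hv => ?_
    rw [(sgF s t hI hL E0 A1.1).flip_not_mem (Finset.disjoint_right.1 hP' hv)]
  · congr 1
    refine Finset.sum_congr rfl fun z _ => ?_
    have h5 := I0_wG (s := s) (t := t) hI hL E0 A1.1 τ h1 h2 (fun x => (f fun v => (x v).1) *
      qa (sgF s t hI hL E0 A1.1) (B z) (Λ z) x)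
    unfold ABf
    rw [← h5]
    simp only [mul_assoc]

/-! ### real letters -/

section real

variable (hE : EdW I) {τ : ℝ} (hτ : 0 < τ)

include hE hτ

lemma em_eWF (X : (E → ℤ) × (V → ℝ)) : EM (eWF s t I (τ • (1 : Matrix V V ℝ)) X) := by
  have hM : (τ • (1 : Matrix V V ℝ)).transpose = τ • (1 : Matrix V V ℝ) := by
    rw [Matrix.transpose_smul, Matrix.transpose_one]
  refine (H770.disF_bg (s := s) (t := t) hE hM hτ fun u => ?_).em X
  unfold qf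
  rw [Finset.mul_sum]
  refine Finset.sum_le_sum fun v _ => ?_
  rw [Finset.sum_eq_single v]
  · simp only [Matrix.smul_apply, Matrix.one_apply_eq, smul_eq_mul, mul_one]
    exact le_of_eq (by ring)
  · intro y _ hy
    simp [Matrix.one_apply_ne hy.symm]
  · intro hv
    exact absurd (Finset.mem_univ v) hv

lemma SE_real (X : (E → ℤ) × (V → ℝ)) {f : (V → ℤ) → ℝ} (hf0 : ∀ h, 0 ≤ f h) (hf : Gr f) :
    SE s t I τ X (fun h => ENNReal.ofReal (f h)) =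
      ENNReal.ofReal (TM.H104.T (eWF s t I (τ • (1 : Matrix V V ℝ)) X) 0 f) := by
  have hEM := em_eWF (s := s) (t := t) hE hτ X
  unfold SE TM.H104.T
  rw [ENNReal.ofReal_tsum_of_nonneg]
  · refine tsum_congr fun h => ?_
    rw [TM.H104.li_zero, Real.exp_zero, mul_one, ← ENNReal.ofReal_mul (hEM.nn h), mul_comm]
  · intro h
    have := Real.exp_pos (li 0 h)
    exact mul_nonneg (mul_nonneg (hf0 h) (hEM.nn h)) this.le
  · exact hEM.summ hf 0

lemma ZE_real (X : (E → ℤ) × (V → ℝ)) : ZE s t I τ X =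
    ENNReal.ofReal (TM.H104.T (eWF s t I (τ • (1 : Matrix V V ℝ)) X) 0 fun _ => 1) := by
  have h := SE_real (s := s) (t := t) hE hτ X (f := fun _ => 1) (fun _ => zero_le_one)
    (TM.H104.Gr.const 1)
  rw [← h, ENNReal.ofReal_one, SE_one]

omit hE hτ in
/-- background against source (helper770's letters) -/
lemma T_eWF {M : Matrix V V ℝ} (hM : M.transpose = M) (q : (E → ℤ) × (V → ℝ)) (J : V → ℝ)
    (f : (V → ℤ) → ℝ) : TM.H104.T (eWF s t I M q) J f =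
      Real.exp (-(qf M q.2 / 2)) *
        TM.H104.T (wM (eW s t I q.1) M) (Matrix.mulVec M q.2 + J) f := by
  unfold TM.H104.T
  rw [← tsum_mul_left]
  refine tsum_congr fun h => ?_
  unfold wM eWF
  rw [TM.H104.li_add, H37.li_mass hM, H37.qf_sub_vec hM, Real.exp_add]
  have e : Real.exp (-((qf M (re h) + qf M q.2 - 2 * H37.bf M (re h) q.2) / 2)) =
      Real.exp (-(qf M q.2 / 2)) * Real.exp (-(qf M (re h) / 2)) *
        Real.exp (H37.bf M (re h) q.2) := by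
    rw [← Real.exp_add, ← Real.exp_add]
    congr 1
    ring
  rw [show qf M (re h) - 2 * H37.bf M (re h) q.2 + qf M q.2 =
    qf M (re h) + qf M q.2 - 2 * H37.bf M (re h) q.2 by ring, e]
  ring

omit hE hτ in
/-- expectations in the two letters -/
theorem Ex_eWF {M : Matrix V V ℝ} (hM : M.transpose = M) (q : (E → ℤ) × (V → ℝ)) (J : V → ℝ)
    (f : (V → ℤ) → ℝ) : Ex (eWF s t I M q) J f =
      Ex (wM (eW s t I q.1) M) (Matrix.mulVec M q.2 + J) f := by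
  unfold TM.H104.Ex
  rw [T_eWF hM, T_eWF hM, mul_div_mul_left _ _ (Real.exp_pos _).ne']

/-- **the swap with a functional, normalised**: `E^{A1} f ≤ E^{B1} f + ∑ (ε_i E^{A1} f²)^{1/2}` -/
theorem swn_ex (hL : ∀ e, LogC (I e)) (D : SwD s t E0 VP VW A1 A2 B1 B2)
    (hZ : ZE s t I τ A1 * ZE s t I τ A2 = ZE s t I τ B1 * ZE s t I τ B2)
    {f : (V → ℤ) → ℝ} (hf0 : ∀ h, 0 ≤ f h) (hfG : Gr f)
    (hf : ∀ h h' : V → ℤ, (∀ v ∈ VP, h v = h' v) → f h = f h') {ι : Type*} (J : Finset ι)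
    (B Λ : ι → Finset V) {δ : V → ℕ} (hδ : ∀ e, δ (s e) ≤ δ (t e) + 1 ∧ δ (t e) ≤ δ (s e) + 1)
    {k : ℕ} (hP : ∀ v ∈ VP, δ v < k) (hW : ∀ v ∈ VW, k ≤ δ v)
    (hB : ∀ z, δ z = k → ∃ i ∈ J, z ∈ B i) (hΛ : ∀ i ∈ J, ∀ v ∈ VP, v ∉ Λ i) {ε : ι → ℝ}
    (hA : ∀ i ∈ J, AB s t hE.pos hL E0 A1.1 τ A1 A2 (B i) (Λ i) ≤
      ENNReal.ofReal (ε i) * (ZE s t I τ A1 * ZE s t I τ A2)) :
    Ex (eWF s t I (τ • (1 : Matrix V V ℝ)) A1) 0 f ≤
      Ex (eWF s t I (τ • (1 : Matrix V V ℝ)) B1) 0 f +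
        ∑ i ∈ J, √(ε i * Ex (eWF s t I (τ • (1 : Matrix V V ℝ)) A1) 0 fun h => f h ^ 2) := by
  have h1 := swn_le hE.pos hL D τ (f := fun h => ENNReal.ofReal (f h))
    (fun h h' hh => by rw [hf h h' hh]) J B Λ hδ hP hW hB hΛ
  have pos : ∀ X : (E → ℤ) × (V → ℝ),
      0 < TM.H104.T (eWF s t I (τ • (1 : Matrix V V ℝ)) X) 0 fun _ => 1 := fun X =>
    TM.H104.T_one_pos (em_eWF (s := s) (t := t) hE hτ X) 0
  have hfG2 : Gr fun h => f h ^ 2 := by
    have := hfG.mul hfG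
    simpa only [pow_two] using this
  have eSE : ∀ (X : (E → ℤ) × (V → ℝ)), SE s t I τ X (fun h => ENNReal.ofReal (f h)) =
      ENNReal.ofReal (TM.H104.T (eWF s t I (τ • (1 : Matrix V V ℝ)) X) 0 f) := fun X =>
    SE_real (s := s) (t := t) hE hτ X hf0 hfG
  have eSE2 : ∀ (X : (E → ℤ) × (V → ℝ)), SE s t I τ X (fun h => ENNReal.ofReal (f h) ^ 2) =
      ENNReal.ofReal (TM.H104.T (eWF s t I (τ • (1 : Matrix V V ℝ)) X) 0 fun h => f h ^ 2) := by
    intro X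
    rw [← SE_real (s := s) (t := t) hE hτ X (fun h => sq_nonneg (f h)) hfG2]
    congr 1
    funext h
    rw [ENNReal.ofReal_pow (hf0 h)]
  have eZE : ∀ X : (E → ℤ) × (V → ℝ), ZE s t I τ X =
      ENNReal.ofReal (TM.H104.T (eWF s t I (τ • (1 : Matrix V V ℝ)) X) 0 fun _ => 1) := fun X =>
    ZE_real (s := s) (t := t) hE hτ X
  have nn : ∀ (X : (E → ℤ) × (V → ℝ)) {g : (V → ℤ) → ℝ}, (∀ h, 0 ≤ g h) →
      0 ≤ TM.H104.T (eWF s t I (τ • (1 : Matrix V V ℝ)) X) 0 g := by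
    intro X g hg
    refine tsum_nonneg fun h => ?_
    exact mul_nonneg (mul_nonneg (hg h) ((em_eWF (s := s) (t := t) hE hτ X).nn h))
      (Real.exp_pos _).le
  set z1 := TM.H104.T (eWF s t I (τ • (1 : Matrix V V ℝ)) A1) 0 fun _ => 1 with hz1
  set z2 := TM.H104.T (eWF s t I (τ • (1 : Matrix V V ℝ)) A2) 0 fun _ => 1 with hz2
  set y1 := TM.H104.T (eWF s t I (τ • (1 : Matrix V V ℝ)) B1) 0 fun _ => 1 with hy1
  set y2 := TM.H104.T (eWF s t I (τ • (1 : Matrix V V ℝ)) B2) 0 fun _ => 1 with hy2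
  set a := TM.H104.T (eWF s t I (τ • (1 : Matrix V V ℝ)) A1) 0 f with ha
  set b := TM.H104.T (eWF s t I (τ • (1 : Matrix V V ℝ)) B1) 0 f with hb
  set a2 := TM.H104.T (eWF s t I (τ • (1 : Matrix V V ℝ)) A1) 0 (fun h => f h ^ 2) with ha2
  have pz1 : 0 < z1 := pos A1
  have pz2 : 0 < z2 := pos A2
  have py1 : 0 < y1 := pos B1
  have py2 : 0 < y2 := pos B2
  have pa2 : 0 ≤ a2 := nn A1 fun h => sq_nonneg (f h)
  have pa : 0 ≤ a := nn A1 hf0
  have pb : 0 ≤ b := nn B1 hf0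
  have hzy : z1 * z2 = y1 * y2 := by
    rw [eZE, eZE, eZE, eZE, ← ENNReal.ofReal_mul (pos _).le, ← ENNReal.ofReal_mul (pos _).le] at hZ
    exact (ENNReal.ofReal_eq_ofReal_iff (by positivity) (by positivity)).1 hZ
  -- each arm term
  have hi : ∀ i ∈ J, ABf s t hE.pos hL E0 A1.1 τ A1 A2 (fun h => ENNReal.ofReal (f h)) (B i) (Λ i) ≤
      ENNReal.ofReal (√(ε i * (a2 / z1)) * (z1 * z2)) := by
    intro i hi
    have h2 := ABf_sq (s := s) (t := t) hE.pos hL E0 A1.1 τ A1 A2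
      (fun h => ENNReal.ofReal (f h)) (B i) (Λ i)
    have h3 := h2.trans (mul_le_mul' le_rfl (hA i hi))
    rw [eSE2, eZE, eZE, ← ha2, ← hz1, ← hz2] at h3
    rcases lt_or_ge (ε i) 0 with hneg | hnn
    · rw [ENNReal.ofReal_of_nonpos hneg.le, zero_mul, mul_zero] at h3
      have h4 : ABf s t hE.pos hL E0 A1.1 τ A1 A2 (fun h => ENNReal.ofReal (f h)) (B i) (Λ i) = 0 := by
        have := le_antisymm h3 bot_le
        exact pow_eq_zero_iff (two_ne_zero) |>.1 this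
      rw [h4]
      exact bot_le
    · rw [← ENNReal.ofReal_mul pz1.le, ← ENNReal.ofReal_mul hnn, ← ENNReal.ofReal_mul pa2,
        ← ENNReal.ofReal_mul (by positivity)] at h3
      have h5 : a2 * z2 * (ε i * (z1 * z2)) = (√(ε i * (a2 / z1)) * (z1 * z2)) ^ 2 := by
        rw [mul_pow, Real.sq_sqrt (by positivity)]
        field_simp
      rw [h5, ENNReal.ofReal_pow (by positivity)] at h3
      exact (ENNReal.pow_le_pow_left_iff two_ne_zero).1 h3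
  have h6 := h1.trans (add_le_add_right (Finset.sum_le_sum hi) _)
  rw [eSE, eSE, eZE, eZE, ← ha, ← hb, ← hz2, ← hy2, ← ENNReal.ofReal_mul pa,
    ← ENNReal.ofReal_mul pb, ← ENNReal.ofReal_sum_of_nonneg (fun i _ => by positivity),
    ← ENNReal.ofReal_add (by positivity) (Finset.sum_nonneg fun i _ => by positivity),
    ENNReal.ofReal_le_ofReal_iff (add_nonneg (by positivity)
      (Finset.sum_nonneg fun i _ => by positivity))] at h6
  rw [← Finset.sum_mul] at h6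
  show a / z1 ≤ b / y1 + ∑ i ∈ J, √(ε i * (a2 / z1))
  have h7 : a / z1 = a * z2 / (z1 * z2) := by field_simp
  have h8 : b / y1 = b * y2 / (z1 * z2) := by rw [hzy]; field_simp
  rw [h7, h8, div_add' _ _ _ (by positivity), div_le_div_iff_of_pos_right (by positivity)]
  exact h6

end real

end graph

end Vale.Agent.P159.H764
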