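import Vale.Agent.P159.H764.Tk0

/-!
P159 (helper764), S, module CUT: the bridge core by core (row 9543 of helper773).

`dec_T0`, `dec_T1` : the decorations `T0 κ`, `T1 κ` of helper145 at the window data of `F + g` are the
smeared decorations (helper276's `dcp`, by unfolding) of the tent average at the cores `0`, `R e1`;
`dec_T0_flow`, `dec_T1_flow` : the same with the half side `DC n k`, from `7 ≤ k`, `2 ^ (n + k) ≤ R`.
-/

set_option linter.unusedSectionVars false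

open Finset

namespace Vale.Agent.P159.H764.Tk

open Vale.Agent.P159.TM.Spec (V)
open Vale.Agent.P159.H817 (dec)
open Vale.Agent.P159.H733.Torg (ip)
open Vale.Agent.P159.H191 (mn chi)
open Vale.Agent.P159.H708 (wd_inl wd_inr)
open Vale.Agent.P159.H686 (wdS)
open Vale.Agent.P159.H773 (sd ax0 wdF)
open Vale.Agent.P159.H145.Sp (bZ zL zR T0 T1 wB muK lC DC HF)

noncomputable section

variable {i n k q D R : ℕ} {κ : ℤ × ℤ → ℝ}

lemma ax0_e1 (i R : ℕ) : ax0 (sd i R) R = R • (H817.e1 : V (sd i R)) := by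
  rw [H817.nsmul_e1]
  rfl

/-- the left window data -/
lemma zL_win (g F : V (sd i R) → ℝ) (a c : ℤ) (ha : a.natAbs ≤ D) (hc : c.natAbs ≤ D) :
    zL (wdS (sd i) D R g F) a c = (F + g) (0 + ip (sd i R) (a, c)) - (F + g) 0 := by
  have hm : ((a, c) : ℤ × ℤ) ∈ (Finset.Icc (-(D : ℤ)) D) ×ˢ (Finset.Icc (-(D : ℤ)) D) :=
    mem_bZ.2 ⟨ha, hc⟩
  unfold zL
  rw [dif_pos hm]
  unfold wdS wdF
  rw [wd_inl]

/-- the right window data -/
lemma zR_win (g F : V (sd i R) → ℝ) (a c : ℤ) (ha : a.natAbs ≤ D) (hc : c.natAbs ≤ D) :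
    zR (wdS (sd i) D R g F) a c =
      (F + g) (R • H817.e1 + ip (sd i R) (a, c)) - (F + g) (R • H817.e1) := by
  have hm : ((a, c) : ℤ × ℤ) ∈ (Finset.Icc (-(D : ℤ)) D) ×ˢ (Finset.Icc (-(D : ℤ)) D) :=
    mem_bZ.2 ⟨ha, hc⟩
  unfold zR
  rw [dif_pos hm]
  unfold wdS wdF
  rw [wd_inr, ax0_e1]

/-- **the core at the origin** -/
theorem dec_T0 (hκ : ∑ u ∈ bZ (lC n k), κ u = 1) (hq : 0 < q) (hD : 21 * lC n k + 2 ^ n + q ≤ D)
    (hN : 40 * lC n k + 4 * 2 ^ n < sd i R) (g F : V (sd i R) → ℝ) (x : V (sd i R)) :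
    dec (T0 κ n k q D (wdS (sd i) D R g F)) 0 x =
      ∑ v, wB (sd i R) (2 ^ n) v * (chi (lC n k) (x - v - 0) *
        (HF i q R g F x - mn (muK (sd i R) (lC n k) κ) (0 + v) (HF i q R g F))) := by
  unfold T0 HF
  rw [← half_eq hκ hq (by omega) hN (zL_win g F)]

/-- **the core at `R e1`** -/
theorem dec_T1 (hκ : ∑ u ∈ bZ (lC n k), κ u = 1) (hq : 0 < q) (hD : 21 * lC n k + 2 ^ n + q ≤ D)
    (hN : 40 * lC n k + 4 * 2 ^ n < sd i R) (g F : V (sd i R) → ℝ) (x : V (sd i R)) :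
    dec (T1 κ n k q D (wdS (sd i) D R g F)) (R • H817.e1) x =
      ∑ v, wB (sd i R) (2 ^ n) v * (chi (lC n k) (x - v - R • H817.e1) *
        (HF i q R g F x - mn (muK (sd i R) (lC n k) κ) (R • H817.e1 + v) (HF i q R g F))) := by
  unfold T1 HF
  rw [← half_eq hκ hq (by omega) hN (zR_win g F)]

lemma num_flow (hk : 7 ≤ k) (hR : 2 ^ (n + k) ≤ R) (hqn : q ≤ 2 ^ n) :
    21 * lC n k + 2 ^ n + q ≤ DC n k ∧ 40 * lC n k + 4 * 2 ^ n < sd i R := by
  have h1 : 2 ^ n ≤ lC n k := Nat.pow_le_pow_right (by norm_num) (Nat.le_add_right _ _)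
  have h2 : 64 * lC n k ≤ 2 ^ (n + k) := by
    unfold lC
    have e : (64 : ℕ) = 2 ^ 6 := by norm_num
    rw [e, ← pow_add]
    exact Nat.pow_le_pow_right (by norm_num) (by omega)
  have h3 : R ≤ sd i R := (Nat.le_mul_of_pos_left R (by positivity)).trans (H773.sd_ge i R)
  have h4 : 0 < lC n k := by
    unfold lC
    positivity
  refine ⟨?_, by omega⟩
  unfold DC
  omega

theorem dec_T0_flow (hκ : ∑ u ∈ bZ (lC n k), κ u = 1) (hq : 0 < q) (hqn : q ≤ 2 ^ n) (hk : 7 ≤ k)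
    (hR : 2 ^ (n + k) ≤ R) (g F : V (sd i R) → ℝ) (x : V (sd i R)) :
    dec (T0 κ n k q (DC n k) (wdS (sd i) (DC n k) R g F)) 0 x =
      ∑ v, wB (sd i R) (2 ^ n) v * (chi (lC n k) (x - v - 0) *
        (HF i q R g F x - mn (muK (sd i R) (lC n k) κ) (0 + v) (HF i q R g F))) :=
  dec_T0 hκ hq (num_flow (i := i) hk hR hqn).1 (num_flow (i := i) hk hR hqn).2 g F x

theorem dec_T1_flow (hκ : ∑ u ∈ bZ (lC n k), κ u = 1) (hq : 0 < q) (hqn : q ≤ 2 ^ n) (hk : 7 ≤ k)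
    (hR : 2 ^ (n + k) ≤ R) (g F : V (sd i R) → ℝ) (x : V (sd i R)) :
    dec (T1 κ n k q (DC n k) (wdS (sd i) (DC n k) R g F)) (R • H817.e1) x =
      ∑ v, wB (sd i R) (2 ^ n) v * (chi (lC n k) (x - v - R • H817.e1) *
        (HF i q R g F x - mn (muK (sd i R) (lC n k) κ) (R • H817.e1 + v) (HF i q R g F))) :=
  dec_T1 hκ hq (num_flow (i := i) hk hR hqn).1 (num_flow (i := i) hk hR hqn).2 g F x

end

end Vale.Agent.P159.H764.Tk
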